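import Vale.Agent.P255.MathlibUsed

set_option linter.all false

section

section

/-!
# P255: Christoffel symbols, curvature and covariant derivative in coordinates
-/

open scoped Manifold ContDiff Topology
open Set

noncomputable section

namespace Vale.Agent.P255

variable {E : Type} [NormedAddCommGroup E] [NormedSpace ℝ E]

/-- Christoffel symbols of a coefficient function `G`: `chris G u v w` is the vector with
`G_u(chris, z) = 1/2 (D_v G (w,z) + D_w G (v,z) - D_z G (v,w))`. -/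
def chris (G : E → E →L[ℝ] E →L[ℝ] ℝ) (u v w : E) : E :=
  (G u).inverse ((1 / 2 : ℝ) • (fderiv ℝ G u v w + fderiv ℝ G u w v
    - ((fderiv ℝ G u).flip v).flip w))

/-- Curvature tensor `R(x,y)z` in coordinates. -/
def curv (G : E → E →L[ℝ] E →L[ℝ] ℝ) (u x y z : E) : E :=
  fderiv ℝ (fun p => chris G p y z) u x - fderiv ℝ (fun p => chris G p x z) u y
    + chris G u x (chris G u y z) - chris G u y (chris G u x z)

/-- Covariant derivative, along the curve `c`, of the field `Y`. -/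
def covD (G : E → E →L[ℝ] E →L[ℝ] ℝ) (c Y : ℝ → E) (t : ℝ) : E :=
  deriv Y t + chris G (c t) (deriv c t) (Y t)


end Vale.Agent.P255
end
end
end

section

section

/-!
# P255: basic definitions (metric, Christoffel symbols, curvature, geodesics, Jacobi fields)
All notions are written in the charts `chartAt E a` of a manifold modelled on a
normed space `E`.
-/

open scoped Manifold ContDiff Topology
open Set

noncomputable section

namespace Vale.Agent.P255

section Mfd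

variable (E : Type) [NormedAddCommGroup E] [NormedSpace ℝ E]
variable (M : Type) [TopologicalSpace M] [ChartedSpace E M]

variable {M} in
/-- Coordinate change from the chart at `a` to the chart at `b`. -/
def trans (a b : M) (u : E) : E := chartAt E b ((chartAt E a).symm u)

/-- A Riemannian metric, given by its coefficients in all charts `chartAt E a`. -/
structure Metric where
  coef : M → E → E →L[ℝ] E →L[ℝ] ℝ
  smooth : ∀ a, ContDiffOn ℝ ∞ (coef a) (chartAt E a).target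
  symm : ∀ a, ∀ u ∈ (chartAt E a).target, ∀ v w, coef a u v w = coef a u w v
  pos : ∀ a, ∀ u ∈ (chartAt E a).target, ∀ v, v ≠ 0 → 0 < coef a u v v
  compat : ∀ a b, ∀ u ∈ (chartAt E a).target, (chartAt E a).symm u ∈ (chartAt E b).source →
    ∀ v w, coef b (trans E a b u) (fderiv ℝ (trans E a b) u v) (fderiv ℝ (trans E a b) u w)
      = coef a u v w

variable {E M}

/-- The curve `γ` read in the chart at `a`. -/
def cc (γ : ℝ → M) (a : M) (t : ℝ) : E := chartAt E a (γ t)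

/-- `γ` is a geodesic on the set of times `s` (usually open). -/
structure IsGeodesicOn (g : Metric E M) (γ : ℝ → M) (s : Set ℝ) : Prop where
  cont : ContinuousOn γ s
  eqn : ∀ a, ∀ t ∈ s, γ t ∈ (chartAt E a).source →
    DifferentiableAt ℝ (cc (E := E) γ a) t ∧
    DifferentiableAt ℝ (deriv (cc (E := E) γ a)) t ∧
    deriv (deriv (cc (E := E) γ a)) t =
      - chris (g.coef a) (cc γ a t) (deriv (cc γ a) t) (deriv (cc γ a) t)

/-- Geodesics, defined for all times. -/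
def IsGeodesic (g : Metric E M) (γ : ℝ → M) : Prop := IsGeodesicOn g γ univ

/-- A vector field along `γ`, given by its components `J a t` in the charts containing
`γ t`, satisfying the tensor transformation rule, and the Jacobi equation
`D_t D_t J + R(J, γ') γ' = 0`. -/
structure IsJacobi (g : Metric E M) (γ : ℝ → M) (J : M → ℝ → E) : Prop where
  compat : ∀ a b t, γ t ∈ (chartAt E a).source → γ t ∈ (chartAt E b).source →
    J b t = fderiv ℝ (trans E a b) (cc γ a t) (J a t)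
  eqn : ∀ a t, γ t ∈ (chartAt E a).source →
    DifferentiableAt ℝ (J a) t ∧
    DifferentiableAt ℝ (covD (g.coef a) (cc γ a) (J a)) t ∧
    covD (g.coef a) (cc γ a) (covD (g.coef a) (cc γ a) (J a)) t
      + curv (g.coef a) (cc γ a t) (J a t) (deriv (cc γ a) t) (deriv (cc γ a) t) = 0

/-- No conjugate points: a Jacobi field along a geodesic that vanishes at two distinct
times vanishes identically. -/
def NoConj (g : Metric E M) : Prop :=
  ∀ (γ : ℝ → M) (J : M → ℝ → E), IsGeodesic g γ → IsJacobi g γ J →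
    ∀ t₁ t₂ : ℝ, t₁ ≠ t₂ → J (γ t₁) t₁ = 0 → J (γ t₂) t₂ = 0 →
    ∀ a t, γ t ∈ (chartAt E a).source → J a t = 0

/-- Nonpositive sectional curvature. -/
def Npc (g : Metric E M) : Prop :=
  ∀ a, ∀ u ∈ (chartAt E a).target, ∀ v w, g.coef a u (curv (g.coef a) u v w w) v ≤ 0

/-- The inner product on `E` given by the metric at `m` (read in the chart at `m`). -/
def Metric.ip (g : Metric E M) (m : M) : E →L[ℝ] E →L[ℝ] ℝ :=
  g.coef m (chartAt E m m)

end Mfd

end Vale.Agent.P255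
end
end
end

section

section

/-!
# P255: the explicit functions, coordinate domains, gluing relation and metric coefficients
-/

open scoped Manifold ContDiff Topology
open Set

noncomputable section

namespace Vale.Agent.P255

/-- Coordinates. -/
abbrev E3 : Type := EuclideanSpace ℝ (Fin 3)

/-- convex profile: `0` for `s ≤ 0`, slope `smoothTransition (s/2)`, equal to `s - 1` for `s ≥ 2` -/
def P (s : ℝ) : ℝ := ∫ u in (0 : ℝ)..s, Real.smoothTransition (u / 2)

/-- radius of the boundary circle of the left piece; `φ t = 1 - t` for `t ≤ -1`, `1` for `t ≥ 1`. -/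
def phi (t : ℝ) : ℝ := 1 + P (1 - t)

/-- `χ t = 1` for `t ≤ 0`, `1 + δ (t - 1)` for `t ≥ 2`. -/
def chi (δ t : ℝ) : ℝ := 1 + δ * P t

/-- `0` for `t ≤ 1/3`, `1` for `t ≥ 2/3` -/
def sig (t : ℝ) : ℝ := Real.smoothTransition (3 * t - 1)

/-- Metric coefficients in the collar, coordinates `(t,x,y)`:
`dt² + χ² dx² + φ² (dy + δ σ dx)²`. -/
def GC (δ : ℝ) (u : E3) : E3 →L[ℝ] E3 →L[ℝ] ℝ :=
  let pr : Fin 3 → (E3 →L[ℝ] ℝ) := fun i => EuclideanSpace.proj i
  let η : E3 →L[ℝ] ℝ := pr 2 + (δ * sig (u 0)) • pr 1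
  (pr 0).smulRight (pr 0) + (chi δ (u 0) ^ 2) • (pr 1).smulRight (pr 1)
    + (phi (u 0) ^ 2) • η.smulRight η

/-- Flat metric. -/
def GF : E3 →L[ℝ] E3 →L[ℝ] ℝ := innerSL ℝ

inductive Kind : Type
  | L | C | R
  deriving DecidableEq

/-- lattice sizes: left torus, right torus -/
def sL : ℝ := 10
def sR (δ : ℝ) : ℝ := 2 / δ + 10
/-- length of the left fibre -/
def per (δ : ℝ) : ℝ := 2 * Real.pi / δ

/-- coordinate domains -/
def Om (δ : ℝ) : Kind → Set E3
  | .L => {u | ∀ k l : ℤ, 2 ^ 2 < (u 0 - sL * k) ^ 2 + (u 1 - sL * l) ^ 2}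
  | .C => {u | -3 < u 0 ∧ u 0 < 4}
  | .R => {u | ∀ k l : ℤ, (1 / δ + 1) ^ 2 < (u 0 - sR δ * k) ^ 2 + (u 1 - sR δ * l) ^ 2}

/-- metric coefficients on the coordinate domains -/
def Gk (δ : ℝ) : Kind → E3 → E3 →L[ℝ] E3 →L[ℝ] ℝ
  | .L => fun _ => GF
  | .C => GC δ
  | .R => fun _ => GF

/-- `x ∈ c ℤ` -/
def Mult (c x : ℝ) : Prop := ∃ n : ℤ, x = c * n

/-- the gluing between the collar and the left piece -/
def relCL (δ : ℝ) (u v : E3) : Prop :=
  Mult sL (v 0 - phi (u 0) * Real.cos (u 2)) ∧ Mult sL (v 1 - phi (u 0) * Real.sin (u 2)) ∧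
    Mult (per δ) (v 2 - u 1)

/-- the gluing between the collar and the right piece -/
def relCR (δ : ℝ) (u v : E3) : Prop :=
  Mult (sR δ) (v 0 - chi δ (u 0) / δ * Real.cos (δ * u 1)) ∧
  Mult (sR δ) (v 1 - chi δ (u 0) / δ * Real.sin (δ * u 1)) ∧
    Mult (2 * Real.pi) (v 2 - (u 2 + δ * u 1))

/-- the gluing relation on the disjoint union of the coordinate domains -/
def rel (δ : ℝ) : Kind × E3 → Kind × E3 → Prop
  | (.L, u), (.L, v) => Mult sL (v 0 - u 0) ∧ Mult sL (v 1 - u 1) ∧ Mult (per δ) (v 2 - u 2)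
  | (.C, u), (.C, v) => v 0 = u 0 ∧ Mult (per δ) (v 1 - u 1) ∧ Mult (2 * Real.pi) (v 2 - u 2)
  | (.R, u), (.R, v) =>
      Mult (sR δ) (v 0 - u 0) ∧ Mult (sR δ) (v 1 - u 1) ∧ Mult (2 * Real.pi) (v 2 - u 2)
  | (.C, u), (.L, v) => relCL δ u v
  | (.L, v), (.C, u) => relCL δ u v
  | (.C, u), (.R, v) => relCR δ u v
  | (.R, v), (.C, u) => relCR δ u v
  | (.L, _), (.R, _) => False
  | (.R, _), (.L, _) => False

end Vale.Agent.P255
end
end
end

section

section

/-!
# P255: elementary properties of the profile functions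
-/

open scoped Manifold ContDiff Topology
open Set

noncomputable section

namespace Vale.Agent.P255

theorem smoothTransition_add_symm (x : ℝ) :
    Real.smoothTransition x + Real.smoothTransition (1 - x) = 1 := by
  unfold Real.smoothTransition
  rw [sub_sub_cancel]
  have h1 := expNegInvGlue.nonneg x
  have h2 := expNegInvGlue.nonneg (1 - x)
  have h3 := Real.smoothTransition.pos_denom x
  have h4 : expNegInvGlue (1 - x) + expNegInvGlue x ≠ 0 := by
    rw [add_comm]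
    exact h3.ne'
  rw [add_comm (expNegInvGlue (1 - x)) (expNegInvGlue x)]
  rw [← add_div, div_self h3.ne']

theorem continuous_stHalf : Continuous fun u : ℝ => Real.smoothTransition (u / 2) :=
  Real.smoothTransition.continuous.comp (continuous_id.div_const 2)

theorem hasDerivAt_P (s : ℝ) : HasDerivAt P (Real.smoothTransition (s / 2)) s :=
  (continuous_stHalf.integral_hasStrictDerivAt 0 s).hasDerivAt

theorem deriv_P : deriv P = fun s => Real.smoothTransition (s / 2) :=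
  funext fun s => (hasDerivAt_P s).deriv

theorem differentiable_P : Differentiable ℝ P := fun s => (hasDerivAt_P s).differentiableAt

theorem contDiff_P : ContDiff ℝ ∞ P := by
  rw [contDiff_infty_iff_deriv]
  refine ⟨differentiable_P, ?_⟩
  rw [deriv_P]
  exact Real.smoothTransition.contDiff.comp (contDiff_id.div_const 2)

theorem P_zero : P 0 = 0 := by simp [P]

theorem P_of_nonpos {s : ℝ} (hs : s ≤ 0) : P s = 0 := by
  unfold P
  rw [intervalIntegral.integral_symm]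
  have : ∫ u in s..0, Real.smoothTransition (u / 2) = ∫ u in s..0, (0 : ℝ) := by
    apply intervalIntegral.integral_congr
    intro u hu
    rw [uIcc_of_le hs] at hu
    exact Real.smoothTransition.zero_of_nonpos (by linarith [hu.2])
  rw [this]
  simp

theorem P_two : P 2 = 1 := by
  unfold P
  have h1 : ∫ u in (0 : ℝ)..2, Real.smoothTransition (u / 2)
      = ∫ u in (0 : ℝ)..2, Real.smoothTransition ((2 - u) / 2) := by
    have := intervalIntegral.integral_comp_sub_left (a := (0 : ℝ)) (b := 2)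
      (fun u => Real.smoothTransition (u / 2)) 2
    simp only [sub_self, sub_zero] at this
    exact this.symm
  have h2 : (∫ u in (0 : ℝ)..2, Real.smoothTransition (u / 2))
      + ∫ u in (0 : ℝ)..2, Real.smoothTransition ((2 - u) / 2) = 2 := by
    rw [← intervalIntegral.integral_add]
    · have : (fun u : ℝ => Real.smoothTransition (u / 2) + Real.smoothTransition ((2 - u) / 2))
          = fun _ => (1 : ℝ) := by
        funext u
        have := smoothTransition_add_symm (u / 2)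
        rwa [show 1 - u / 2 = (2 - u) / 2 by ring] at this
      rw [this]
      simp
    · exact continuous_stHalf.intervalIntegrable _ _
    · refine Continuous.intervalIntegrable ?_ _ _
      exact Real.smoothTransition.continuous.comp ((continuous_const.sub continuous_id).div_const 2)
  linarith

theorem P_of_two_le {s : ℝ} (hs : 2 ≤ s) : P s = s - 1 := by
  have h : P s = P 2 + ∫ u in (2 : ℝ)..s, Real.smoothTransition (u / 2) := by
    unfold P
    rw [intervalIntegral.integral_add_adjacent_intervals] <;>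
      exact continuous_stHalf.intervalIntegrable _ _
  have h2 : ∫ u in (2 : ℝ)..s, Real.smoothTransition (u / 2) = ∫ u in (2 : ℝ)..s, (1 : ℝ) := by
    apply intervalIntegral.integral_congr
    intro u hu
    rw [uIcc_of_le hs] at hu
    exact Real.smoothTransition.one_of_one_le (by linarith [hu.1])
  rw [h, P_two, h2]
  simp
  ring

theorem monotone_P : Monotone P := by
  apply monotone_of_deriv_nonneg differentiable_P
  intro s
  rw [deriv_P]
  exact Real.smoothTransition.nonneg _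

theorem P_nonneg (s : ℝ) : 0 ≤ P s := by
  rcases le_total s 0 with h | h
  · exact (P_of_nonpos h).ge
  · rw [← P_zero]; exact monotone_P h

theorem one_lt_P_iff {s : ℝ} : 1 < P s ↔ 2 < s := by
  constructor
  · intro h
    by_contra h2
    have := monotone_P (not_lt.1 h2)
    rw [P_two] at this
    linarith
  · intro h
    rw [P_of_two_le h.le]
    linarith

theorem contDiff_phi : ContDiff ℝ ∞ phi :=
  contDiff_const.add (contDiff_P.comp (contDiff_const.sub contDiff_id))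

theorem contDiff_chi (δ : ℝ) : ContDiff ℝ ∞ (chi δ) :=
  contDiff_const.add (contDiff_const.mul contDiff_P)

theorem contDiff_sig : ContDiff ℝ ∞ sig :=
  Real.smoothTransition.contDiff.comp ((contDiff_const.mul contDiff_id).sub contDiff_const)

theorem continuous_phi : Continuous phi := contDiff_phi.continuous
theorem continuous_chi (δ : ℝ) : Continuous (chi δ) := (contDiff_chi δ).continuous
theorem continuous_sig : Continuous sig := contDiff_sig.continuous

theorem one_le_phi (t : ℝ) : 1 ≤ phi t := by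
  unfold phi
  linarith [P_nonneg (1 - t)]

theorem phi_pos (t : ℝ) : 0 < phi t := lt_of_lt_of_le one_pos (one_le_phi t)

theorem one_le_chi {δ : ℝ} (hδ : 0 < δ) (t : ℝ) : 1 ≤ chi δ t := by
  unfold chi
  have := mul_nonneg hδ.le (P_nonneg t)
  linarith

theorem chi_pos {δ : ℝ} (hδ : 0 < δ) (t : ℝ) : 0 < chi δ t :=
  lt_of_lt_of_le one_pos (one_le_chi hδ t)

theorem phi_of_le {t : ℝ} (ht : t ≤ -1) : phi t = 1 - t := by
  unfold phi
  rw [P_of_two_le (by linarith)]
  ring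

theorem phi_of_ge {t : ℝ} (ht : 1 ≤ t) : phi t = 1 := by
  unfold phi
  rw [P_of_nonpos (by linarith)]
  ring

theorem two_lt_phi_iff {t : ℝ} : 2 < phi t ↔ t < -1 := by
  unfold phi
  constructor
  · intro h
    have : 1 < P (1 - t) := by linarith
    rw [one_lt_P_iff] at this
    linarith
  · intro h
    have : 1 < P (1 - t) := one_lt_P_iff.2 (by linarith)
    linarith

theorem phi_lt_four {t : ℝ} (ht : -3 < t) : phi t < 4 := by
  rcases le_total t (-1) with h | h
  · rw [phi_of_le h]; linarith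
  · have := monotone_P (show 1 - t ≤ 2 by linarith)
    rw [P_two] at this
    unfold phi
    linarith

theorem chi_of_le {δ t : ℝ} (ht : t ≤ 0) : chi δ t = 1 := by
  unfold chi
  rw [P_of_nonpos ht]
  ring

theorem chi_div {δ : ℝ} (hδ : 0 < δ) (t : ℝ) : chi δ t / δ = 1 / δ + P t := by
  unfold chi
  field_simp

theorem chi_div_pos {δ : ℝ} (hδ : 0 < δ) (t : ℝ) : 0 < chi δ t / δ := div_pos (chi_pos hδ t) hδ

theorem lt_chi_div_iff {δ : ℝ} (hδ : 0 < δ) {t : ℝ} : 1 / δ + 1 < chi δ t / δ ↔ 2 < t := by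
  rw [chi_div hδ, ← one_lt_P_iff]
  constructor <;> intro h <;> linarith

theorem chi_div_of_ge {δ : ℝ} (hδ : 0 < δ) {t : ℝ} (ht : 2 ≤ t) :
    chi δ t / δ = 1 / δ + t - 1 := by
  rw [chi_div hδ, P_of_two_le ht]
  ring

theorem chi_div_lt {δ : ℝ} (hδ : 0 < δ) {t : ℝ} (ht : t < 4) : chi δ t / δ < 1 / δ + 3 := by
  rw [chi_div hδ]
  have : P t < 3 := by
    rcases le_total 2 t with h | h
    · rw [P_of_two_le h]; linarith
    · have := monotone_P h
      rw [P_two] at this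
      linarith
  linarith

theorem sig_of_le {t : ℝ} (ht : t ≤ 1 / 3) : sig t = 0 :=
  Real.smoothTransition.zero_of_nonpos (by linarith)

theorem sig_of_ge {t : ℝ} (ht : 2 / 3 ≤ t) : sig t = 1 :=
  Real.smoothTransition.one_of_one_le (by linarith)

theorem per_pos {δ : ℝ} (hδ : 0 < δ) : 0 < per δ := by
  unfold per
  positivity

theorem sR_pos {δ : ℝ} (hδ : 0 < δ) : 0 < sR δ := by
  unfold sR
  positivity

end Vale.Agent.P255
end
end
end

section

section

/-!
# P255: the gluing relation is an equivalence relation with closed graph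
-/

open scoped Manifold ContDiff Topology
open Set

noncomputable section

namespace Vale.Agent.P255

theorem mult_zero (c : ℝ) : Mult c 0 := ⟨0, by simp⟩

theorem mult_mul (c : ℝ) (n : ℤ) : Mult c (c * n) := ⟨n, rfl⟩

theorem Mult.neg {c x : ℝ} (h : Mult c x) : Mult c (-x) := by
  obtain ⟨n, rfl⟩ := h
  exact ⟨-n, by push_cast; ring⟩

theorem Mult.add {c x y : ℝ} (h : Mult c x) (h' : Mult c y) : Mult c (x + y) := by
  obtain ⟨n, rfl⟩ := h
  obtain ⟨m, rfl⟩ := h'
  exact ⟨n + m, by push_cast; ring⟩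

theorem Mult.sub {c x y : ℝ} (h : Mult c x) (h' : Mult c y) : Mult c (x - y) := by
  rw [sub_eq_add_neg]
  exact h.add h'.neg

theorem Mult.eq_zero {c x : ℝ} (hx : |x| < c) (h : Mult c x) : x = 0 := by
  obtain ⟨n, rfl⟩ := h
  have hc : 0 < c := lt_of_le_of_lt (abs_nonneg _) hx
  rw [abs_mul, abs_of_pos hc] at hx
  have h1 : |(n : ℝ)| < 1 := by
    by_contra h2
    have := mul_le_mul_of_nonneg_left (not_lt.1 h2) hc.le
    linarith
  have h2 : n = 0 := by
    rw [← Int.cast_abs] at h1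
    have h3 : |n| < 1 := by exact_mod_cast h1
    exact Int.abs_lt_one_iff.1 h3
  rw [h2]
  simp

theorem mult_rescale {c x a : ℝ} (ha : a ≠ 0) : Mult (c / a) x ↔ Mult c (a * x) := by
  constructor
  · rintro ⟨n, rfl⟩
    exact ⟨n, by field_simp⟩
  · rintro ⟨n, h⟩
    refine ⟨n, ?_⟩
    field_simp
    linarith

theorem mult_per {δ x : ℝ} (hδ : 0 < δ) : Mult (per δ) x ↔ Mult (2 * Real.pi) (δ * x) :=
  mult_rescale hδ.ne'

theorem isClosed_mult (c : ℝ) : IsClosed {x | Mult c x} := by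
  rcases eq_or_ne c 0 with rfl | hc
  · have : {x : ℝ | Mult 0 x} = {0} := by
      ext x
      simp [Mult]
    rw [this]
    exact isClosed_singleton
  · have h1 : IsClosed (Set.range ((↑) : ℤ → ℝ)) := Int.isClosedEmbedding_coe_real.isClosed_range
    have : {x : ℝ | Mult c x} = (fun x => x / c) ⁻¹' (Set.range ((↑) : ℤ → ℝ)) := by
      ext x
      constructor
      · rintro ⟨n, rfl⟩
        exact ⟨n, by field_simp⟩
      · rintro ⟨n, hn⟩
        refine ⟨n, ?_⟩
        have : (n : ℝ) = x / c := hn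
        rw [this]
        field_simp
    rw [this]
    exact h1.preimage (continuous_id.div_const c)

theorem mult_cos {x y : ℝ} (h : Mult (2 * Real.pi) (y - x)) : Real.cos y = Real.cos x := by
  obtain ⟨n, hn⟩ := h
  have : y = x + n * (2 * Real.pi) := by linarith
  rw [this, Real.cos_add_int_mul_two_pi]

theorem mult_sin {x y : ℝ} (h : Mult (2 * Real.pi) (y - x)) : Real.sin y = Real.sin x := by
  obtain ⟨n, hn⟩ := h
  have : y = x + n * (2 * Real.pi) := by linarith
  rw [this, Real.sin_add_int_mul_two_pi]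

/-- uniqueness of polar coordinates -/
theorem polar_inj {r r' θ θ' : ℝ} (hr : 0 < r) (hr' : 0 < r')
    (hc : r * Real.cos θ = r' * Real.cos θ') (hs : r * Real.sin θ = r' * Real.sin θ') :
    r = r' ∧ Mult (2 * Real.pi) (θ' - θ) := by
  have h1 := Real.sin_sq_add_cos_sq θ
  have h2 := Real.sin_sq_add_cos_sq θ'
  have h3 : r ^ 2 = r' ^ 2 := by
    have e1 : r ^ 2 = (r * Real.cos θ) ^ 2 + (r * Real.sin θ) ^ 2 := by
      have : (r * Real.cos θ) ^ 2 + (r * Real.sin θ) ^ 2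
        = r ^ 2 * (Real.sin θ ^ 2 + Real.cos θ ^ 2) := by ring
      rw [this, h1, mul_one]
    have e2 : r' ^ 2 = (r' * Real.cos θ') ^ 2 + (r' * Real.sin θ') ^ 2 := by
      have : (r' * Real.cos θ') ^ 2 + (r' * Real.sin θ') ^ 2
        = r' ^ 2 * (Real.sin θ' ^ 2 + Real.cos θ' ^ 2) := by ring
      rw [this, h2, mul_one]
    rw [e1, e2, hc, hs]
  have h4 : r = r' := by
    have := abs_eq_abs.2 (sq_eq_sq_iff_eq_or_eq_neg.1 h3)
    rwa [abs_of_pos hr, abs_of_pos hr'] at this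
  subst h4
  refine ⟨rfl, ?_⟩
  have h5 : Real.cos θ' = Real.cos θ := (mul_left_cancel₀ hr.ne' hc).symm
  have h6 : Real.sin θ' = Real.sin θ := (mul_left_cancel₀ hr.ne' hs).symm
  obtain ⟨n, hn⟩ := Real.Angle.angle_eq_iff_two_pi_dvd_sub.1 (Real.Angle.cos_sin_inj h5 h6)
  exact ⟨n, hn⟩

theorem abs_mul_cos_le {r : ℝ} (hr : 0 < r) (θ : ℝ) : |r * Real.cos θ| ≤ r := by
  rw [abs_mul, abs_of_pos hr]
  exact mul_le_of_le_one_right hr.le (Real.abs_cos_le_one θ)

theorem abs_mul_sin_le {r : ℝ} (hr : 0 < r) (θ : ℝ) : |r * Real.sin θ| ≤ r := by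
  rw [abs_mul, abs_of_pos hr]
  exact mul_le_of_le_one_right hr.le (Real.abs_sin_le_one θ)

/-- If a point at polar radius `r` (about some lattice point) is at distance `> ρ` from all lattice
points then `r > ρ`. -/
theorem lt_radius {c ρ r θ x y : ℝ} (hr : 0 < r)
    (hx : Mult c (x - r * Real.cos θ)) (hy : Mult c (y - r * Real.sin θ))
    (h : ∀ k l : ℤ, ρ ^ 2 < (x - c * k) ^ 2 + (y - c * l) ^ 2) : ρ < r := by
  obtain ⟨k, hk⟩ := hx
  obtain ⟨l, hl⟩ := hy
  have := h k l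
  have e1 : x - c * k = r * Real.cos θ := by linarith
  have e2 : y - c * l = r * Real.sin θ := by linarith
  rw [e1, e2] at this
  have h1 := Real.sin_sq_add_cos_sq θ
  have h2 : (r * Real.cos θ) ^ 2 + (r * Real.sin θ) ^ 2 = r ^ 2 := by
    have : (r * Real.cos θ) ^ 2 + (r * Real.sin θ) ^ 2
        = r ^ 2 * (Real.sin θ ^ 2 + Real.cos θ ^ 2) := by ring
    rw [this, h1, mul_one]
  rw [h2] at this
  exact lt_of_pow_lt_pow_left₀ 2 hr.le this

/-- A point at polar radius `r` about a lattice point is at distance at least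
`min r (c - r)` from all lattice points. -/
theorem radius_le {c ρ r θ x y : ℝ} (hρ : 0 < ρ) (hr : ρ < r) (hrc : r + ρ < c)
    (hx : Mult c (x - r * Real.cos θ)) (hy : Mult c (y - r * Real.sin θ)) (k l : ℤ) :
    ρ ^ 2 < (x - c * k) ^ 2 + (y - c * l) ^ 2 := by
  obtain ⟨k', hk⟩ := hx
  obtain ⟨l', hl⟩ := hy
  have hr0 : 0 < r := hρ.trans hr
  have hc : 0 < c := by linarith
  have h1 := Real.sin_sq_add_cos_sq θ
  have key : ∀ (m m' : ℤ) (z w : ℝ), |w| ≤ r → z - w = c * m' → m ≠ m' →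
      ρ ^ 2 < (z - c * m) ^ 2 := by
    intro m m' z w hw hz hne
    have h2 : (1 : ℝ) ≤ |((m' - m : ℤ) : ℝ)| := by
      have : (1 : ℤ) ≤ |m' - m| := Int.one_le_abs (sub_ne_zero.2 hne.symm)
      rw [← Int.cast_abs]
      exact_mod_cast this
    have h3 : c ≤ |c * ((m' - m : ℤ) : ℝ)| := by
      rw [abs_mul, abs_of_pos hc]
      linarith only [mul_nonneg (le_of_lt (sub_pos.2 hc)) (sub_nonneg.2 h2)]
    have h4 : z - c * m = w + c * ((m' - m : ℤ) : ℝ) := by
      push_cast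
      linarith
    have h5 : ρ < |z - c * m| := by
      rw [h4]
      have := abs_sub_abs_le_abs_sub (c * ((m' - m : ℤ) : ℝ)) (-w)
      rw [abs_neg, sub_neg_eq_add, add_comm (c * ((m' - m : ℤ) : ℝ)) w] at this
      linarith
    rw [← sq_abs (z - c * m)]
    exact pow_lt_pow_left₀ h5 hρ.le (by norm_num)
  by_cases hk' : k = k'
  · by_cases hl' : l = l'
    · subst hk' hl'
      have e1 : x - c * k = r * Real.cos θ := by linarith
      have e2 : y - c * l = r * Real.sin θ := by linarith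
      rw [e1, e2]
      have h2 : (r * Real.cos θ) ^ 2 + (r * Real.sin θ) ^ 2 = r ^ 2 := by
        have : (r * Real.cos θ) ^ 2 + (r * Real.sin θ) ^ 2
            = r ^ 2 * (Real.sin θ ^ 2 + Real.cos θ ^ 2) := by ring
        rw [this, h1, mul_one]
      rw [h2]
      exact pow_lt_pow_left₀ hr hρ.le (by norm_num)
    · have := key l l' y _ (abs_mul_sin_le hr0 θ) hl hl'
      have := sq_nonneg (x - c * k)
      linarith
  · have := key k k' x _ (abs_mul_cos_le hr0 θ) hk hk'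
    have := sq_nonneg (y - c * l)
    linarith

/-- Equality of polar coordinates from congruence modulo a large lattice. -/
theorem polar_inj_mod {c r r' θ θ' x y : ℝ} (hr : 0 < r) (hr' : 0 < r') (hc : r + r' < c)
    (hx : Mult c (x - r * Real.cos θ)) (hy : Mult c (y - r * Real.sin θ))
    (hx' : Mult c (x - r' * Real.cos θ')) (hy' : Mult c (y - r' * Real.sin θ')) :
    r = r' ∧ Mult (2 * Real.pi) (θ' - θ) := by
  have h1 : r' * Real.cos θ' - r * Real.cos θ = 0 := by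
    apply Mult.eq_zero (c := c)
    · have h1 := abs_mul_cos_le hr θ
      have h2 := abs_mul_cos_le hr' θ'
      have h3 := abs_sub (r' * Real.cos θ') (r * Real.cos θ)
      linarith
    · have := hx.sub hx'
      rwa [show x - r * Real.cos θ - (x - r' * Real.cos θ') = r' * Real.cos θ' - r * Real.cos θ
        by ring] at this
  have h2 : r' * Real.sin θ' - r * Real.sin θ = 0 := by
    apply Mult.eq_zero (c := c)
    · have h1 := abs_mul_sin_le hr θ
      have h2 := abs_mul_sin_le hr' θ'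
      have h3 := abs_sub (r' * Real.sin θ') (r * Real.sin θ)
      linarith
    · have := hy.sub hy'
      rwa [show y - r * Real.sin θ - (y - r' * Real.sin θ') = r' * Real.sin θ' - r * Real.sin θ
        by ring] at this
  exact polar_inj hr hr' (by linarith) (by linarith)

/-- Existence of polar coordinates -/
theorem exists_polar {x y ρ : ℝ} (h : ρ ^ 2 < x ^ 2 + y ^ 2) :
    ∃ r θ : ℝ, ρ < r ∧ r ^ 2 = x ^ 2 + y ^ 2 ∧ x = r * Real.cos θ ∧ y = r * Real.sin θ := by
  have h0 : (0 : ℝ) < x ^ 2 + y ^ 2 := lt_of_le_of_lt (sq_nonneg ρ) h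
  have hz : (⟨x, y⟩ : ℂ) ≠ 0 := by
    intro hz
    have h1 : x = 0 := congrArg Complex.re hz
    have h2 : y = 0 := congrArg Complex.im hz
    rw [h1, h2] at h0
    norm_num at h0
  have hn : ‖(⟨x, y⟩ : ℂ)‖ ^ 2 = x ^ 2 + y ^ 2 := by
    rw [← Complex.normSq_eq_norm_sq, Complex.normSq_mk]
    ring
  refine ⟨‖(⟨x, y⟩ : ℂ)‖, Complex.arg ⟨x, y⟩, ?_, hn, ?_, ?_⟩
  · rw [← hn] at h
    exact lt_of_pow_lt_pow_left₀ 2 (norm_nonneg _) h
  · rw [Complex.cos_arg hz]
    field_simp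
  · rw [Complex.sin_arg]
    field_simp

/-! ## The relation -/

variable {δ : ℝ}

theorem rel_refl (p : Kind × E3) : rel δ p p := by
  obtain ⟨k, u⟩ := p
  cases k
  · show Mult sL (u 0 - u 0) ∧ Mult sL (u 1 - u 1) ∧ Mult (per δ) (u 2 - u 2)
    simp only [sub_self]
    exact ⟨mult_zero _, mult_zero _, mult_zero _⟩
  · show u 0 = u 0 ∧ Mult (per δ) (u 1 - u 1) ∧ Mult (2 * Real.pi) (u 2 - u 2)
    simp only [sub_self]
    exact ⟨trivial, mult_zero _, mult_zero _⟩
  · show Mult (sR δ) (u 0 - u 0) ∧ Mult (sR δ) (u 1 - u 1) ∧ Mult (2 * Real.pi) (u 2 - u 2)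
    simp only [sub_self]
    exact ⟨mult_zero _, mult_zero _, mult_zero _⟩

theorem Mult.swap {c x y : ℝ} (h : Mult c (x - y)) : Mult c (y - x) := by
  have := h.neg
  rwa [neg_sub] at this

theorem Mult.comb {c x y z : ℝ} (h : Mult c (y - x)) (h' : Mult c (z - y)) : Mult c (z - x) := by
  have := h.add h'
  rwa [show y - x + (z - y) = z - x by ring] at this

theorem rel_symm {p q : Kind × E3} (h : rel δ p q) : rel δ q p := by
  obtain ⟨k, u⟩ := p
  obtain ⟨l, v⟩ := q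
  cases k <;> cases l
  · exact ⟨h.1.swap, h.2.1.swap, h.2.2.swap⟩
  · exact h
  · exact h.elim
  · exact h
  · exact ⟨h.1.symm, h.2.1.swap, h.2.2.swap⟩
  · exact h
  · exact h.elim
  · exact h
  · exact ⟨h.1.swap, h.2.1.swap, h.2.2.swap⟩

theorem relCL_lt {u v : E3} (hv : v ∈ Om δ .L) (h : relCL δ u v) : u 0 < -1 :=
  two_lt_phi_iff.1 (lt_radius (phi_pos _) h.1 h.2.1 hv)

theorem relCR_lt (hδ : 0 < δ) {u v : E3} (hv : v ∈ Om δ .R) (h : relCR δ u v) : 2 < u 0 :=
  (lt_chi_div_iff hδ).1 (lt_radius (chi_div_pos hδ _) h.1 h.2.1 hv)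

theorem relCL_congr_left (hδ : 0 < δ) {u u' v : E3} (h : rel δ (.C, u) (.C, u'))
    (h' : relCL δ u' v) : relCL δ u v := by
  obtain ⟨h1, h2, h3⟩ := h
  obtain ⟨h4, h5, h6⟩ := h'
  have := hδ
  simp only at h1 h2 h3
  refine ⟨?_, ?_, ?_⟩
  · rwa [h1, mult_cos h3] at h4
  · rwa [h1, mult_sin h3] at h5
  · exact h2.comb h6

theorem relCL_congr_right {u v v' : E3} (h : relCL δ u v)
    (h' : rel δ (.L, v) (.L, v')) : relCL δ u v' := by
  obtain ⟨h1, h2, h3⟩ := h'
  obtain ⟨h4, h5, h6⟩ := h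
  exact ⟨h4.comb h1, h5.comb h2, h6.comb h3⟩

theorem relCR_congr_left (hδ : 0 < δ) {u u' v : E3} (h : rel δ (.C, u) (.C, u'))
    (h' : relCR δ u' v) : relCR δ u v := by
  obtain ⟨h1, h2, h3⟩ := h
  obtain ⟨h4, h5, h6⟩ := h'
  simp only at h1 h2 h3
  rw [mult_per hδ, mul_sub] at h2
  refine ⟨?_, ?_, ?_⟩
  · rwa [h1, mult_cos h2] at h4
  · rwa [h1, mult_sin h2] at h5
  · refine Mult.comb ?_ h6
    have := h3.add h2
    rwa [show u' 2 - u 2 + (δ * u' 1 - δ * u 1) = u' 2 + δ * u' 1 - (u 2 + δ * u 1) by ring]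
      at this

theorem relCR_congr_right {u v v' : E3} (h : relCR δ u v)
    (h' : rel δ (.R, v) (.R, v')) : relCR δ u v' := by
  obtain ⟨h1, h2, h3⟩ := h'
  obtain ⟨h4, h5, h6⟩ := h
  exact ⟨h4.comb h1, h5.comb h2, h6.comb h3⟩

theorem relCL_join {u v v' : E3} (h : relCL δ u v) (h' : relCL δ u v') :
    rel δ (.L, v) (.L, v') := by
  obtain ⟨h1, h2, h3⟩ := h'
  obtain ⟨h4, h5, h6⟩ := h
  exact ⟨h4.swap.comb h1, h5.swap.comb h2, h6.swap.comb h3⟩

theorem relCR_join {u v v' : E3} (h : relCR δ u v) (h' : relCR δ u v') :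
    rel δ (.R, v) (.R, v') := by
  obtain ⟨h1, h2, h3⟩ := h'
  obtain ⟨h4, h5, h6⟩ := h
  exact ⟨h4.swap.comb h1, h5.swap.comb h2, h6.swap.comb h3⟩

theorem relCL_meet {u u' v : E3} (hu : u ∈ Om δ .C) (hu' : u' ∈ Om δ .C) (hv : v ∈ Om δ .L)
    (h : relCL δ u v) (h' : relCL δ u' v) : rel δ (.C, u) (.C, u') := by
  have h1 := relCL_lt hv h
  have h2 := relCL_lt hv h'
  have h3 : -3 < u 0 := hu.1
  have h4 : -3 < u' 0 := hu'.1
  have hsum : phi (u 0) + phi (u' 0) < sL := by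
    have := phi_lt_four h3
    have := phi_lt_four h4
    unfold sL
    linarith
  obtain ⟨e1, e2⟩ := polar_inj_mod (phi_pos _) (phi_pos _) hsum h.1 h.2.1 h'.1 h'.2.1
  rw [phi_of_le h1.le, phi_of_le h2.le] at e1
  refine ⟨?_, ?_, e2⟩
  · show u' 0 = u 0
    linarith
  · exact h.2.2.comb h'.2.2.swap

theorem relCR_meet (hδ : 0 < δ) {u u' v : E3} (hu : u ∈ Om δ .C) (hu' : u' ∈ Om δ .C)
    (hv : v ∈ Om δ .R)
    (h : relCR δ u v) (h' : relCR δ u' v) : rel δ (.C, u) (.C, u') := by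
  have h1 := relCR_lt hδ hv h
  have h2 := relCR_lt hδ hv h'
  have h3 : u 0 < 4 := hu.2
  have h4 : u' 0 < 4 := hu'.2
  have hsum : chi δ (u 0) / δ + chi δ (u' 0) / δ < sR δ := by
    have := chi_div_lt hδ h3
    have := chi_div_lt hδ h4
    unfold sR
    have : 2 / δ = 1 / δ + 1 / δ := by ring
    linarith
  obtain ⟨e1, e2⟩ := polar_inj_mod (chi_div_pos hδ _) (chi_div_pos hδ _) hsum h.1 h.2.1 h'.1 h'.2.1
  rw [chi_div_of_ge hδ h1.le, chi_div_of_ge hδ h2.le] at e1
  have e3 : Mult (2 * Real.pi) ((u' 2 + δ * u' 1) - (u 2 + δ * u 1)) := h.2.2.comb h'.2.2.swap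
  refine ⟨?_, ?_, ?_⟩
  · show u' 0 = u 0
    linarith
  · show Mult (per δ) (u' 1 - u 1)
    rw [mult_per hδ, mul_sub]
    exact e2
  · show Mult (2 * Real.pi) (u' 2 - u 2)
    have := e3.sub e2
    rwa [show u' 2 + δ * u' 1 - (u 2 + δ * u 1) - (δ * u' 1 - δ * u 1) = u' 2 - u 2 by ring] at this

theorem rel_trans (hδ : 0 < δ) {p q r : Kind × E3} (hp : p.2 ∈ Om δ p.1) (hq : q.2 ∈ Om δ q.1)
    (hr : r.2 ∈ Om δ r.1) (h : rel δ p q) (h' : rel δ q r) : rel δ p r := by
  obtain ⟨k, u⟩ := p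
  obtain ⟨l, v⟩ := q
  obtain ⟨m, w⟩ := r
  simp only at hp hq hr
  cases k <;> cases l <;> cases m
  -- L L L
  · exact ⟨h.1.comb h'.1, h.2.1.comb h'.2.1, h.2.2.comb h'.2.2⟩
  -- L L C
  · exact rel_symm (p := (.C, w)) (q := (.L, u)) (relCL_congr_right (rel_symm h') (rel_symm h))
  -- L L R
  · exact h'.elim
  -- L C L
  · exact relCL_join (u := v) h h'
  -- L C C
  · exact rel_symm (p := (.C, w)) (q := (.L, u)) (relCL_congr_left hδ (rel_symm h') (rel_symm h))
  -- L C R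
  · have h1 := relCL_lt hp h
    have h2 := relCR_lt hδ hr h'
    linarith
  -- L R *
  · exact h.elim
  · exact h.elim
  · exact h.elim
  -- C L L
  · exact relCL_congr_right h h'
  -- C L C
  · exact relCL_meet hp hr hq h h'
  -- C L R
  · exact h'.elim
  -- C C L
  · exact relCL_congr_left hδ h h'
  -- C C C
  · exact ⟨h'.1.trans h.1, h.2.1.comb h'.2.1, h.2.2.comb h'.2.2⟩
  -- C C R
  · exact relCR_congr_left hδ h h'
  -- C R L
  · exact h'.elim
  -- C R C
  · exact relCR_meet hδ hp hr hq h h'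
  -- C R R
  · exact relCR_congr_right h h'
  -- R L *
  · exact h.elim
  · exact h.elim
  · exact h.elim
  -- R C L
  · have h1 := relCL_lt hr h'
    have h2 := relCR_lt hδ hp h
    linarith
  -- R C C
  · exact rel_symm (p := (.C, w)) (q := (.R, u)) (relCR_congr_left hδ (rel_symm h') (rel_symm h))
  -- R C R
  · exact relCR_join (u := v) h h'
  -- R R L
  · exact h'.elim
  -- R R C
  · exact rel_symm (p := (.C, w)) (q := (.R, u)) (relCR_congr_right (rel_symm h') (rel_symm h))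
  -- R R R
  · exact ⟨h.1.comb h'.1, h.2.1.comb h'.2.1, h.2.2.comb h'.2.2⟩

theorem isClosed_rel (k l : Kind) : IsClosed {q : E3 × E3 | rel δ (k, q.1) (l, q.2)} := by
  have c1 : ∀ i : Fin 3, Continuous fun q : E3 × E3 => q.1 i := fun i => by fun_prop
  have c2 : ∀ i : Fin 3, Continuous fun q : E3 × E3 => q.2 i := fun i => by fun_prop
  have key : ∀ (c : ℝ) (f : E3 × E3 → ℝ), Continuous f → IsClosed {q | Mult c (f q)} :=
    fun c f hf => (isClosed_mult c).preimage hf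
  have kCL : ∀ f g : E3 × E3 → E3, (∀ i : Fin 3, Continuous fun q => f q i) →
      (∀ i : Fin 3, Continuous fun q => g q i) → IsClosed {q | relCL δ (f q) (g q)} := by
    intro f g hf hg
    refine (key _ _ ?_).inter ((key _ _ ?_).inter (key _ _ ?_))
    · exact (hg 0).sub ((continuous_phi.comp (hf 0)).mul (Real.continuous_cos.comp (hf 2)))
    · exact (hg 1).sub ((continuous_phi.comp (hf 0)).mul (Real.continuous_sin.comp (hf 2)))
    · exact (hg 2).sub (hf 1)
  have kCR : ∀ f g : E3 × E3 → E3, (∀ i : Fin 3, Continuous fun q => f q i) →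
      (∀ i : Fin 3, Continuous fun q => g q i) → IsClosed {q | relCR δ (f q) (g q)} := by
    intro f g hf hg
    refine (key _ _ ?_).inter ((key _ _ ?_).inter (key _ _ ?_))
    · exact (hg 0).sub ((((continuous_chi δ).comp (hf 0)).div_const δ).mul
        (Real.continuous_cos.comp (continuous_const.mul (hf 1))))
    · exact (hg 1).sub ((((continuous_chi δ).comp (hf 0)).div_const δ).mul
        (Real.continuous_sin.comp (continuous_const.mul (hf 1))))
    · exact (hg 2).sub ((hf 2).add (continuous_const.mul (hf 1)))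
  cases k <;> cases l
  · exact (key _ _ ((c2 0).sub (c1 0))).inter
      ((key _ _ ((c2 1).sub (c1 1))).inter (key _ _ ((c2 2).sub (c1 2))))
  · exact kCL Prod.snd Prod.fst c2 c1
  · exact isClosed_empty
  · exact kCL Prod.fst Prod.snd c1 c2
  · exact (isClosed_eq (c2 0) (c1 0)).inter
      ((key _ _ ((c2 1).sub (c1 1))).inter (key _ _ ((c2 2).sub (c1 2))))
  · exact kCR Prod.fst Prod.snd c1 c2
  · exact isClosed_empty
  · exact kCR Prod.snd Prod.fst c2 c1
  · exact (key _ _ ((c2 0).sub (c1 0))).inter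
      ((key _ _ ((c2 1).sub (c1 1))).inter (key _ _ ((c2 2).sub (c1 2))))

end Vale.Agent.P255
end
end
end

section

section

/-!
# P255: gluing open subsets of `E` into a closed manifold (interface)
-/

open scoped Manifold ContDiff Topology
open Set

noncomputable section

namespace Vale.Agent.P255

/-- Data for gluing finitely many open subsets `Om k` of `E` along an equivalence relation which
is locally given by graphs of smooth diffeomorphisms. -/
structure Glue (E : Type) [NormedAddCommGroup E] [NormedSpace ℝ E] where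
  K : Type
  finK : Finite K
  Om : K → Set E
  isOpen : ∀ k, IsOpen (Om k)
  rel : K × E → K × E → Prop
  refl : ∀ p : K × E, p.2 ∈ Om p.1 → rel p p
  symm : ∀ p q : K × E, p.2 ∈ Om p.1 → q.2 ∈ Om q.1 → rel p q → rel q p
  trans : ∀ p q r : K × E, p.2 ∈ Om p.1 → q.2 ∈ Om q.1 → r.2 ∈ Om r.1 →
    rel p q → rel q r → rel p r
  /-- locally the relation is the graph of a smooth diffeomorphism -/
  loc : ∀ p q : K × E, p.2 ∈ Om p.1 → q.2 ∈ Om q.1 → rel p q →
    ∃ τ : OpenPartialHomeomorph E E, ContDiffOn ℝ ∞ τ τ.source ∧ ContDiffOn ℝ ∞ τ.symm τ.target ∧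
      p.2 ∈ τ.source ∧ τ p.2 = q.2 ∧ τ.source ⊆ Om p.1 ∧ τ.target ⊆ Om q.1 ∧
      ∀ u ∈ τ.source, rel (p.1, u) (q.1, τ u)
  /-- different nearby points are not related -/
  inj : ∀ p : K × E, p.2 ∈ Om p.1 → ∃ W : Set E, IsOpen W ∧ p.2 ∈ W ∧ W ⊆ Om p.1 ∧
    ∀ u ∈ W, ∀ v ∈ W, rel (p.1, u) (p.1, v) → u = v
  /-- the relation is closed -/
  closed : ∀ k l, ∀ u v : E, u ∈ Om k → v ∈ Om l → ¬ rel (k, u) (l, v) →
    ∃ U V : Set E, IsOpen U ∧ IsOpen V ∧ u ∈ U ∧ v ∈ V ∧
      ∀ u' ∈ U ∩ Om k, ∀ v' ∈ V ∩ Om l, ¬ rel (k, u') (l, v')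
  /-- compactness of the quotient -/
  cpt : ∃ C : K → Set E, (∀ k, IsCompact (C k)) ∧ (∀ k, C k ⊆ Om k) ∧
    ∀ p : K × E, p.2 ∈ Om p.1 → ∃ k, ∃ u ∈ C k, rel p (k, u)

variable {E : Type} [NormedAddCommGroup E] [NormedSpace ℝ E]

/-- the disjoint union of the pieces -/
def Glue.Pt (S : Glue E) : Type := Σ k : S.K, S.Om k

instance (S : Glue E) : TopologicalSpace S.Pt :=
  inferInstanceAs (TopologicalSpace (Σ k : S.K, S.Om k))

/-- the gluing relation as a setoid -/
def Glue.setoid (S : Glue E) : Setoid S.Pt where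
  r p q := S.rel (p.1, p.2) (q.1, q.2)
  iseqv :=
    { refl := fun p => S.refl _ p.2.2
      symm := fun {p q} h => S.symm _ _ p.2.2 q.2.2 h
      trans := fun {p q r} h h' => S.trans _ _ _ p.2.2 q.2.2 r.2.2 h h' }

/-- the glued space -/
def Glue.Space (S : Glue E) : Type := Quotient S.setoid

instance (S : Glue E) : TopologicalSpace S.Space :=
  inferInstanceAs (TopologicalSpace (Quotient S.setoid))

/-- the projection of the piece `k` -/
def Glue.proj (S : Glue E) (k : S.K) (u : S.Om k) : S.Space := Quotient.mk S.setoid ⟨k, u⟩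

end Vale.Agent.P255
end
end
end

section

section

/-!
# P255: the glued space is a closed manifold, and invariant metrics descend to it
-/

open scoped Manifold ContDiff Topology
open Set

noncomputable section

namespace Vale.Agent.P255

variable {E : Type} [NormedAddCommGroup E] [NormedSpace ℝ E]

theorem Glue.proj_eq_proj (S : Glue E) {k l : S.K} (u : S.Om k) (v : S.Om l) :
    S.proj k u = S.proj l v ↔ S.rel (k, u) (l, v) := by
  exact Quotient.eq (r := S.setoid) (x := (⟨k, u⟩ : S.Pt)) (y := (⟨l, v⟩ : S.Pt))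

theorem Glue.continuous_proj (S : Glue E) (k : S.K) : Continuous (S.proj k) :=
  continuous_quotient_mk'.comp (continuous_sigmaMk (σ := fun k : S.K => S.Om k))

theorem Glue.exists_rep (S : Glue E) (x : S.Space) : ∃ (k : S.K) (u : S.Om k), S.proj k u = x := by
  obtain ⟨⟨k, u⟩, rfl⟩ := Quotient.exists_rep x
  exact ⟨k, u, rfl⟩

/-- The projection from a piece is an open map. -/
theorem Glue.isOpenMap_proj (S : Glue E) (k : S.K) : IsOpenMap (S.proj k) := by
  intro U hU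
  have : IsOpen ((Quotient.mk S.setoid) ⁻¹' (S.proj k '' U)) := by
    refine isOpen_sigma_iff.2 fun l => ?_
    rw [isOpen_iff_mem_nhds]
    intro v hv
    obtain ⟨u, hu, huv⟩ := hv
    have hrel : S.rel (k, u) (l, v) := (S.proj_eq_proj u v).1 huv
    obtain ⟨τ, -, -, hp, hq, hs, ht, hr⟩ := S.loc (k, u) (l, v) u.2 v.2 hrel
    -- the set of points of `τ.target` whose inverse image is in `U`
    obtain ⟨U', hU', rfl⟩ := hU
    have hop : IsOpen (τ.target ∩ τ.symm ⁻¹' U') := τ.symm.isOpen_inter_preimage hU'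
    have hmem : (v : E) ∈ τ.target ∩ τ.symm ⁻¹' U' := by
      have h1 : (v : E) ∈ τ.target := by
        have h0 := τ.map_source hp
        rwa [hq] at h0
      refine ⟨h1, ?_⟩
      have h2 : τ.symm (v : E) = u := by
        have : τ (u : E) = v := hq
        rw [← this]
        exact τ.left_inv hp
      show τ.symm (v : E) ∈ U'
      rw [h2]
      exact hu
    have hnh : (Subtype.val : S.Om l → E) ⁻¹' (τ.target ∩ τ.symm ⁻¹' U') ∈ 𝓝 v :=
      continuous_subtype_val.continuousAt.preimage_mem_nhds (hop.mem_nhds hmem)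
    refine Filter.mem_of_superset hnh ?_
    rintro w ⟨hw1, hw2⟩
    have hsrc : τ.symm (w : E) ∈ τ.source := τ.map_target hw1
    refine ⟨⟨τ.symm w, hs hsrc⟩, hw2, ?_⟩
    refine (S.proj_eq_proj _ _).2 ?_
    have := hr _ hsrc
    rwa [τ.right_inv hw1] at this
  exact this

theorem Glue.exists_chart (S : Glue E) (a : S.Space) :
    ∃ k : S.K, ∃ c : OpenPartialHomeomorph S.Space E, a ∈ c.source ∧ ∃ h : c.target ⊆ S.Om k,
      ∀ u (hu : u ∈ c.target), c.symm u = S.proj k ⟨u, h hu⟩ := by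
  obtain ⟨k, u₀, rfl⟩ := S.exists_rep a
  obtain ⟨W, hW, hu₀, hWs, hinj⟩ := S.inj (k, u₀) u₀.2
  simp only at hu₀ hWs hinj
  let f : W → S.Space := fun w => S.proj k ⟨w, hWs w.2⟩
  have hf : Topology.IsOpenEmbedding f := by
    have hi : Topology.IsOpenEmbedding (fun w : W => (⟨w, hWs w.2⟩ : S.Om k)) := by
      have h1 : Topology.IsEmbedding (fun w : W => (⟨w, hWs w.2⟩ : S.Om k)) :=
        Topology.IsEmbedding.inclusion hWs
      refine ⟨h1, ?_⟩
      have : Set.range (fun w : W => (⟨w, hWs w.2⟩ : S.Om k)) = Subtype.val ⁻¹' W := by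
        ext x
        constructor
        · rintro ⟨w, rfl⟩
          exact w.2
        · intro hx
          exact ⟨⟨x, hx⟩, rfl⟩
      rw [this]
      exact hW.preimage continuous_subtype_val
    refine Topology.IsOpenEmbedding.of_continuous_injective_isOpenMap ?_ ?_ ?_
    · exact (S.continuous_proj k).comp hi.continuous
    · intro w w' h
      have := (S.proj_eq_proj _ _).1 h
      exact Subtype.ext (hinj w w.2 w' w'.2 this)
    · exact (S.isOpenMap_proj k).comp hi.isOpenMap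
  have : Nonempty W := ⟨⟨u₀, hu₀⟩⟩
  let e := hf.toOpenPartialHomeomorph
  let i := hW.isOpenEmbedding_subtypeVal.toOpenPartialHomeomorph
  have htgt : (e.symm.trans i).target = W := by
    ext x
    simp [e, i]
  have hsrc : (e.symm.trans i).source = Set.range f := by
    ext x
    simp [e, i]
  refine ⟨k, e.symm.trans i, ?_, ?_, ?_⟩
  · rw [hsrc]
    exact ⟨⟨u₀, hu₀⟩, rfl⟩
  · rw [htgt]
    exact hWs
  · intro u hu
    have hu' : u ∈ W := htgt ▸ hu
    have h1 : i.symm u = ⟨u, hu'⟩ := by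
      have : i ⟨u, hu'⟩ = u := rfl
      calc i.symm u = i.symm (i ⟨u, hu'⟩) := by rw [this]
        _ = ⟨u, hu'⟩ := i.left_inv (by simp [i])
    have h2 : (e.symm.trans i).symm u = e (i.symm u) := rfl
    rw [h2, h1]
    rfl

def Glue.kind (S : Glue E) (a : S.Space) : S.K := (S.exists_chart a).choose

def Glue.chart (S : Glue E) (a : S.Space) : OpenPartialHomeomorph S.Space E :=
  (S.exists_chart a).choose_spec.choose

instance (S : Glue E) : ChartedSpace E S.Space where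
  atlas := Set.range S.chart
  chartAt := S.chart
  mem_chart_source a := (S.exists_chart a).choose_spec.choose_spec.1
  chart_mem_atlas a := ⟨a, rfl⟩

theorem Glue.chart_target_subset (S : Glue E) (a : S.Space) :
    (chartAt E a).target ⊆ S.Om (S.kind a) :=
  (S.exists_chart a).choose_spec.choose_spec.2.choose

theorem Glue.chart_symm_apply (S : Glue E) (a : S.Space) (u : E)
    (hu : u ∈ (chartAt E a).target) :
    (chartAt E a).symm u = S.proj (S.kind a) ⟨u, S.chart_target_subset a hu⟩ :=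
  (S.exists_chart a).choose_spec.choose_spec.2.choose_spec u hu

/-- The coordinate change coincides locally with any local diffeomorphism whose graph is
contained in the gluing relation. -/
theorem Glue.rel_of_trans (S : Glue E) (a b : S.Space) (u : E) (hu : u ∈ (chartAt E a).target)
    (hb : (chartAt E a).symm u ∈ (chartAt E b).source) :
    P255.trans E a b u ∈ (chartAt E b).target ∧ S.rel (S.kind a, u) (S.kind b, P255.trans E a b u) := by
  have h1 : P255.trans E a b u ∈ (chartAt E b).target := (chartAt E b).map_source hb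
  refine ⟨h1, ?_⟩
  have h2 : (chartAt E b).symm (P255.trans E a b u) = (chartAt E a).symm u :=
    (chartAt E b).left_inv hb
  rw [S.chart_symm_apply a u hu, S.chart_symm_apply b _ h1] at h2
  exact (S.proj_eq_proj _ _).1 h2.symm

theorem Glue.trans_eventuallyEq (S : Glue E) (a b : S.Space) (u : E)
    (hu : u ∈ (chartAt E a).target)
    (τ : OpenPartialHomeomorph E E) (h1 : u ∈ τ.source) (h2 : τ u = P255.trans E a b u)
    (hb : (chartAt E a).symm u ∈ (chartAt E b).source)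
    (hr : ∀ v ∈ τ.source, S.rel (S.kind a, v) (S.kind b, τ v)) :
    P255.trans E a b =ᶠ[𝓝 u] τ := by
  have hmem := (S.rel_of_trans a b u hu hb).1
  have e1 : ∀ᶠ v in 𝓝 u, v ∈ τ.source := τ.open_source.mem_nhds h1
  have e2 : ∀ᶠ v in 𝓝 u, v ∈ (chartAt E a).target := (chartAt E a).open_target.mem_nhds hu
  have e3 : ∀ᶠ v in 𝓝 u, τ v ∈ (chartAt E b).target := by
    refine (τ.continuousAt h1).eventually_mem ?_
    rw [h2]
    exact (chartAt E b).open_target.mem_nhds hmem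
  filter_upwards [e1, e2, e3] with v hv1 hv2 hv3
  have hrel := hr v hv1
  have : (chartAt E a).symm v = (chartAt E b).symm (τ v) := by
    rw [S.chart_symm_apply a v hv2, S.chart_symm_apply b _ hv3]
    exact (S.proj_eq_proj _ _).2 hrel
  unfold P255.trans
  rw [this, (chartAt E b).right_inv hv3]

theorem Glue.contDiffAt_trans (S : Glue E) (a b : S.Space) (u : E)
    (hu : u ∈ (chartAt E a).target) (hb : (chartAt E a).symm u ∈ (chartAt E b).source) :
    ContDiffAt ℝ ∞ (P255.trans E a b) u := by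
  obtain ⟨hmem, hrel⟩ := S.rel_of_trans a b u hu hb
  obtain ⟨τ, hτ, -, hp, hq, hs, ht, hr⟩ := S.loc (S.kind a, u) (S.kind b, P255.trans E a b u)
    (S.chart_target_subset a hu) (S.chart_target_subset b hmem) hrel
  have := S.trans_eventuallyEq a b u hu τ hp hq hb hr
  exact (hτ.contDiffAt (τ.open_source.mem_nhds hp)).congr_of_eventuallyEq this

instance (S : Glue E) : IsManifold 𝓘(ℝ, E) ∞ S.Space := by
  apply isManifold_of_contDiffOn
  rintro _ _ ⟨a, rfl⟩ ⟨b, rfl⟩
  intro u hu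
  have hu' : u ∈ ((S.chart a).symm.trans (S.chart b)).source := hu.1
  rw [OpenPartialHomeomorph.trans_source] at hu'
  exact (S.contDiffAt_trans a b u hu'.1 hu'.2).contDiffWithinAt

instance (S : Glue E) : CompactSpace S.Space := by
  obtain ⟨C, hC, hCs, hcov⟩ := S.cpt
  have := S.finK
  refine ⟨?_⟩
  have : (univ : Set S.Space) = ⋃ k, S.proj k '' (Subtype.val ⁻¹' C k) := by
    symm
    rw [eq_univ_iff_forall]
    intro x
    obtain ⟨k, u, rfl⟩ := S.exists_rep x
    obtain ⟨l, v, hv, hrel⟩ := hcov (k, u) u.2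
    refine mem_iUnion.2 ⟨l, ⟨v, hCs l hv⟩, hv, ?_⟩
    exact ((S.proj_eq_proj _ _).2 hrel).symm
  rw [this]
  refine isCompact_iUnion fun k => ?_
  refine IsCompact.image ?_ (S.continuous_proj k)
  have := (hC k)
  rw [Subtype.isCompact_iff]
  convert this using 1
  rw [Subtype.image_preimage_coe]
  exact inter_eq_right.2 (hCs k)

instance (S : Glue E) : T2Space S.Space := by
  refine ⟨fun x y hxy => ?_⟩
  obtain ⟨k, u, rfl⟩ := S.exists_rep x
  obtain ⟨l, v, rfl⟩ := S.exists_rep y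
  have hrel : ¬ S.rel (k, u) (l, v) := fun h => hxy ((S.proj_eq_proj _ _).2 h)
  obtain ⟨U, V, hU, hV, hu, hv, h⟩ := S.closed k l u v u.2 v.2 hrel
  refine ⟨S.proj k '' (Subtype.val ⁻¹' U), S.proj l '' (Subtype.val ⁻¹' V),
    S.isOpenMap_proj k _ (hU.preimage continuous_subtype_val),
    S.isOpenMap_proj l _ (hV.preimage continuous_subtype_val), ⟨u, hu, rfl⟩, ⟨v, hv, rfl⟩, ?_⟩
  rw [Set.disjoint_left]
  rintro _ ⟨u', hu', rfl⟩ ⟨v', hv', hEq⟩
  exact h u' ⟨hu', u'.2⟩ v' ⟨hv', v'.2⟩ ((S.proj_eq_proj _ _).1 hEq.symm)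

/-- An invariant family of metrics on the pieces of a gluing. -/
structure Glue.IsMetric (S : Glue E) (G : S.K → E → E →L[ℝ] E →L[ℝ] ℝ) : Prop where
  smooth : ∀ k, ContDiffOn ℝ ∞ (G k) (S.Om k)
  symm : ∀ k, ∀ u ∈ S.Om k, ∀ v w, G k u v w = G k u w v
  pos : ∀ k, ∀ u ∈ S.Om k, ∀ v, v ≠ 0 → 0 < G k u v v
  inv : ∀ p q : S.K × E, p.2 ∈ S.Om p.1 → q.2 ∈ S.Om q.1 → S.rel p q →
    ∃ τ : OpenPartialHomeomorph E E, p.2 ∈ τ.source ∧ τ p.2 = q.2 ∧ τ.source ⊆ S.Om p.1 ∧
      τ.target ⊆ S.Om q.1 ∧ ContDiffOn ℝ ∞ τ τ.source ∧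
      (∀ u ∈ τ.source, S.rel (p.1, u) (q.1, τ u)) ∧
      ∀ u ∈ τ.source, ∀ v w, G q.1 (τ u) (fderiv ℝ τ u v) (fderiv ℝ τ u w) = G p.1 u v w

/-- The metric on the glued space. -/
def Glue.metric (S : Glue E) (G : S.K → E → E →L[ℝ] E →L[ℝ] ℝ) (h : S.IsMetric G) :
    Metric E S.Space where
  coef a := G (S.kind a)
  smooth := fun a => (h.smooth _).mono (S.chart_target_subset a)
  symm := fun a u hu => h.symm _ u (S.chart_target_subset a hu)
  pos := fun a u hu => h.pos _ u (S.chart_target_subset a hu)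
  compat := by
    intro a b u hu hb v w
    obtain ⟨hmem, hrel⟩ := S.rel_of_trans a b u hu hb
    obtain ⟨τ, hp, hq, hs, ht, hτ, hr, hG⟩ := h.inv (S.kind a, u) (S.kind b, P255.trans E a b u)
      (S.chart_target_subset a hu) (S.chart_target_subset b hmem) hrel
    have heq := S.trans_eventuallyEq a b u hu τ hp hq hb hr
    rw [heq.fderiv_eq, heq.eq_of_nhds]
    exact hG u hp v w

end Vale.Agent.P255
end
end
end

section

section

/-!
# P255: local isometries between pieces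
-/

open scoped Manifold ContDiff Topology
open Set

noncomputable section

namespace Vale.Agent.P255

variable {E : Type} [NormedAddCommGroup E] [NormedSpace ℝ E]

/-- `τ` is a local diffeomorphism, with graph in the relation `R`, between open subsets of `U` and
`V`, taking `p` to `q` and pulling back the metric `Gq` to `Gp`. -/
structure LocIso (R : E → E → Prop) (U V : Set E) (Gp Gq : E → E →L[ℝ] E →L[ℝ] ℝ) (p q : E)
    (τ : OpenPartialHomeomorph E E) : Prop where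
  mem : p ∈ τ.source
  val : τ p = q
  src : τ.source ⊆ U
  tgt : τ.target ⊆ V
  smooth : ContDiffOn ℝ ∞ τ τ.source
  smooth_symm : ContDiffOn ℝ ∞ τ.symm τ.target
  rel : ∀ u ∈ τ.source, R u (τ u)
  iso : ∀ u ∈ τ.source, ∀ v w, Gq (τ u) (fderiv ℝ τ u v) (fderiv ℝ τ u w) = Gp u v w

theorem LocIso.symm {R R' : E → E → Prop} {U V : Set E} {Gp Gq : E → E →L[ℝ] E →L[ℝ] ℝ} {p q : E}
    {τ : OpenPartialHomeomorph E E} (h : LocIso R U V Gp Gq p q τ)
    (hR : ∀ u ∈ U, ∀ v ∈ V, R u v → R' v u) : LocIso R' V U Gq Gp q p τ.symm where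
  mem := by
    have := τ.map_source h.mem
    rwa [h.val] at this
  val := by
    rw [← h.val]
    exact τ.left_inv h.mem
  src := h.tgt
  tgt := h.src
  smooth := h.smooth_symm
  smooth_symm := by simpa using h.smooth
  rel := by
    intro w hw
    have h1 : τ.symm w ∈ τ.source := τ.map_target hw
    have h2 := h.rel _ h1
    rw [τ.right_inv hw] at h2
    exact hR _ (h.src h1) _ (h.tgt hw) h2
  iso := by
    intro x hx v w
    have h1 : τ.symm x ∈ τ.source := τ.map_target hx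
    have hx' : x ∈ τ.target := hx
    have d1 : DifferentiableAt ℝ τ (τ.symm x) :=
      (h.smooth.contDiffAt (τ.open_source.mem_nhds h1)).differentiableAt (by simp)
    have d2 : DifferentiableAt ℝ τ.symm x :=
      (h.smooth_symm.contDiffAt (τ.open_target.mem_nhds hx')).differentiableAt (by simp)
    have hc : fderiv ℝ (τ ∘ τ.symm) x = (fderiv ℝ τ (τ.symm x)).comp (fderiv ℝ τ.symm x) :=
      fderiv_comp x d1 d2
    have he : (τ ∘ τ.symm) =ᶠ[𝓝 x] id := by
      filter_upwards [τ.open_target.mem_nhds hx'] with y hy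
      exact τ.right_inv hy
    rw [he.fderiv_eq, fderiv_id] at hc
    have hc' : ∀ v, fderiv ℝ τ (τ.symm x) (fderiv ℝ τ.symm x v) = v := fun v => by
      have := congrArg (fun L : E →L[ℝ] E => L v) hc
      simpa using this.symm
    have := h.iso _ h1 (fderiv ℝ τ.symm x v) (fderiv ℝ τ.symm x w)
    rw [hc', hc', τ.right_inv hx'] at this
    exact this.symm

/-- A smooth map pulling back a metric to a (positive definite) metric is locally invertible. -/
theorem exists_locIso [FiniteDimensional ℝ E] {R : E → E → Prop} {U V : Set E} (hU : IsOpen U)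
    {Gp Gq : E → E →L[ℝ] E →L[ℝ] ℝ} (hpos : ∀ u ∈ U, ∀ v, v ≠ 0 → 0 < Gp u v v)
    {F : E → E} (hF : ContDiffOn ℝ ∞ F U) (hm : MapsTo F U V)
    (hR : ∀ u ∈ U, R u (F u))
    (hiso : ∀ u ∈ U, ∀ v w, Gq (F u) (fderiv ℝ F u v) (fderiv ℝ F u w) = Gp u v w)
    {p : E} (hp : p ∈ U) :
    ∃ τ : OpenPartialHomeomorph E E, LocIso R U V Gp Gq p (F p) τ ∧ ∀ u, τ u = F u := by
  have key : ∀ u ∈ U, ∃ A : E ≃L[ℝ] E, HasFDerivAt F (A : E →L[ℝ] E) u := by
    intro u hu
    have hinj : Function.Injective (fderiv ℝ F u) := by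
      rw [injective_iff_map_eq_zero]
      intro v hv
      by_contra hne
      have h1 := hpos u hu v hne
      rw [← hiso u hu v v, hv] at h1
      simp at h1
    let A : E ≃ₗ[ℝ] E := LinearEquiv.ofInjectiveEndo (fderiv ℝ F u : E →ₗ[ℝ] E) hinj
    refine ⟨A.toContinuousLinearEquiv, ?_⟩
    have hA : (A.toContinuousLinearEquiv : E →L[ℝ] E) = fderiv ℝ F u := by
      ext v
      rfl
    rw [hA]
    exact ((hF.contDiffAt (hU.mem_nhds hu)).differentiableAt (by simp)).hasFDerivAt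
  have : CompleteSpace E := FiniteDimensional.complete ℝ E
  obtain ⟨A, hA⟩ := key p hp
  have hFp : ContDiffAt ℝ ∞ F p := hF.contDiffAt (hU.mem_nhds hp)
  let τ₀ := hFp.toOpenPartialHomeomorph F hA (by simp)
  have hτ₀ : (τ₀ : E → E) = F := hFp.toOpenPartialHomeomorph_coe hA (by simp)
  have hpτ₀ : p ∈ τ₀.source := hFp.mem_toOpenPartialHomeomorph_source hA (by simp)
  let τ := τ₀.restrOpen U hU
  have hτ : (τ : E → E) = F := hτ₀
  have hsrc : τ.source = τ₀.source ∩ U := τ₀.restrOpen_source U hU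
  have hsub : τ.source ⊆ U := by rw [hsrc]; exact inter_subset_right
  refine ⟨τ, ⟨?_, ?_, hsub, ?_, ?_, ?_, ?_, ?_⟩, fun u => congrFun hτ u⟩
  · rw [hsrc]; exact ⟨hpτ₀, hp⟩
  · rw [hτ]
  · intro y hy
    have h1 : τ.symm y ∈ τ.source := τ.map_target hy
    have h2 := hm (hsub h1)
    rwa [← hτ, τ.right_inv hy] at h2
  · rw [hτ]; exact hF.mono hsub
  · intro y hy
    have h1 : τ.symm y ∈ τ.source := τ.map_target hy
    obtain ⟨B, hB⟩ := key _ (hsub h1)
    refine ContDiffAt.contDiffWithinAt ?_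
    refine τ.contDiffAt_symm hy (f₀' := B) ?_ ?_
    · rw [hτ]; exact hB
    · rw [hτ]; exact hF.contDiffAt (hU.mem_nhds (hsub h1))
  · intro u hu
    rw [hτ]; exact hR u (hsub hu)
  · intro u hu v w
    rw [hτ]; exact hiso u (hsub hu) v w

end Vale.Agent.P255
end
end
end

section

section

/-!
# P255: the glued space `Sd δ` and its metric `g0 δ`
-/

open scoped Manifold ContDiff Topology
open Set

noncomputable section

namespace Vale.Agent.P255

variable {δ : ℝ}

/-! ## Openness -/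

theorem isOpen_plane (c ρ : ℝ) :
    IsOpen {u : E3 | ∀ k l : ℤ, ρ ^ 2 < (u 0 - c * k) ^ 2 + (u 1 - c * l) ^ 2} := by
  have h1 : IsClosed {p : ℝ × ℝ | Mult c p.1 ∧ Mult c p.2} :=
    ((isClosed_mult c).preimage continuous_fst).inter ((isClosed_mult c).preimage continuous_snd)
  have h2 : IsCompact {p : ℝ × ℝ | p.1 ^ 2 + p.2 ^ 2 ≤ ρ ^ 2} := by
    refine Metric.isCompact_of_isClosed_isBounded ?_ ?_
    · exact isClosed_le (by fun_prop) (by fun_prop)
    · refine (Metric.isBounded_Icc ((-|ρ|, -|ρ|) : ℝ × ℝ) (|ρ|, |ρ|)).subset ?_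
      rintro ⟨x, y⟩ h
      have h' : x ^ 2 + y ^ 2 ≤ ρ ^ 2 := h
      have hx : |x| ≤ |ρ| := sq_le_sq.1 (by linarith only [sq_nonneg y, h'])
      have hy : |y| ≤ |ρ| := sq_le_sq.1 (by linarith only [sq_nonneg x, h'])
      exact ⟨⟨(abs_le.1 hx).1, (abs_le.1 hy).1⟩, ⟨(abs_le.1 hx).2, (abs_le.1 hy).2⟩⟩
  have h3 := h1.add_right_of_isCompact h2
  have h4 : Continuous fun u : E3 => ((u 0, u 1) : ℝ × ℝ) := by fun_prop
  have h5 := (h3.preimage h4).isOpen_compl
  convert h5 using 1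
  ext u
  simp only [mem_ofPred_eq, mem_compl_iff, mem_preimage, mem_add, not_exists, not_and]
  constructor
  · rintro h ⟨a, b⟩ ⟨⟨k, hk⟩, ⟨l, hl⟩⟩ ⟨x, y⟩ hxy heq
    simp only at hk hl hxy
    have e1 : a + x = u 0 := congrArg Prod.fst heq
    have e2 : b + y = u 1 := congrArg Prod.snd heq
    have := h k l
    rw [← e1, ← e2, ← hk, ← hl] at this
    have e3 : (a + x - a) ^ 2 + (b + y - b) ^ 2 = x ^ 2 + y ^ 2 := by ring
    rw [e3] at this
    linarith
  · intro h k l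
    by_contra hc
    exact h (c * k, c * l) ⟨⟨k, rfl⟩, ⟨l, rfl⟩⟩ (u 0 - c * k, u 1 - c * l) (not_lt.1 hc)
      (by ext <;> simp)

theorem isOpen_Om (k : Kind) : IsOpen (Om δ k) := by
  cases k
  · exact isOpen_plane _ _
  · have h : Continuous fun u : E3 => u 0 := by fun_prop
    exact (isOpen_lt continuous_const h).inter (isOpen_lt h continuous_const)
  · exact isOpen_plane _ _

/-! ## The metric coefficients -/

theorem GF_apply (v w : E3) : GF v w = v 0 * w 0 + v 1 * w 1 + v 2 * w 2 := by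
  show inner ℝ v w = _
  rw [PiLp.inner_apply, Fin.sum_univ_three]
  simp
  ring

theorem GC_apply (u v w : E3) : GC δ u v w =
    v 0 * w 0 + chi δ (u 0) ^ 2 * (v 1 * w 1)
      + phi (u 0) ^ 2 * ((v 2 + δ * sig (u 0) * v 1) * (w 2 + δ * sig (u 0) * w 1)) := by
  simp [GC]
  ring

theorem contDiff_smul_const_aux {V : Type} [NormedAddCommGroup V] [NormedSpace ℝ V] {f : E3 → ℝ}
    (hf : ContDiff ℝ ∞ f) (c : V) : ContDiff ℝ ∞ fun u => f u • c := by
  have h : ContDiff ℝ ∞ fun _ : E3 => c := contDiff_const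
  exact ContDiff.smul hf h

theorem contDiff_GC : ContDiff ℝ ∞ (GC δ) := by
  have h0 : ContDiff ℝ ∞ fun u : E3 => u 0 := by fun_prop
  have h1 : ContDiff ℝ ∞ fun u : E3 => chi δ (u 0) := (contDiff_chi δ).comp h0
  have h2 : ContDiff ℝ ∞ fun u : E3 => phi (u 0) := contDiff_phi.comp h0
  have h3 : ContDiff ℝ ∞ fun u : E3 => sig (u 0) := contDiff_sig.comp h0
  have h4 : ContDiff ℝ ∞ fun u : E3 => ((EuclideanSpace.proj 2 : E3 →L[ℝ] ℝ)
      + (δ * sig (u 0)) • (EuclideanSpace.proj 1 : E3 →L[ℝ] ℝ)) :=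
    contDiff_const.add ((contDiff_const.mul h3).smul contDiff_const)
  have h5 := h4.smulRight h4
  have h6 := (h2.pow 2).smul h5
  exact (contDiff_const.add (contDiff_smul_const_aux (h1.pow 2) _)).add h6

theorem contDiff_Gk (k : Kind) : ContDiff ℝ ∞ (Gk δ k) := by
  cases k
  · exact contDiff_const
  · exact contDiff_GC
  · exact contDiff_const

theorem Gk_symm (k : Kind) (u v w : E3) : Gk δ k u v w = Gk δ k u w v := by
  cases k
  · show GF v w = GF w v
    rw [GF_apply, GF_apply]; ring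
  · show GC δ u v w = GC δ u w v
    rw [GC_apply, GC_apply]; ring
  · show GF v w = GF w v
    rw [GF_apply, GF_apply]; ring

theorem GF_pos (v : E3) (hv : v ≠ 0) : 0 < GF v v := by
  show 0 < inner ℝ v v
  exact real_inner_self_pos.2 hv

theorem GC_pos (hδ : 0 < δ) (u v : E3) (hv : v ≠ 0) : 0 < GC δ u v v := by
  rw [GC_apply]
  have h1 := chi_pos hδ (u 0)
  have h2 := phi_pos (u 0)
  by_contra hc
  have e0 : 0 ≤ v 0 * v 0 := mul_self_nonneg _
  have e1 : 0 ≤ chi δ (u 0) ^ 2 * (v 1 * v 1) := mul_nonneg (sq_nonneg _) (mul_self_nonneg _)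
  have e2 : 0 ≤ phi (u 0) ^ 2 * ((v 2 + δ * sig (u 0) * v 1) * (v 2 + δ * sig (u 0) * v 1)) :=
    mul_nonneg (sq_nonneg _) (mul_self_nonneg _)
  have f0 : v 0 * v 0 = 0 := by linarith
  have f1 : chi δ (u 0) ^ 2 * (v 1 * v 1) = 0 := by linarith
  have f2 : phi (u 0) ^ 2 * ((v 2 + δ * sig (u 0) * v 1) * (v 2 + δ * sig (u 0) * v 1)) = 0 := by
    linarith
  have g0 : v 0 = 0 := mul_self_eq_zero.1 f0
  have g1 : v 1 = 0 := mul_self_eq_zero.1 ((mul_eq_zero.1 f1).resolve_left (pow_pos h1 2).ne')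
  have g2 : v 2 + δ * sig (u 0) * v 1 = 0 :=
    mul_self_eq_zero.1 ((mul_eq_zero.1 f2).resolve_left (pow_pos h2 2).ne')
  rw [g1, mul_zero, add_zero] at g2
  apply hv
  ext i
  fin_cases i
  · exact g0
  · exact g1
  · exact g2

theorem Gk_pos (hδ : 0 < δ) (k : Kind) (u v : E3) (hv : v ≠ 0) : 0 < Gk δ k u v v := by
  cases k
  · exact GF_pos v hv
  · exact GC_pos hδ u v hv
  · exact GF_pos v hv

/-! ## The coordinate changes -/

/-- from the collar to the left piece -/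
def mapCL (a b c : ℝ) (u : E3) : E3 :=
  !₂[phi (u 0) * Real.cos (u 2) + a, phi (u 0) * Real.sin (u 2) + b, u 1 + c]

/-- from the collar to the right piece -/
def mapCR (δ a b c : ℝ) (u : E3) : E3 :=
  !₂[chi δ (u 0) / δ * Real.cos (δ * u 1) + a, chi δ (u 0) / δ * Real.sin (δ * u 1) + b,
    u 2 + δ * u 1 + c]

theorem hasDerivAt_phi (t : ℝ) : HasDerivAt phi (-Real.smoothTransition ((1 - t) / 2)) t := by
  have h1 : HasDerivAt (fun t : ℝ => 1 - t) (-1) t := by
    simpa using (hasDerivAt_id t).const_sub 1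
  have h2 := (hasDerivAt_P (1 - t)).comp t h1
  exact (h2.const_add 1).congr_deriv (by ring)

theorem hasDerivAt_chi (t : ℝ) :
    HasDerivAt (chi δ) (δ * Real.smoothTransition (t / 2)) t :=
  ((hasDerivAt_P t).const_mul δ).const_add 1

theorem hasFDerivAt_coord (i : Fin 3) (u : E3) :
    HasFDerivAt (fun u : E3 => u i) (EuclideanSpace.proj i : E3 →L[ℝ] ℝ) u :=
  (EuclideanSpace.proj i : E3 →L[ℝ] ℝ).hasFDerivAt

theorem fderiv_comp_apply {F : E3 → E3} {u : E3} (hF : DifferentiableAt ℝ F u) (i : Fin 3) (v : E3)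
    {L : E3 →L[ℝ] ℝ} (h : HasFDerivAt (fun x => F x i) L u) : fderiv ℝ F u v i = L v := by
  have h1 : HasFDerivAt (fun x => F x i) ((EuclideanSpace.proj i : E3 →L[ℝ] ℝ).comp (fderiv ℝ F u))
      u := (hasFDerivAt_coord i (F u)).comp u hF.hasFDerivAt
  have := h1.unique h
  rw [← this]
  rfl

theorem contDiff_mapCL (a b c : ℝ) : ContDiff ℝ ∞ (mapCL a b c) := by
  have h0 : ∀ i : Fin 3, ContDiff ℝ ∞ fun u : E3 => u i := fun i => by fun_prop
  have h2 : ContDiff ℝ ∞ fun u : E3 => phi (u 0) := contDiff_phi.comp (h0 0)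
  rw [contDiff_euclidean]
  intro i
  fin_cases i
  · exact (h2.mul (Real.contDiff_cos.comp (h0 2))).add contDiff_const
  · exact (h2.mul (Real.contDiff_sin.comp (h0 2))).add contDiff_const
  · exact (h0 1).add contDiff_const

theorem contDiff_mapCR (a b c : ℝ) : ContDiff ℝ ∞ (mapCR δ a b c) := by
  have h0 : ∀ i : Fin 3, ContDiff ℝ ∞ fun u : E3 => u i := fun i => by fun_prop
  have h2 : ContDiff ℝ ∞ fun u : E3 => chi δ (u 0) / δ :=
    ((contDiff_chi δ).comp (h0 0)).div_const δ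
  have h3 : ContDiff ℝ ∞ fun u : E3 => δ * u 1 := contDiff_const.mul (h0 1)
  rw [contDiff_euclidean]
  intro i
  fin_cases i
  · exact (h2.mul (Real.contDiff_cos.comp h3)).add contDiff_const
  · exact (h2.mul (Real.contDiff_sin.comp h3)).add contDiff_const
  · exact ((h0 2).add h3).add contDiff_const

theorem fderiv_mapCL (a b c : ℝ) {u : E3} (hu : u 0 < -1) (v : E3) :
    fderiv ℝ (mapCL a b c) u v 0 = -Real.cos (u 2) * v 0 - phi (u 0) * Real.sin (u 2) * v 2 ∧
    fderiv ℝ (mapCL a b c) u v 1 = -Real.sin (u 2) * v 0 + phi (u 0) * Real.cos (u 2) * v 2 ∧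
    fderiv ℝ (mapCL a b c) u v 2 = v 1 := by
  have hd : DifferentiableAt ℝ (mapCL a b c) u := (contDiff_mapCL a b c).differentiable (by simp) u
  have hφ : HasDerivAt phi (-1) (u 0) := by
    have := hasDerivAt_phi (u 0)
    rwa [Real.smoothTransition.one_of_one_le (by linarith)] at this
  have h0 := hφ.comp_hasFDerivAt u (hasFDerivAt_coord 0 u)
  have hc := (Real.hasDerivAt_cos (u 2)).comp_hasFDerivAt u (hasFDerivAt_coord 2 u)
  have hs := (Real.hasDerivAt_sin (u 2)).comp_hasFDerivAt u (hasFDerivAt_coord 2 u)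
  refine ⟨?_, ?_, ?_⟩
  · rw [fderiv_comp_apply hd 0 v (L := _) ((h0.mul hc).add_const a)]
    simp
    ring
  · rw [fderiv_comp_apply hd 1 v (L := _) ((h0.mul hs).add_const b)]
    simp
    ring
  · rw [fderiv_comp_apply hd 2 v (L := _) ((hasFDerivAt_coord 1 u).add_const c)]
    simp

theorem fderiv_mapCR (hδ : 0 < δ) (a b c : ℝ) {u : E3} (hu : 2 < u 0) (v : E3) :
    fderiv ℝ (mapCR δ a b c) u v 0
      = Real.cos (δ * u 1) * v 0 - chi δ (u 0) * Real.sin (δ * u 1) * v 1 ∧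
    fderiv ℝ (mapCR δ a b c) u v 1
      = Real.sin (δ * u 1) * v 0 + chi δ (u 0) * Real.cos (δ * u 1) * v 1 ∧
    fderiv ℝ (mapCR δ a b c) u v 2 = v 2 + δ * v 1 := by
  have hd : DifferentiableAt ℝ (mapCR δ a b c) u :=
    (contDiff_mapCR a b c).differentiable (by simp) u
  have hφ : HasDerivAt (fun t => chi δ t / δ) 1 (u 0) := by
    have := (hasDerivAt_chi (δ := δ) (u 0)).div_const δ
    rwa [Real.smoothTransition.one_of_one_le (by linarith), mul_one, div_self hδ.ne'] at this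
  have h0 := hφ.comp_hasFDerivAt u (hasFDerivAt_coord 0 u)
  have h1 := (hasFDerivAt_coord 1 u).const_mul δ
  have hc := (Real.hasDerivAt_cos (δ * u 1)).comp_hasFDerivAt u h1
  have hs := (Real.hasDerivAt_sin (δ * u 1)).comp_hasFDerivAt u h1
  refine ⟨?_, ?_, ?_⟩
  · rw [fderiv_comp_apply hd 0 v (L := _) ((h0.mul hc).add_const a)]
    simp
    field_simp
    ring
  · rw [fderiv_comp_apply hd 1 v (L := _) ((h0.mul hs).add_const b)]
    simp
    field_simp
    ring
  · rw [fderiv_comp_apply hd 2 v (L := _) (((hasFDerivAt_coord 2 u).add h1).add_const c)]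
    simp

theorem pullback_mapCL (a b c : ℝ) {u : E3} (hu : u 0 < -1) (v w : E3) :
    GF (fderiv ℝ (mapCL a b c) u v) (fderiv ℝ (mapCL a b c) u w) = GC δ u v w := by
  obtain ⟨v0, v1, v2⟩ := fderiv_mapCL a b c hu v
  obtain ⟨w0, w1, w2⟩ := fderiv_mapCL a b c hu w
  rw [GF_apply, GC_apply, v0, v1, v2, w0, w1, w2, chi_of_le (by linarith), sig_of_le (by linarith only [hu])]
  have h := Real.sin_sq_add_cos_sq (u 2)
  linear_combination (v 0 * w 0 + phi (u 0) ^ 2 * v 2 * w 2) * h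

theorem pullback_mapCR (hδ : 0 < δ) (a b c : ℝ) {u : E3} (hu : 2 < u 0) (v w : E3) :
    GF (fderiv ℝ (mapCR δ a b c) u v) (fderiv ℝ (mapCR δ a b c) u w) = GC δ u v w := by
  obtain ⟨v0, v1, v2⟩ := fderiv_mapCR hδ a b c hu v
  obtain ⟨w0, w1, w2⟩ := fderiv_mapCR hδ a b c hu w
  rw [GF_apply, GC_apply, v0, v1, v2, w0, w1, w2, phi_of_ge (by linarith), sig_of_ge (by linarith only [hu])]
  have h := Real.sin_sq_add_cos_sq (δ * u 1)
  linear_combination (v 0 * w 0 + chi δ (u 0) ^ 2 * v 1 * w 1) * h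

/-- Local isometries realizing the relation between two pieces. -/
def HasIso (δ : ℝ) (p q : Kind × E3) : Prop :=
  ∃ τ : OpenPartialHomeomorph E3 E3,
    LocIso (fun u v => rel δ (p.1, u) (q.1, v)) (Om δ p.1) (Om δ q.1) (Gk δ p.1) (Gk δ q.1)
      p.2 q.2 τ

theorem HasIso.symm {p q : Kind × E3} (h : HasIso δ p q) : HasIso δ q p := by
  obtain ⟨τ, hτ⟩ := h
  exact ⟨τ.symm, hτ.symm fun u _ v _ huv => rel_symm huv⟩

theorem hasIso_translate (hδ : 0 < δ) {k : Kind} {u v : E3} (hu : u ∈ Om δ k)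
    (hm : ∀ x ∈ Om δ k, x + (v - u) ∈ Om δ k)
    (hR : ∀ x ∈ Om δ k, rel δ (k, x) (k, x + (v - u)))
    (hG : ∀ x, Gk δ k (x + (v - u)) = Gk δ k x) : HasIso δ (k, u) (k, v) := by
  have hF : ContDiff ℝ ∞ fun x : E3 => x + (v - u) := contDiff_id.add contDiff_const
  obtain ⟨τ, hτ, -⟩ := exists_locIso (R := fun x y => rel δ (k, x) (k, y)) (isOpen_Om k)
    (Gp := Gk δ k) (Gq := Gk δ k) (fun x _ w hw => Gk_pos hδ k x w hw)
    (F := fun x => x + (v - u)) hF.contDiffOn hm hR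
    (fun x _ y z => by
      have : fderiv ℝ (fun x : E3 => x + (v - u)) x = ContinuousLinearMap.id ℝ E3 := by
        rw [fderiv_add_const]
        exact fderiv_id
      rw [this, hG]
      rfl) hu
  refine ⟨τ, ?_⟩
  simpa using hτ

theorem plane_translate {c ρ x y a b : ℝ} (ha : Mult c a) (hb : Mult c b)
    (h : ∀ k l : ℤ, ρ ^ 2 < (x - c * k) ^ 2 + (y - c * l) ^ 2) (k l : ℤ) :
    ρ ^ 2 < (x + a - c * k) ^ 2 + (y + b - c * l) ^ 2 := by
  obtain ⟨m, rfl⟩ := ha
  obtain ⟨n, rfl⟩ := hb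
  have := h (k - m) (l - n)
  push_cast at this
  have e1 : x + c * m - c * k = x - c * (k - m) := by ring
  have e2 : y + c * n - c * l = y - c * (l - n) := by ring
  rw [e1, e2]
  exact this

theorem hasIso_LL (hδ : 0 < δ) {u v : E3} (hu : u ∈ Om δ .L) (h : rel δ (.L, u) (.L, v)) :
    HasIso δ (.L, u) (.L, v) := by
  obtain ⟨h1, h2, h3⟩ := h
  simp only at h1 h2 h3
  refine hasIso_translate hδ hu ?_ ?_ ?_
  · intro x hx
    exact plane_translate h1 h2 hx
  · intro x hx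
    refine ⟨?_, ?_, ?_⟩
    · simpa using h1
    · simpa using h2
    · simpa using h3
  · intro x
    rfl

theorem hasIso_RR (hδ : 0 < δ) {u v : E3} (hu : u ∈ Om δ .R) (h : rel δ (.R, u) (.R, v)) :
    HasIso δ (.R, u) (.R, v) := by
  obtain ⟨h1, h2, h3⟩ := h
  simp only at h1 h2 h3
  refine hasIso_translate hδ hu ?_ ?_ ?_
  · intro x hx
    exact plane_translate h1 h2 hx
  · intro x hx
    refine ⟨?_, ?_, ?_⟩
    · simpa using h1
    · simpa using h2
    · simpa using h3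
  · intro x
    rfl

theorem GC_congr {u v : E3} (h : u 0 = v 0) : GC δ u = GC δ v := by
  unfold GC
  rw [h]

theorem hasIso_CC (hδ : 0 < δ) {u v : E3} (hu : u ∈ Om δ .C) (h : rel δ (.C, u) (.C, v)) :
    HasIso δ (.C, u) (.C, v) := by
  obtain ⟨h1, h2, h3⟩ := h
  simp only at h1 h2 h3
  have h0 : ∀ x : E3, (x + (v - u)) 0 = x 0 := fun x => by
    simp [h1]
  refine hasIso_translate hδ hu ?_ ?_ ?_
  · intro x hx
    show -3 < (x + (v - u)) 0 ∧ (x + (v - u)) 0 < 4
    rw [h0]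
    exact hx
  · intro x hx
    refine ⟨h0 x, ?_, ?_⟩
    · simpa using h2
    · simpa using h3
  · intro x
    exact GC_congr (h0 x)

theorem isOpen_coord_lt (i : Fin 3) (c : ℝ) : IsOpen {u : E3 | u i < c} := by
  have h : Continuous fun u : E3 => u i := by fun_prop
  exact isOpen_lt h continuous_const

theorem isOpen_coord_gt (i : Fin 3) (c : ℝ) : IsOpen {u : E3 | c < u i} := by
  have h : Continuous fun u : E3 => u i := by fun_prop
  exact isOpen_lt continuous_const h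

theorem LocIso.mono {R : E3 → E3 → Prop} {U U' V : Set E3} {Gp Gq : E3 → E3 →L[ℝ] E3 →L[ℝ] ℝ}
    {p q : E3} {τ : OpenPartialHomeomorph E3 E3} (h : LocIso R U V Gp Gq p q τ) (hU : U ⊆ U') :
    LocIso R U' V Gp Gq p q τ :=
  ⟨h.mem, h.val, h.src.trans hU, h.tgt, h.smooth, h.smooth_symm, h.rel, h.iso⟩

theorem hasIso_CL (hδ : 0 < δ) {u v : E3} (hu : u ∈ Om δ .C) (hv : v ∈ Om δ .L)
    (h : relCL δ u v) : HasIso δ (.C, u) (.L, v) := by
  have hu1 := relCL_lt hv h
  obtain ⟨⟨a, ha⟩, ⟨b, hb⟩, ⟨c, hc⟩⟩ := h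
  let F := mapCL (sL * a) (sL * b) (per δ * c)
  have hFu : F u = v := by
    ext i
    fin_cases i
    · show phi (u 0) * Real.cos (u 2) + sL * a = v 0
      linarith
    · show phi (u 0) * Real.sin (u 2) + sL * b = v 1
      linarith
    · show u 1 + per δ * c = v 2
      linarith
  let U : Set E3 := Om δ .C ∩ {x | x 0 < -1}
  have hR : ∀ x ∈ U, relCL δ x (F x) := by
    intro x _
    refine ⟨?_, ?_, ?_⟩
    · show Mult sL (phi (x 0) * Real.cos (x 2) + sL * a - phi (x 0) * Real.cos (x 2))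
      rw [add_sub_cancel_left]
      exact mult_mul _ _
    · show Mult sL (phi (x 0) * Real.sin (x 2) + sL * b - phi (x 0) * Real.sin (x 2))
      rw [add_sub_cancel_left]
      exact mult_mul _ _
    · show Mult (per δ) (x 1 + per δ * c - x 1)
      rw [add_sub_cancel_left]
      exact mult_mul _ _
  obtain ⟨τ, hτ, -⟩ := exists_locIso (R := fun x y => rel δ (.C, x) (.L, y)) (U := U)
    (V := Om δ .L) ((isOpen_Om .C).inter (isOpen_coord_lt 0 (-1)))
    (Gp := Gk δ .C) (Gq := Gk δ .L) (fun x _ w hw => Gk_pos hδ .C x w hw)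
    (F := F) (contDiff_mapCL _ _ _).contDiffOn
    (by
      intro x hx k l
      have hx1 : -3 < x 0 := hx.1.1
      have hx2 : x 0 < -1 := hx.2
      have h3 := hR x hx
      refine radius_le two_pos (two_lt_phi_iff.2 hx2) ?_ h3.1 h3.2.1 k l
      have := phi_lt_four hx1
      unfold sL
      linarith)
    hR (fun x hx y z => pullback_mapCL _ _ _ hx.2 y z) (p := u) ⟨hu, hu1⟩
  rw [hFu] at hτ
  exact ⟨τ, hτ.mono inter_subset_left⟩

theorem hasIso_CR (hδ : 0 < δ) {u v : E3} (hu : u ∈ Om δ .C) (hv : v ∈ Om δ .R)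
    (h : relCR δ u v) : HasIso δ (.C, u) (.R, v) := by
  have hu1 := relCR_lt hδ hv h
  obtain ⟨⟨a, ha⟩, ⟨b, hb⟩, ⟨c, hc⟩⟩ := h
  let F := mapCR δ (sR δ * a) (sR δ * b) (2 * Real.pi * c)
  have hFu : F u = v := by
    ext i
    fin_cases i
    · show chi δ (u 0) / δ * Real.cos (δ * u 1) + sR δ * a = v 0
      linarith
    · show chi δ (u 0) / δ * Real.sin (δ * u 1) + sR δ * b = v 1
      linarith
    · show u 2 + δ * u 1 + 2 * Real.pi * c = v 2
      linarith
  let U : Set E3 := Om δ .C ∩ {x | 2 < x 0}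
  have hR : ∀ x ∈ U, relCR δ x (F x) := by
    intro x _
    refine ⟨?_, ?_, ?_⟩
    · show Mult (sR δ) (chi δ (x 0) / δ * Real.cos (δ * x 1) + sR δ * a
        - chi δ (x 0) / δ * Real.cos (δ * x 1))
      rw [add_sub_cancel_left]
      exact mult_mul _ _
    · show Mult (sR δ) (chi δ (x 0) / δ * Real.sin (δ * x 1) + sR δ * b
        - chi δ (x 0) / δ * Real.sin (δ * x 1))
      rw [add_sub_cancel_left]
      exact mult_mul _ _
    · show Mult (2 * Real.pi) (x 2 + δ * x 1 + 2 * Real.pi * c - (x 2 + δ * x 1))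
      rw [add_sub_cancel_left]
      exact mult_mul _ _
  obtain ⟨τ, hτ, -⟩ := exists_locIso (R := fun x y => rel δ (.C, x) (.R, y)) (U := U)
    (V := Om δ .R) ((isOpen_Om .C).inter (isOpen_coord_gt 0 2))
    (Gp := Gk δ .C) (Gq := Gk δ .R) (fun x _ w hw => Gk_pos hδ .C x w hw)
    (F := F) (contDiff_mapCR _ _ _).contDiffOn
    (by
      intro x hx k l
      have hx1 : x 0 < 4 := hx.1.2
      have hx2 : 2 < x 0 := hx.2
      have h3 := hR x hx
      refine radius_le (by positivity) ((lt_chi_div_iff hδ).2 hx2) ?_ h3.1 h3.2.1 k l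
      have := chi_div_lt hδ hx1
      unfold sR
      have e : 2 / δ = 1 / δ + 1 / δ := by ring
      linarith only [e, this])
    hR (fun x hx y z => pullback_mapCR hδ _ _ _ hx.2 y z) (p := u) ⟨hu, hu1⟩
  rw [hFu] at hτ
  exact ⟨τ, hτ.mono inter_subset_left⟩

theorem hasIso (hδ : 0 < δ) (p q : Kind × E3) (hp : p.2 ∈ Om δ p.1) (hq : q.2 ∈ Om δ q.1)
    (h : rel δ p q) : HasIso δ p q := by
  obtain ⟨k, u⟩ := p
  obtain ⟨l, v⟩ := q
  simp only at hp hq
  cases k <;> cases l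
  · exact hasIso_LL hδ hp h
  · exact (hasIso_CL hδ hq hp h).symm
  · exact h.elim
  · exact hasIso_CL hδ hp hq h
  · exact hasIso_CC hδ hp h
  · exact hasIso_CR hδ hp hq h
  · exact h.elim
  · exact (hasIso_CR hδ hq hp h).symm
  · exact hasIso_RR hδ hp h

end Vale.Agent.P255
end
end
end

section

section

/-!
# P255: the glued space `Sd δ` and its metric `g0 δ`
-/

open scoped Manifold ContDiff Topology
open Set

noncomputable section

namespace Vale.Agent.P255

variable {δ : ℝ}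

theorem abs_coord_le (u : E3) (i : Fin 3) : |u i| ≤ ‖u‖ := by
  have := PiLp.norm_apply_le u i
  rwa [Real.norm_eq_abs] at this

theorem inj_aux (hδ : 0 < δ) (k : Kind) (u : E3) (hu : u ∈ Om δ k) :
    ∃ W : Set E3, IsOpen W ∧ u ∈ W ∧ W ⊆ Om δ k ∧
      ∀ v ∈ W, ∀ w ∈ W, rel δ (k, v) (k, w) → v = w := by
  have hper := per_pos hδ
  set r : ℝ := min (per δ / 2) 1 with hr
  have hr0 : 0 < r := lt_min (by positivity) one_pos
  have hr1 : 2 * r ≤ per δ := by
    have := min_le_left (per δ / 2) 1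
    rw [← hr] at this
    linarith
  have hr2 : r ≤ 1 := min_le_right _ _
  have hpi := Real.pi_gt_three
  have hsR : 2 ≤ sR δ := by
    unfold sR
    have : 0 < 2 / δ := by positivity
    linarith
  have hsL : 2 ≤ sL := by unfold sL; norm_num
  refine ⟨Om δ k ∩ Metric.ball u r, (isOpen_Om k).inter Metric.isOpen_ball,
    ⟨hu, Metric.mem_ball_self hr0⟩, inter_subset_left, ?_⟩
  intro v hv w hw h
  have hd : ∀ i : Fin 3, |w i - v i| < 2 * r := by
    intro i
    have h1 := abs_coord_le (w - v) i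
    have h2 : ‖w - v‖ < 2 * r := by
      rw [← dist_eq_norm]
      have h3 := Metric.mem_ball.1 hv.2
      have h4 := Metric.mem_ball.1 hw.2
      have h5 := dist_triangle_right w v u
      linarith
    exact lt_of_le_of_lt h1 h2
  have h0 : ∀ (i : Fin 3) (c : ℝ), 2 * r ≤ c → Mult c (w i - v i) → v i = w i := by
    intro i c hc hm
    have := hm.eq_zero (lt_of_lt_of_le (hd i) hc)
    linarith
  cases k
  · obtain ⟨h1, h2, h3⟩ := h
    ext i
    fin_cases i
    · exact h0 0 sL (by linarith) h1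
    · exact h0 1 sL (by linarith) h2
    · exact h0 2 (per δ) hr1 h3
  · obtain ⟨h1, h2, h3⟩ := h
    ext i
    fin_cases i
    · exact h1.symm
    · exact h0 1 (per δ) hr1 h2
    · exact h0 2 (2 * Real.pi) (by linarith) h3
  · obtain ⟨h1, h2, h3⟩ := h
    ext i
    fin_cases i
    · exact h0 0 (sR δ) (by linarith) h1
    · exact h0 1 (sR δ) (by linarith) h2
    · exact h0 2 (2 * Real.pi) (by linarith) h3

theorem closed_aux (k l : Kind) (u v : E3) (h : ¬ rel δ (k, u) (l, v)) :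
    ∃ U V : Set E3, IsOpen U ∧ IsOpen V ∧ u ∈ U ∧ v ∈ V ∧
      ∀ u' ∈ U ∩ Om δ k, ∀ v' ∈ V ∩ Om δ l, ¬ rel δ (k, u') (l, v') := by
  have h1 := (isClosed_rel (δ := δ) k l).isOpen_compl
  obtain ⟨U, V, hU, hV, hu, hv, hUV⟩ := isOpen_prod_iff.1 h1 u v h
  refine ⟨U, V, hU, hV, hu, hv, fun u' hu' v' hv' hr => ?_⟩
  exact hUV (mk_mem_prod hu'.1 hv'.1) hr

/-! ## Compactness -/

theorem isCompact_box (a b : Fin 3 → ℝ) : IsCompact {u : E3 | ∀ i, a i ≤ u i ∧ u i ≤ b i} := by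
  have h : IsCompact (Icc a b) := isCompact_Icc
  have h2 : {u : E3 | ∀ i, a i ≤ u i ∧ u i ≤ b i} = (WithLp.toLp 2) '' (Icc a b) := by
    ext u
    constructor
    · intro hu
      exact ⟨u.ofLp, ⟨fun i => (hu i).1, fun i => (hu i).2⟩, rfl⟩
    · rintro ⟨x, hx, rfl⟩ i
      exact ⟨hx.1 i, hx.2 i⟩
  rw [h2]
  exact h.image (PiLp.continuous_toLp 2 _)

theorem exists_reduce {c : ℝ} (hc : 0 < c) (x : ℝ) : ∃ y, Mult c (y - x) ∧ 0 ≤ y ∧ y ≤ c := by
  refine ⟨x - c * ⌊x / c⌋, ⟨-⌊x / c⌋, by push_cast; ring⟩, ?_, ?_⟩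
  · have := Int.floor_le (x / c)
    rw [le_div_iff₀ hc] at this
    linarith
  · have := Int.lt_floor_add_one (x / c)
    rw [div_lt_iff₀ hc] at this
    linarith

/-- compact parts of the pieces -/
def Ck (δ : ℝ) : Kind → Set E3
  | .L => {u | ∀ i, (![0, 0, 0] : Fin 3 → ℝ) i ≤ u i ∧ u i ≤ (![sL, sL, per δ] : Fin 3 → ℝ) i} ∩
      {u | ∀ k l : ℤ, 3 ^ 2 ≤ (u 0 - sL * k) ^ 2 + (u 1 - sL * l) ^ 2}
  | .C => {u | ∀ i, (![-2, 0, 0] : Fin 3 → ℝ) i ≤ u i ∧
      u i ≤ (![3, per δ, 2 * Real.pi] : Fin 3 → ℝ) i}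
  | .R => {u | ∀ i, (![0, 0, 0] : Fin 3 → ℝ) i ≤ u i ∧
      u i ≤ (![sR δ, sR δ, 2 * Real.pi] : Fin 3 → ℝ) i} ∩
      {u | ∀ k l : ℤ, (1 / δ + 2) ^ 2 ≤ (u 0 - sR δ * k) ^ 2 + (u 1 - sR δ * l) ^ 2}

theorem isClosed_plane (c ρ : ℝ) :
    IsClosed {u : E3 | ∀ k l : ℤ, ρ ^ 2 ≤ (u 0 - c * k) ^ 2 + (u 1 - c * l) ^ 2} := by
  have : {u : E3 | ∀ k l : ℤ, ρ ^ 2 ≤ (u 0 - c * k) ^ 2 + (u 1 - c * l) ^ 2}
      = ⋂ (k : ℤ), ⋂ (l : ℤ), {u : E3 | ρ ^ 2 ≤ (u 0 - c * k) ^ 2 + (u 1 - c * l) ^ 2} := by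
    ext u
    simp
  rw [this]
  refine isClosed_iInter fun k => isClosed_iInter fun l => ?_
  have h : Continuous fun u : E3 => (u 0 - c * k) ^ 2 + (u 1 - c * l) ^ 2 := by fun_prop
  exact isClosed_le continuous_const h

theorem isCompact_Ck (k : Kind) : IsCompact (Ck δ k) := by
  cases k
  · exact (isCompact_box _ _).inter_right (isClosed_plane _ _)
  · exact isCompact_box _ _
  · exact (isCompact_box _ _).inter_right (isClosed_plane _ _)

theorem Ck_subset (hδ : 0 < δ) (k : Kind) : Ck δ k ⊆ Om δ k := by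
  cases k
  · rintro u ⟨-, hu⟩ k l
    have := hu k l
    linarith
  · intro u hu
    have h0 := hu 0
    have h1 : (-2 : ℝ) ≤ u 0 := h0.1
    have h2 : u 0 ≤ 3 := h0.2
    exact ⟨by linarith, by linarith⟩
  · rintro u ⟨-, hu⟩ k l
    have := hu k l
    have h1 : (1 / δ + 1) ^ 2 < (1 / δ + 2) ^ 2 := by
      have : 0 < 1 / δ := by positivity
      linarith only [this]
    linarith

theorem plane_translate_le {c ρ x y a b : ℝ} (ha : Mult c a) (hb : Mult c b)
    (h : ∀ k l : ℤ, ρ ^ 2 ≤ (x - c * k) ^ 2 + (y - c * l) ^ 2) (k l : ℤ) :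
    ρ ^ 2 ≤ (x + a - c * k) ^ 2 + (y + b - c * l) ^ 2 := by
  obtain ⟨m, rfl⟩ := ha
  obtain ⟨n, rfl⟩ := hb
  have := h (k - m) (l - n)
  push_cast at this
  have e1 : x + c * m - c * k = x - c * (k - m) := by ring
  have e2 : y + c * n - c * l = y - c * (l - n) := by ring
  rw [e1, e2]
  exact this

theorem reduce_L (hδ : 0 < δ) {u : E3}
    (h : ∀ k l : ℤ, 3 ^ 2 ≤ (u 0 - sL * k) ^ 2 + (u 1 - sL * l) ^ 2) :
    ∃ v ∈ Ck δ .L, rel δ (.L, u) (.L, v) := by
  have hsL : 0 < sL := by unfold sL; norm_num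
  obtain ⟨a, ha, ha0, ha1⟩ := exists_reduce hsL (u 0)
  obtain ⟨b, hb, hb0, hb1⟩ := exists_reduce hsL (u 1)
  obtain ⟨c, hc, hc0, hc1⟩ := exists_reduce (per_pos hδ) (u 2)
  refine ⟨!₂[a, b, c], ⟨?_, ?_⟩, ⟨ha, hb, hc⟩⟩
  · intro i
    fin_cases i
    · exact ⟨ha0, ha1⟩
    · exact ⟨hb0, hb1⟩
    · exact ⟨hc0, hc1⟩
  · intro k l
    have := plane_translate_le ha hb h k l
    rwa [add_sub_cancel, add_sub_cancel] at this

theorem reduce_R (hδ : 0 < δ) {u : E3}
    (h : ∀ k l : ℤ, (1 / δ + 2) ^ 2 ≤ (u 0 - sR δ * k) ^ 2 + (u 1 - sR δ * l) ^ 2) :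
    ∃ v ∈ Ck δ .R, rel δ (.R, u) (.R, v) := by
  obtain ⟨a, ha, ha0, ha1⟩ := exists_reduce (sR_pos hδ) (u 0)
  obtain ⟨b, hb, hb0, hb1⟩ := exists_reduce (sR_pos hδ) (u 1)
  obtain ⟨c, hc, hc0, hc1⟩ := exists_reduce Real.two_pi_pos (u 2)
  refine ⟨!₂[a, b, c], ⟨?_, ?_⟩, ⟨ha, hb, hc⟩⟩
  · intro i
    fin_cases i
    · exact ⟨ha0, ha1⟩
    · exact ⟨hb0, hb1⟩
    · exact ⟨hc0, hc1⟩
  · intro k l
    have := plane_translate_le ha hb h k l
    rwa [add_sub_cancel, add_sub_cancel] at this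

theorem reduce_C (hδ : 0 < δ) {u : E3} (h1 : -2 ≤ u 0) (h2 : u 0 ≤ 3) :
    ∃ v ∈ Ck δ .C, rel δ (.C, u) (.C, v) := by
  obtain ⟨b, hb, hb0, hb1⟩ := exists_reduce (per_pos hδ) (u 1)
  obtain ⟨c, hc, hc0, hc1⟩ := exists_reduce Real.two_pi_pos (u 2)
  refine ⟨!₂[u 0, b, c], ?_, ⟨rfl, hb, hc⟩⟩
  intro i
  fin_cases i
  · exact ⟨h1, h2⟩
  · exact ⟨hb0, hb1⟩
  · exact ⟨hc0, hc1⟩

theorem cpt_aux (hδ : 0 < δ) (p : Kind × E3) (hp : p.2 ∈ Om δ p.1) :
    ∃ k, ∃ u ∈ Ck δ k, rel δ p (k, u) := by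
  obtain ⟨k, u⟩ := p
  simp only at hp
  cases k
  · by_cases h : ∀ k l : ℤ, 3 ^ 2 ≤ (u 0 - sL * k) ^ 2 + (u 1 - sL * l) ^ 2
    · obtain ⟨v, hv, hr⟩ := reduce_L hδ h
      exact ⟨.L, v, hv, hr⟩
    · push Not at h
      obtain ⟨k, l, hkl⟩ := h
      obtain ⟨r, θ, hr, hr2, hx, hy⟩ := exists_polar (ρ := 2) (hp k l)
      have hr3 : r < 3 := by
        rw [← hr2] at hkl
        exact lt_of_pow_lt_pow_left₀ 2 (by norm_num) hkl
      let w : E3 := !₂[1 - r, u 2, θ]
      have hφ : phi (w 0) = r := by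
        show phi (1 - r) = r
        rw [phi_of_le (by linarith)]
        ring
      have hrel : relCL δ w u := by
        refine ⟨?_, ?_, ?_⟩
        · rw [hφ]
          show Mult sL (u 0 - r * Real.cos θ)
          rw [← hx]
          exact ⟨k, by ring⟩
        · rw [hφ]
          show Mult sL (u 1 - r * Real.sin θ)
          rw [← hy]
          exact ⟨l, by ring⟩
        · show Mult (per δ) (u 2 - u 2)
          rw [sub_self]
          exact mult_zero _
      obtain ⟨v, hv, hvr⟩ := reduce_C (δ := δ) hδ (u := w)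
        (by show -2 ≤ 1 - r; linarith) (by show 1 - r ≤ 3; linarith)
      exact ⟨.C, v, hv, relCL_congr_left hδ (rel_symm hvr) hrel⟩
  · rcases lt_or_ge (u 0) (-2) with h1 | h1
    · let v : E3 := !₂[phi (u 0) * Real.cos (u 2), phi (u 0) * Real.sin (u 2), u 1]
      have hrel : relCL δ u v := by
        refine ⟨?_, ?_, ?_⟩
        · show Mult sL (phi (u 0) * Real.cos (u 2) - phi (u 0) * Real.cos (u 2))
          rw [sub_self]
          exact mult_zero _
        · show Mult sL (phi (u 0) * Real.sin (u 2) - phi (u 0) * Real.sin (u 2))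
          rw [sub_self]
          exact mult_zero _
        · show Mult (per δ) (u 1 - u 1)
          rw [sub_self]
          exact mult_zero _
      have hφ := phi_lt_four hp.1
      have hφ2 : 3 < phi (u 0) := by
        rw [phi_of_le (by linarith)]
        linarith
      obtain ⟨w, hw, hwr⟩ := reduce_L hδ (u := v) fun k l =>
        (radius_le (c := sL) (by norm_num) hφ2 (by unfold sL; linarith) hrel.1 hrel.2.1 k l).le
      exact ⟨.L, w, hw, relCL_congr_right hrel hwr⟩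
    · rcases lt_or_ge 3 (u 0) with h2 | h2
      · let v : E3 := !₂[chi δ (u 0) / δ * Real.cos (δ * u 1),
          chi δ (u 0) / δ * Real.sin (δ * u 1), u 2 + δ * u 1]
        have hrel : relCR δ u v := by
          refine ⟨?_, ?_, ?_⟩
          · show Mult (sR δ) (chi δ (u 0) / δ * Real.cos (δ * u 1)
              - chi δ (u 0) / δ * Real.cos (δ * u 1))
            rw [sub_self]
            exact mult_zero _
          · show Mult (sR δ) (chi δ (u 0) / δ * Real.sin (δ * u 1)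
              - chi δ (u 0) / δ * Real.sin (δ * u 1))
            rw [sub_self]
            exact mult_zero _
          · show Mult (2 * Real.pi) (u 2 + δ * u 1 - (u 2 + δ * u 1))
            rw [sub_self]
            exact mult_zero _
        have hφ := chi_div_lt hδ hp.2
        have hφ2 : 1 / δ + 2 < chi δ (u 0) / δ := by
          rw [chi_div_of_ge hδ (by linarith)]
          linarith
        obtain ⟨w, hw, hwr⟩ := reduce_R hδ (u := v) fun k l =>
          (radius_le (c := sR δ) (by positivity) hφ2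
            (by
              unfold sR
              have e : 2 / δ = 1 / δ + 1 / δ := by ring
              linarith only [e, hφ2, hφ]) hrel.1 hrel.2.1 k l).le
        exact ⟨.R, w, hw, relCR_congr_right hrel hwr⟩
      · obtain ⟨v, hv, hr⟩ := reduce_C (δ := δ) hδ h1 h2
        exact ⟨.C, v, hv, hr⟩
  · by_cases h : ∀ k l : ℤ, (1 / δ + 2) ^ 2 ≤ (u 0 - sR δ * k) ^ 2 + (u 1 - sR δ * l) ^ 2
    · obtain ⟨v, hv, hr⟩ := reduce_R hδ h
      exact ⟨.R, v, hv, hr⟩
    · push Not at h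
      obtain ⟨k, l, hkl⟩ := h
      obtain ⟨r, θ, hr, hr2, hx, hy⟩ := exists_polar (ρ := 1 / δ + 1) (hp k l)
      have hδ' : 0 < 1 / δ := by positivity
      have hr3 : r < 1 / δ + 2 := by
        rw [← hr2] at hkl
        exact lt_of_pow_lt_pow_left₀ 2 (by positivity) hkl
      let w : E3 := !₂[r - 1 / δ + 1, θ / δ, u 2 - θ]
      have hφ : chi δ (w 0) / δ = r := by
        show chi δ (r - 1 / δ + 1) / δ = r
        rw [chi_div_of_ge hδ (by linarith only [hr])]
        ring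
      have hθ : δ * w 1 = θ := by
        show δ * (θ / δ) = θ
        field_simp
      have hrel : relCR δ w u := by
        refine ⟨?_, ?_, ?_⟩
        · rw [hφ, hθ, ← hx]
          exact ⟨k, by ring⟩
        · rw [hφ, hθ, ← hy]
          exact ⟨l, by ring⟩
        · rw [hθ]
          show Mult (2 * Real.pi) (u 2 - (u 2 - θ + θ))
          rw [sub_add_cancel, sub_self]
          exact mult_zero _
      obtain ⟨v, hv, hvr⟩ := reduce_C (δ := δ) hδ (u := w)
        (by show -2 ≤ r - 1 / δ + 1; linarith only [hr3, hr]) (by show r - 1 / δ + 1 ≤ 3; linarith)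
      exact ⟨.C, v, hv, relCR_congr_left hδ (rel_symm hvr) hrel⟩

theorem finite_Kind : Finite Kind := by
  refine Finite.of_surjective (fun i : Fin 3 => if i = 0 then Kind.L else if i = 1 then .C else .R) ?_
  intro k
  cases k
  · exact ⟨0, rfl⟩
  · exact ⟨1, rfl⟩
  · exact ⟨2, rfl⟩

/-- The gluing data of the closed three-manifold. -/
def Sd (δ : ℝ) (hδ : 0 < δ) : Glue E3 where
  K := Kind
  finK := finite_Kind
  Om := Om δ
  isOpen := isOpen_Om
  rel := rel δ
  refl := fun p _ => rel_refl p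
  symm := fun _ _ _ _ h => rel_symm h
  trans := fun _ _ _ hp hq hr h h' => rel_trans hδ hp hq hr h h'
  loc := by
    intro p q hp hq h
    obtain ⟨τ, hτ⟩ := hasIso hδ p q hp hq h
    exact ⟨τ, hτ.smooth, hτ.smooth_symm, hτ.mem, hτ.val, hτ.src, hτ.tgt, hτ.rel⟩
  inj := fun p hp => inj_aux hδ p.1 p.2 hp
  closed := fun k l u v _ _ h => closed_aux k l u v h
  cpt := ⟨Ck δ, isCompact_Ck, Ck_subset hδ, cpt_aux hδ⟩

theorem isMetric_Gk (δ : ℝ) (hδ : 0 < δ) : (Sd δ hδ).IsMetric (Gk δ) where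
  smooth := fun k => (contDiff_Gk k).contDiffOn
  symm := fun k u _ v w => Gk_symm k u v w
  pos := fun k u _ v hv => Gk_pos hδ k u v hv
  inv := by
    intro p q hp hq h
    obtain ⟨τ, hτ⟩ := hasIso hδ p q hp hq h
    exact ⟨τ, hτ.mem, hτ.val, hτ.src, hτ.tgt, hτ.smooth, hτ.rel, hτ.iso⟩

/-- the explicit metric -/
def g0 (δ : ℝ) (hδ : 0 < δ) : Metric E3 (Sd δ hδ).Space := (Sd δ hδ).metric (Gk δ) (isMetric_Gk δ hδ)

end Vale.Agent.P255
end
end
end

section

section

/-!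
# P255: a small calculus of homotopy classes of images of straight segments
-/

open scoped Topology unitInterval
open Set CategoryTheory

noncomputable section

namespace Vale.Agent.P255

namespace Seg

variable {V : Type*} [AddCommGroup V] [Module ℝ V] [TopologicalSpace V]
  [IsTopologicalAddGroup V] [ContinuousSMul ℝ V]
variable {X : Type*} [TopologicalSpace X]

/-- image of the straight segment from `v` to `w` -/
def path (F : C(V, X)) (v w : V) {x y : X} (hv : F v = x) (hw : F w = y) : Path x y where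
  toFun u := F (v + (u : ℝ) • (w - v))
  continuous_toFun := by continuity
  source' := by simp [hv]
  target' := by simp [hw]

/-- its class in the fundamental groupoid -/
def cls (F : C(V, X)) (v w : V) {x y : X} (hv : F v = x) (hw : F w = y) :
    (FundamentalGroupoid.mk x ⟶ FundamentalGroupoid.mk y) :=
  (Path.Homotopic.Quotient.mk (path F v w hv hw) : Path.Homotopic.Quotient x y)

lemma cls_congr {W : Type*} [AddCommGroup W] [Module ℝ W] [TopologicalSpace W]
    [IsTopologicalAddGroup W] [ContinuousSMul ℝ W] {F : C(V, X)} {G : C(W, X)}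
    {v w : V} {v' w' : W} {x y : X} (hv : F v = x) (hw : F w = y) (hv' : G v' = x) (hw' : G w' = y)
    (h : ∀ u : ℝ, 0 ≤ u → u ≤ 1 → F (v + u • (w - v)) = G (v' + u • (w' - v'))) :
    cls F v w hv hw = cls G v' w' hv' hw' := by
  unfold cls
  congr 1
  ext u
  exact h u u.2.1 u.2.2

lemma cls_comp (F : C(V, X)) (v w z : V) {x y t : X} (hv : F v = x) (hw : F w = y)
    (hz : F z = t) : cls F v w hv hw ≫ cls F w z hw hz = cls F v z hv hz := by
  subst hv hw hz
  have key : ((path (ContinuousMap.id V) v w rfl rfl).trans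
      (path (ContinuousMap.id V) w z rfl rfl)).Homotopic (path (ContinuousMap.id V) v z rfl rfl) :=
    SimplyConnectedSpace.paths_homotopic _ _
  have h2 := key.map F
  rw [FundamentalGroupoid.comp_eq]
  unfold cls
  change Path.Homotopic.Quotient.trans (Path.Homotopic.Quotient.mk _)
    (Path.Homotopic.Quotient.mk _) = _
  rw [← Path.Homotopic.Quotient.mk_trans, Path.Homotopic.Quotient.eq]
  rw [Path.map_trans] at h2
  exact h2

lemma cls_self (F : C(V, X)) (v : V) {x : X} (hv : F v = x) :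
    cls F v v hv hv = 𝟙 (FundamentalGroupoid.mk x) := by
  have h := cls_comp F v v v hv hv hv
  have h2 := congrArg (fun p => p ≫ inv (cls F v v hv hv)) h
  simpa using h2

lemma cls_symm (F : C(V, X)) (v w : V) {x y : X} (hv : F v = x) (hw : F w = y) :
    cls F w v hw hv = inv (cls F v w hv hw) := by
  rw [← cancel_epi (cls F v w hv hw), cls_comp, cls_self, IsIso.hom_inv_id]

end Seg

open Seg

/-- coordinates `(r, θ, w)` -/
abbrev R3 : Type := ℝ × ℝ × ℝ

lemma R3_seg (a b c a' b' c' u : ℝ) : ((a, b, c) : R3) + u • ((a', b', c') - (a, b, c)) =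
    (a + u * (a' - a), b + u * (b' - b), c + u * (c' - c)) := by
  simp

/-- Relations coming from (punctured torus) × circle. -/
theorem piece_relations {X : Type*} [TopologicalSpace X] (K : C(R3, X)) (T : ℝ)
    (hθ : ∀ r θ w, K (r, θ + 2 * Real.pi, w) = K (r, θ, w))
    (hw : ∀ r θ w, K (r, θ, w + T) = K (r, θ, w))
    (htop : ∀ θ w, Real.pi / 4 ≤ θ → θ ≤ 3 * Real.pi / 4 → K (1, -θ, w) = K (1, θ, w))
    (hside : ∀ θ w, -(Real.pi / 4) ≤ θ → θ ≤ Real.pi / 4 → K (1, Real.pi - θ, w) = K (1, θ, w))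
    {x : X} (hx : K (0, Real.pi / 4, 0) = x) (hx' : K (0, 9 * Real.pi / 4, 0) = x)
    (hx'' : K (0, Real.pi / 4, T) = x) :
    ∃ a₁ a₂ : (FundamentalGroupoid.mk x ⟶ FundamentalGroupoid.mk x),
      a₁ ≫ a₂ ≫ inv a₁ ≫ inv a₂ =
        cls K (0, Real.pi / 4, 0) (0, 9 * Real.pi / 4, 0) hx hx' ∧
      cls K (0, Real.pi / 4, 0) (0, Real.pi / 4, T) hx hx'' ≫ a₁ =
        a₁ ≫ cls K (0, Real.pi / 4, 0) (0, Real.pi / 4, T) hx hx'' ∧
      cls K (0, Real.pi / 4, 0) (0, Real.pi / 4, T) hx hx'' ≫ a₂ =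
        a₂ ≫ cls K (0, Real.pi / 4, 0) (0, Real.pi / 4, T) hx hx'' := by
  have pi_pos := Real.pi_pos
  obtain ⟨q, hq⟩ : ∃ q, q = K (1, Real.pi / 4, 0) := ⟨_, rfl⟩
  -- corners
  have e2 : ∀ w, K (1, 3 * Real.pi / 4, w) = K (1, Real.pi / 4, w) := by
    intro w
    rw [← hside (Real.pi / 4) w (by linarith only [pi_pos]) le_rfl]
    congr 2; congr 1; ring
  have e3 : ∀ w, K (1, 5 * Real.pi / 4, w) = K (1, Real.pi / 4, w) := by
    intro w
    rw [← e2, ← htop (3 * Real.pi / 4) w (by linarith) le_rfl,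
      ← hθ 1 (-(3 * Real.pi / 4)) w]
    congr 2; congr 1; ring
  have e4 : ∀ w, K (1, 7 * Real.pi / 4, w) = K (1, Real.pi / 4, w) := by
    intro w
    rw [← htop (Real.pi / 4) w le_rfl (by linarith), ← hθ 1 (-(Real.pi / 4)) w]
    congr 2; congr 1; ring
  have e5 : ∀ r w, K (r, 9 * Real.pi / 4, w) = K (r, Real.pi / 4, w) := by
    intro r w
    rw [← hθ r (Real.pi / 4)]
    congr 2; congr 1; ring
  have hT : ∀ r θ, K (r, θ, T) = K (r, θ, 0) := by
    intro r θ
    rw [← hw r θ 0, zero_add]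
  have c1 : K (1, Real.pi / 4, 0) = q := hq.symm
  have c2 : K (1, 3 * Real.pi / 4, 0) = q := (e2 0).trans c1
  have c3 : K (1, 5 * Real.pi / 4, 0) = q := (e3 0).trans c1
  have c4 : K (1, 7 * Real.pi / 4, 0) = q := (e4 0).trans c1
  have c5 : K (1, 9 * Real.pi / 4, 0) = q := (e5 1 0).trans c1
  have d1 : K (1, Real.pi / 4, T) = q := (hT _ _).trans c1
  have d2 : K (1, 3 * Real.pi / 4, T) = q := (hT _ _).trans c2
  have d3 : K (1, 5 * Real.pi / 4, T) = q := (hT _ _).trans c3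
  set k := cls K (0, Real.pi / 4, 0) (1, Real.pi / 4, 0) hx c1 with hk
  set s₁ := cls K (1, Real.pi / 4, 0) (1, 3 * Real.pi / 4, 0) c1 c2 with hs₁
  set s₂ := cls K (1, 3 * Real.pi / 4, 0) (1, 5 * Real.pi / 4, 0) c2 c3 with hs₂
  set f := cls K (1, Real.pi / 4, 0) (1, Real.pi / 4, T) c1 d1 with hf
  have hs₃ : cls K (1, 5 * Real.pi / 4, 0) (1, 7 * Real.pi / 4, 0) c3 c4 = inv s₁ := by
    rw [hs₁, ← cls_symm]
    refine cls_congr _ _ _ _ fun u h0 h1 => ?_
    rw [R3_seg, R3_seg]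
    have h2 := htop (3 * Real.pi / 4 - u * (Real.pi / 2)) 0 (by linarith [mul_nonneg (le_of_lt (sub_pos.2 pi_pos)) (sub_nonneg.2 h1)]) (by nlinarith)
    have h3 := hθ 1 (-(3 * Real.pi / 4 - u * (Real.pi / 2))) 0
    rw [h2] at h3
    convert h3 using 3
    · ring
    · congr 1 <;> ring
    · ring
    · congr 1 <;> ring
  have hs₄ : cls K (1, 7 * Real.pi / 4, 0) (1, 9 * Real.pi / 4, 0) c4 c5 = inv s₂ := by
    rw [hs₂, ← cls_symm]
    refine cls_congr _ _ _ _ fun u h0 h1 => ?_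
    rw [R3_seg, R3_seg]
    have h2 := hside (-(Real.pi / 4) + u * (Real.pi / 2)) 0 (by nlinarith) (by linarith only [mul_nonneg (le_of_lt (sub_pos.2 pi_pos)) (sub_nonneg.2 h1)])
    have h3 := hθ 1 (-(Real.pi / 4) + u * (Real.pi / 2)) 0
    rw [← h2] at h3
    convert h3 using 3
    · ring
    · congr 1 <;> ring
    · ring
    · congr 1 <;> ring
  have hk' : cls K (1, 9 * Real.pi / 4, 0) (0, 9 * Real.pi / 4, 0) c5 hx' = inv k := by
    rw [hk, ← cls_symm]
    refine cls_congr _ _ _ _ fun u h0 h1 => ?_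
    rw [R3_seg, R3_seg]
    simp only [sub_self, mul_zero, add_zero]
    exact e5 _ _
  have hk'' : cls K (1, Real.pi / 4, T) (0, Real.pi / 4, T) d1 hx'' = inv k := by
    rw [hk, ← cls_symm]
    refine cls_congr _ _ _ _ fun u h0 h1 => ?_
    rw [R3_seg, R3_seg]
    simp only [sub_self, mul_zero, add_zero]
    exact hT _ _
  have hfib : cls K (0, Real.pi / 4, 0) (0, Real.pi / 4, T) hx hx'' = k ≫ f ≫ inv k := by
    rw [← hk'', hf, cls_comp, hk, cls_comp]
  have f2 : cls K (1, 3 * Real.pi / 4, 0) (1, 3 * Real.pi / 4, T) c2 d2 = f := by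
    refine cls_congr _ _ _ _ fun u h0 h1 => ?_
    rw [R3_seg, R3_seg]
    simp only [sub_self, mul_zero, add_zero]
    exact e2 _
  have f3 : cls K (1, 5 * Real.pi / 4, 0) (1, 5 * Real.pi / 4, T) c3 d3 = f := by
    refine cls_congr _ _ _ _ fun u h0 h1 => ?_
    rw [R3_seg, R3_seg]
    simp only [sub_self, mul_zero, add_zero]
    exact e3 _
  have s₁T : cls K (1, Real.pi / 4, T) (1, 3 * Real.pi / 4, T) d1 d2 = s₁ := by
    refine cls_congr _ _ _ _ fun u h0 h1 => ?_
    rw [R3_seg, R3_seg]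
    simp only [sub_self, mul_zero, add_zero]
    exact hT _ _
  have s₂T : cls K (1, 3 * Real.pi / 4, T) (1, 5 * Real.pi / 4, T) d2 d3 = s₂ := by
    refine cls_congr _ _ _ _ fun u h0 h1 => ?_
    rw [R3_seg, R3_seg]
    simp only [sub_self, mul_zero, add_zero]
    exact hT _ _
  have com1 : f ≫ s₁ = s₁ ≫ f := by
    conv_lhs => rw [← s₁T, hf, cls_comp]
    conv_rhs => rw [← f2, hs₁, cls_comp]
  have com2 : f ≫ s₂ = s₂ ≫ f := by
    conv_lhs => rw [← s₂T, ← f2, cls_comp]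
    conv_rhs => rw [← f3, hs₂, cls_comp]
  refine ⟨k ≫ s₁ ≫ inv k, k ≫ s₂ ≫ inv k, ?_, ?_, ?_⟩
  · have h1 : cls K (0, Real.pi / 4, 0) (0, 9 * Real.pi / 4, 0) hx hx' =
        k ≫ s₁ ≫ s₂ ≫ inv s₁ ≫ inv s₂ ≫ inv k := by
      rw [← hs₃, ← hs₄, ← hk', cls_comp, cls_comp, hs₂, cls_comp, hs₁, cls_comp, hk, cls_comp]
    rw [h1]
    simp
  · rw [hfib]
    simp only [Category.assoc, IsIso.inv_hom_id_assoc]
    rw [← Category.assoc f s₁, com1, Category.assoc]
  · rw [hfib]
    simp only [Category.assoc, IsIso.inv_hom_id_assoc]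
    rw [← Category.assoc f s₂, com2, Category.assoc]

/-- transport to the group of automorphisms of another object -/
theorem end_relations {C : Type*} [Groupoid C] {X Y : C} (h : X ⟶ Y) (a₁ a₂ f : Y ⟶ Y)
    (z z' : End X) (hz' : @Eq (X ⟶ X) z' (h ≫ (a₁ ≫ a₂ ≫ inv a₁ ≫ inv a₂) ≫ inv h))
    (hz : @Eq (X ⟶ X) z (h ≫ f ≫ inv h)) (h1 : f ≫ a₁ = a₁ ≫ f) (h2 : f ≫ a₂ = a₂ ≫ f) :
    ∃ A₁ A₂ : End X, Commute z A₁ ∧ Commute z A₂ ∧
      A₁ * A₂ * A₁⁻¹ * A₂⁻¹ = (z' : End X) := by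
  obtain ⟨α₁, e1⟩ : ∃ α₁ : End X, (α₁ : X ⟶ X) = h ≫ a₁ ≫ inv h := ⟨_, rfl⟩
  obtain ⟨α₂, e2⟩ : ∃ α₂ : End X, (α₂ : X ⟶ X) = h ≫ a₂ ≫ inv h := ⟨_, rfl⟩
  have hinv : ∀ p : End X, p⁻¹ = inv (C := C) p := fun p => Groupoid.inv_eq_inv p
  have c1 : Commute z α₁ := by
    change z * α₁ = α₁ * z
    rw [End.mul_def, End.mul_def, e1, hz]
    simp only [Category.assoc, IsIso.inv_hom_id_assoc]
    rw [← Category.assoc f a₁, h1, Category.assoc]
  have c2 : Commute z α₂ := by
    change z * α₂ = α₂ * z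
    rw [End.mul_def, End.mul_def, e2, hz]
    simp only [Category.assoc, IsIso.inv_hom_id_assoc]
    rw [← Category.assoc f a₂, h2, Category.assoc]
  refine ⟨α₂⁻¹, α₁⁻¹, c2.inv_right, c1.inv_right, ?_⟩
  rw [inv_inv, inv_inv, End.mul_def, End.mul_def, End.mul_def, hinv, hinv, hz', e1, e2]
  simp

end Vale.Agent.P255
end
end
end

section

section

/-!
# P255: relations in the fundamental group of the glued space
-/

open scoped Manifold ContDiff Topology unitInterval
open Set CategoryTheory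

noncomputable section

namespace Vale.Agent.P255

namespace Pi1

open Seg

/-! ### the radial function of the square -/

/-- `max |cos θ| |sin θ|` -/
def Mx (θ : ℝ) : ℝ := max |Real.cos θ| |Real.sin θ|

lemma Mx_pos (θ : ℝ) : 0 < Mx θ := by
  unfold Mx
  by_contra h
  push Not at h
  have h1 : |Real.cos θ| ≤ 0 := (le_max_left _ _).trans h
  have h2 : |Real.sin θ| ≤ 0 := (le_max_right _ _).trans h
  have h3 : Real.cos θ = 0 := abs_eq_zero.1 (le_antisymm h1 (abs_nonneg _))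
  have h4 : Real.sin θ = 0 := abs_eq_zero.1 (le_antisymm h2 (abs_nonneg _))
  have := Real.sin_sq_add_cos_sq θ
  rw [h3, h4] at this
  norm_num at this

lemma Mx_le_one (θ : ℝ) : Mx θ ≤ 1 := max_le (Real.abs_cos_le_one θ) (Real.abs_sin_le_one θ)

lemma Mx_cont : Continuous Mx := by unfold Mx; fun_prop

lemma cos_le_Mx (θ : ℝ) : |Real.cos θ| ≤ Mx θ := le_max_left _ _

lemma sin_le_Mx (θ : ℝ) : |Real.sin θ| ≤ Mx θ := le_max_right _ _

lemma Mx_neg (θ : ℝ) : Mx (-θ) = Mx θ := by simp [Mx]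

lemma Mx_per (θ : ℝ) : Mx (θ + 2 * Real.pi) = Mx θ := by simp [Mx]

lemma Mx_pi_sub (θ : ℝ) : Mx (Real.pi - θ) = Mx θ := by simp [Mx]

/-- clamp to `[0,1]` -/
def cl (r : ℝ) : ℝ := max 0 (min 1 r)

lemma cl_cont : Continuous cl := by unfold cl; fun_prop

lemma cl_nonneg (r : ℝ) : 0 ≤ cl r := le_max_left _ _

lemma cl_le (r : ℝ) : cl r ≤ 1 := max_le (by norm_num) (min_le_left _ _)

lemma cl_zero : cl 0 = 0 := by simp [cl]

lemma cl_one : cl 1 = 1 := by simp [cl]

/-- radius interpolating between the circle of radius `ρ₀` and the square of half side `R` -/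
def rad (R ρ₀ r θ : ℝ) : ℝ := (1 - cl r) * ρ₀ + cl r * (R / Mx θ)

lemma rad_cont (R ρ₀ : ℝ) : Continuous (fun p : ℝ × ℝ => rad R ρ₀ p.1 p.2) := by
  unfold rad
  have h1 := cl_cont
  have h2 := Mx_cont
  have h3 : ∀ p : ℝ × ℝ, Mx p.2 ≠ 0 := fun p => (Mx_pos _).ne'
  fun_prop (disch := assumption)

lemma rad_zero (R ρ₀ θ : ℝ) : rad R ρ₀ 0 θ = ρ₀ := by simp [rad, cl_zero]

lemma rad_one (R ρ₀ θ : ℝ) : rad R ρ₀ 1 θ = R / Mx θ := by simp [rad, cl_one]

lemma rad_ge {R ρ₀ : ℝ} (h0 : 0 ≤ ρ₀) (h : ρ₀ ≤ R) (r θ : ℝ) : ρ₀ ≤ rad R ρ₀ r θ := by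
  unfold rad
  have h1 := cl_nonneg r
  have h2 := cl_le r
  have h3 : R ≤ R / Mx θ := by
    rw [le_div_iff₀ (Mx_pos θ)]
    have := Mx_le_one θ
    linarith only [mul_nonneg (sub_nonneg.2 h) (sub_nonneg.2 this), mul_nonneg (sub_nonneg.2 h0) (sub_nonneg.2 this)]
  linarith only [mul_nonneg (sub_nonneg.2 h1) (sub_nonneg.2 h3), mul_nonneg (sub_nonneg.2 h) (sub_nonneg.2 h1)]

lemma rad_mul_le {R ρ₀ : ℝ} (h0 : 0 ≤ ρ₀) (h : ρ₀ ≤ R) (r θ : ℝ) : rad R ρ₀ r θ * Mx θ ≤ R := by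
  unfold rad
  have h1 := cl_nonneg r
  have h2 := cl_le r
  have h3 : R / Mx θ * Mx θ = R := div_mul_cancel₀ _ (Mx_pos θ).ne'
  have h4 := Mx_le_one θ
  have h5 := (Mx_pos θ).le
  calc ((1 - cl r) * ρ₀ + cl r * (R / Mx θ)) * Mx θ
      = (1 - cl r) * (ρ₀ * Mx θ) + cl r * (R / Mx θ * Mx θ) := by ring
    _ ≤ (1 - cl r) * (R * 1) + cl r * R := by
        rw [h3]
        have h6 : ρ₀ * Mx θ ≤ R * 1 := mul_le_mul h h4 h5 (h0.trans h)
        have h7 : 0 ≤ 1 - cl r := by linarith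
        have := mul_le_mul_of_nonneg_left h6 h7
        linarith
    _ = R := by ring

/-- the points of the interpolation avoid all discs of radius `a < ρ₀` around the lattice -/
lemma avoid {R ρ₀ a : ℝ} (ha : 0 ≤ a) (h1 : a < ρ₀) (h2 : ρ₀ ≤ R) (r θ : ℝ) (k l : ℤ) :
    a ^ 2 < (rad R ρ₀ r θ * Real.cos θ - 2 * R * k) ^ 2 +
      (rad R ρ₀ r θ * Real.sin θ - 2 * R * l) ^ 2 := by
  have h0 : 0 ≤ ρ₀ := ha.trans h1.le
  have hge := rad_ge h0 h2 r θ
  have hle := rad_mul_le h0 h2 r θ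
  set ρ := rad R ρ₀ r θ with hρ
  have hρ0 : 0 ≤ ρ := h0.trans hge
  have hc : |ρ * Real.cos θ| ≤ R := by
    rw [abs_mul, abs_of_nonneg hρ0]
    exact (mul_le_mul_of_nonneg_left (cos_le_Mx θ) hρ0).trans hle
  have hs : |ρ * Real.sin θ| ≤ R := by
    rw [abs_mul, abs_of_nonneg hρ0]
    exact (mul_le_mul_of_nonneg_left (sin_le_Mx θ) hρ0).trans hle
  have hR : a < R := h1.trans_le h2
  have key : ∀ (x : ℝ) (n : ℤ), |x| ≤ R → n ≠ 0 → a ^ 2 < (x - 2 * R * n) ^ 2 := by
    intro x n hx hn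
    have hx' := abs_le.1 hx
    have hn' : (1 : ℝ) ≤ n ∨ (n : ℝ) ≤ -1 := by
      rcases lt_or_gt_of_ne hn with h | h
      · right; exact_mod_cast Int.le_sub_one_of_lt h
      · left; exact_mod_cast h
    rcases hn' with h | h
    · have : x - 2 * R * n ≤ -R := by nlinarith
      linarith only [mul_nonneg (sub_nonneg.2 this) (sub_nonneg.2 this), mul_pos (sub_pos.2 hR) (sub_pos.2 hR), mul_nonneg (sub_nonneg.2 h0) (sub_nonneg.2 this), mul_nonneg (sub_nonneg.2 h2) (sub_nonneg.2 this), mul_nonneg (sub_nonneg.2 ha) (le_of_lt (sub_pos.2 hR))]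
    · have : R ≤ x - 2 * R * n := by nlinarith
      linarith only [mul_nonneg (sub_nonneg.2 this) (sub_nonneg.2 this), mul_pos (sub_pos.2 hR) (sub_pos.2 hR), mul_nonneg (sub_nonneg.2 h0) (sub_nonneg.2 this), mul_nonneg (sub_nonneg.2 h2) (sub_nonneg.2 this), mul_nonneg (sub_nonneg.2 ha) (le_of_lt (sub_pos.2 hR))]
  by_cases hk : k = 0
  · by_cases hl : l = 0
    · rw [hk, hl]
      have := Real.sin_sq_add_cos_sq θ
      have e : (ρ * Real.cos θ - 2 * R * ((0 : ℤ) : ℝ)) ^ 2 +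
          (ρ * Real.sin θ - 2 * R * ((0 : ℤ) : ℝ)) ^ 2 =
          ρ ^ 2 * (Real.sin θ ^ 2 + Real.cos θ ^ 2) := by
        push_cast; ring
      rw [e, this]
      (by_contra nlg; linarith only [nlg, mul_nonneg (sub_nonneg.2 hge) (sub_nonneg.2 hρ0), mul_nonneg (sub_nonneg.2 h0) (sub_nonneg.2 hge), mul_pos (sub_pos.2 h1) (sub_pos.2 h1), mul_nonneg (sub_nonneg.2 ha) (le_of_lt (sub_pos.2 h1)), mul_eq_zero_of_left (sub_eq_zero.2 this) (a ^ 2 - (ρ ^ 2 * 1)), mul_nonneg (sq_nonneg (Real.sin θ : ℝ)) (sub_nonneg.2 (not_lt.1 nlg)), mul_nonneg (sq_nonneg (Real.cos θ : ℝ)) (sub_nonneg.2 (not_lt.1 nlg))])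
    · have := key _ l hs hl
      have h5 : 0 ≤ (ρ * Real.cos θ - 2 * R * k) ^ 2 := sq_nonneg _
      linarith
  · have := key _ k hc hk
    have h5 : 0 ≤ (ρ * Real.sin θ - 2 * R * l) ^ 2 := sq_nonneg _
    linarith

lemma sqrt2_le_sin {θ : ℝ} (h1 : Real.pi / 4 ≤ θ) (h2 : θ ≤ 3 * Real.pi / 4) :
    Real.cos (Real.pi / 4) ≤ Real.sin θ := by
  have hpi := Real.pi_pos
  rw [← Real.cos_pi_div_two_sub θ, ← Real.cos_abs (Real.pi / 2 - θ)]
  refine Real.cos_le_cos_of_nonneg_of_le_pi (abs_nonneg _) (by linarith only [hpi]) ?_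
  rw [abs_le]
  constructor <;> linarith

lemma sqrt2_le_cos {θ : ℝ} (h1 : -(Real.pi / 4) ≤ θ) (h2 : θ ≤ Real.pi / 4) :
    Real.cos (Real.pi / 4) ≤ Real.cos θ := by
  have hpi := Real.pi_pos
  rw [← Real.cos_abs θ]
  refine Real.cos_le_cos_of_nonneg_of_le_pi (abs_nonneg _) (by linarith only [hpi]) ?_
  rw [abs_le]
  constructor <;> linarith

lemma cos_pi4_sq : Real.cos (Real.pi / 4) ^ 2 = 1 / 2 := by
  rw [Real.cos_pi_div_four, div_pow, Real.sq_sqrt (by norm_num)]; norm_num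

lemma cos_pi4_nonneg : 0 ≤ Real.cos (Real.pi / 4) := by
  rw [Real.cos_pi_div_four]; positivity

lemma Mx_eq_sin {θ : ℝ} (h1 : Real.pi / 4 ≤ θ) (h2 : θ ≤ 3 * Real.pi / 4) :
    Mx θ = Real.sin θ := by
  have h := sqrt2_le_sin h1 h2
  have h0 := cos_pi4_nonneg
  have h3 := cos_pi4_sq
  have h4 := Real.sin_sq_add_cos_sq θ
  have h5 : 0 ≤ Real.sin θ := h0.trans h
  have h6 : 1 / 2 ≤ Real.sin θ ^ 2 := by rw [← h3]; exact pow_le_pow_left₀ h0 h 2
  unfold Mx
  rw [abs_of_nonneg h5]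
  apply max_eq_right
  apply abs_le_of_sq_le_sq _ h5
  linarith only [h6, h4]

lemma Mx_eq_cos {θ : ℝ} (h1 : -(Real.pi / 4) ≤ θ) (h2 : θ ≤ Real.pi / 4) :
    Mx θ = Real.cos θ := by
  have h := sqrt2_le_cos h1 h2
  have h0 := cos_pi4_nonneg
  have h3 := cos_pi4_sq
  have h4 := Real.sin_sq_add_cos_sq θ
  have h5 : 0 ≤ Real.cos θ := h0.trans h
  have h6 : 1 / 2 ≤ Real.cos θ ^ 2 := by rw [← h3]; exact pow_le_pow_left₀ h0 h 2
  unfold Mx
  rw [abs_of_nonneg h5]
  apply max_eq_left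
  apply abs_le_of_sq_le_sq _ h5
  linarith

/-! ### values of the profile functions -/

lemma st_symm (x : ℝ) : Real.smoothTransition x + Real.smoothTransition (1 - x) = 1 := by
  unfold Real.smoothTransition
  have h := Real.smoothTransition.pos_denom x
  have e : (1 : ℝ) - (1 - x) = x := by ring
  rw [e, add_comm (expNegInvGlue (1 - x)) (expNegInvGlue x), ← add_div, div_self h.ne']

lemma P_three : P 3 = 2 := by
  have hc : Continuous (fun u : ℝ => Real.smoothTransition (u / 2)) := by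
    have := Real.smoothTransition.continuous
    fun_prop
  have h1 : P 3 = (∫ u in (0 : ℝ)..2, Real.smoothTransition (u / 2)) +
      ∫ u in (2 : ℝ)..3, Real.smoothTransition (u / 2) := by
    unfold P
    rw [intervalIntegral.integral_add_adjacent_intervals] <;>
      exact hc.intervalIntegrable _ _
  have h2 : ∫ u in (2 : ℝ)..3, Real.smoothTransition (u / 2) = 1 := by
    have : ∫ u in (2 : ℝ)..3, Real.smoothTransition (u / 2) = ∫ u in (2 : ℝ)..3, (1 : ℝ) := by
      refine intervalIntegral.integral_congr fun u hu => ?_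
      rw [uIcc_of_le (by norm_num)] at hu
      exact Real.smoothTransition.one_of_one_le (by linarith [hu.1])
    rw [this]
    simp; norm_num
  have h3 : ∫ u in (0 : ℝ)..2, Real.smoothTransition (u / 2) = 1 := by
    have e1 : ∫ u in (0 : ℝ)..2, Real.smoothTransition (u / 2) =
        ∫ u in (0 : ℝ)..2, Real.smoothTransition ((2 - u) / 2) := by
      have := intervalIntegral.integral_comp_sub_left (a := 0) (b := 2)
        (fun u : ℝ => Real.smoothTransition (u / 2)) 2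
      rw [this]
      norm_num
    have e2 : ∫ u in (0 : ℝ)..2, Real.smoothTransition ((2 - u) / 2) =
        ∫ u in (0 : ℝ)..2, (1 - Real.smoothTransition (u / 2)) := by
      refine intervalIntegral.integral_congr fun u _ => ?_
      have := st_symm (u / 2)
      have e : (2 - u) / 2 = 1 - u / 2 := by ring
      simp only [e]
      linarith
    have e3 : ∫ u in (0 : ℝ)..2, (1 - Real.smoothTransition (u / 2)) =
        2 - ∫ u in (0 : ℝ)..2, Real.smoothTransition (u / 2) := by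
      rw [intervalIntegral.integral_sub (continuous_const.intervalIntegrable _ _)
        (hc.intervalIntegrable _ _)]
      simp
    rw [e2, e3] at e1
    linarith
  rw [h1, h2, h3]; norm_num

lemma phi_neg_two : phi (-2) = 3 := by
  unfold phi
  have : (1 : ℝ) - -2 = 3 := by norm_num
  rw [this, P_three]; norm_num

lemma chi_three (δ : ℝ) : chi δ 3 = 1 + 2 * δ := by
  unfold chi
  rw [P_three]; ring

/-! ### the maps into the glued space -/

/-- clamp to `[-5/2, 7/2]` -/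
def clC (t : ℝ) : ℝ := max (-5 / 2) (min (7 / 2) t)

lemma clC_cont : Continuous clC := by unfold clC; fun_prop

lemma clC_mem (t : ℝ) : -3 < clC t ∧ clC t < 4 := by
  unfold clC
  constructor
  · exact lt_of_lt_of_le (by norm_num) (le_max_left _ _)
  · exact max_lt (by norm_num) (lt_of_le_of_lt (min_le_left _ _) (by norm_num))

lemma clC_eq {t : ℝ} (h1 : -5 / 2 ≤ t) (h2 : t ≤ 7 / 2) : clC t = t := by
  unfold clC
  rw [min_eq_right h2, max_eq_right h1]

lemma cont_vec {Z : Type*} [TopologicalSpace Z] {f g h : Z → ℝ} (hf : Continuous f)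
    (hg : Continuous g) (hh : Continuous h) : Continuous (fun z => (!₂[f z, g z, h z] : E3)) := by
  refine (PiLp.continuous_toLp 2 _).comp (continuous_pi fun i => ?_)
  fin_cases i
  · exact hf
  · exact hg
  · exact hh

variable (δ : ℝ) (hδ : 0 < δ)

lemma memC (t x y : ℝ) : (!₂[clC t, x, y] : E3) ∈ Om δ .C := clC_mem t

/-- the collar map -/
def FC : C(R3, (Sd δ hδ).Space) where
  toFun p := (Sd δ hδ).proj .C ⟨!₂[clC p.1, p.2.1, p.2.2], memC δ _ _ _⟩
  continuous_toFun := by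
    refine ((Sd δ hδ).continuous_proj .C).comp (Continuous.subtype_mk ?_ _)
    exact cont_vec (clC_cont.comp continuous_fst) (by fun_prop) (by fun_prop)

lemma memL (r θ w : ℝ) :
    (!₂[rad 5 3 r θ * Real.cos θ, rad 5 3 r θ * Real.sin θ, w] : E3) ∈ Om δ .L := by
  intro k l
  have := avoid (R := 5) (ρ₀ := 3) (a := 2) (by norm_num) (by norm_num) (by norm_num) r θ k l
  have e : (2 : ℝ) * 5 = sL := by unfold sL; norm_num
  rw [e] at this
  exact this

/-- the left piece -/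
def KL : C(R3, (Sd δ hδ).Space) where
  toFun p := (Sd δ hδ).proj .L ⟨!₂[rad 5 3 p.1 p.2.1 * Real.cos p.2.1,
    rad 5 3 p.1 p.2.1 * Real.sin p.2.1, p.2.2], memL δ _ _ _⟩
  continuous_toFun := by
    refine ((Sd δ hδ).continuous_proj .L).comp (Continuous.subtype_mk ?_ _)
    have h := (rad_cont 5 3).comp (continuous_fst.prodMk (continuous_snd.fst) :
      Continuous (fun p : R3 => (p.1, p.2.1)))
    have h' : Continuous (fun p : R3 => rad 5 3 p.1 p.2.1) := h
    exact cont_vec (by fun_prop) (by fun_prop) (by fun_prop)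

lemma memR (hδ : 0 < δ) (r θ w : ℝ) :
    (!₂[rad (1 / δ + 5) (1 / δ + 2) r θ * Real.cos θ,
      rad (1 / δ + 5) (1 / δ + 2) r θ * Real.sin θ, w] : E3) ∈ Om δ .R := by
  intro k l
  have h0 : 0 < 1 / δ := by positivity
  have := avoid (R := 1 / δ + 5) (ρ₀ := 1 / δ + 2) (a := 1 / δ + 1) (by linarith) (by linarith)
    (by linarith) r θ k l
  have e : (2 : ℝ) * (1 / δ + 5) = sR δ := by unfold sR; ring
  rw [e] at this
  exact this

/-- the right piece -/
def KR : C(R3, (Sd δ hδ).Space) where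
  toFun p := (Sd δ hδ).proj .R ⟨!₂[rad (1 / δ + 5) (1 / δ + 2) p.1 p.2.1 * Real.cos p.2.1,
    rad (1 / δ + 5) (1 / δ + 2) p.1 p.2.1 * Real.sin p.2.1, p.2.2], memR δ hδ _ _ _⟩
  continuous_toFun := by
    refine ((Sd δ hδ).continuous_proj .R).comp (Continuous.subtype_mk ?_ _)
    have h := (rad_cont (1 / δ + 5) (1 / δ + 2)).comp (continuous_fst.prodMk
      (continuous_snd.fst) : Continuous (fun p : R3 => (p.1, p.2.1)))
    have h' : Continuous (fun p : R3 => rad (1 / δ + 5) (1 / δ + 2) p.1 p.2.1) := h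
    exact cont_vec (by fun_prop) (by fun_prop) (by fun_prop)

lemma mult_zero (c : ℝ) : Mult c 0 := ⟨0, by simp⟩

lemma mult_of_eq {c x : ℝ} (h : x = 0) : Mult c x := h ▸ mult_zero c

lemma FC_eq {t x y t' x' y' : ℝ} (m n : ℤ) (ht : t' = t) (hx : x' = x + per δ * m)
    (hy : y' = y + 2 * Real.pi * n) : FC δ hδ (t', x', y') = FC δ hδ (t, x, y) := by
  subst ht hx hy
  refine ((Sd δ hδ).proj_eq_proj (k := .C) (l := .C) _ _).2 ?_
  refine ⟨rfl, ⟨-m, ?_⟩, ⟨-n, ?_⟩⟩
  · change x - (x + per δ * m) = per δ * ((-m : ℤ) : ℝ)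
    push_cast; ring
  · change y - (y + 2 * Real.pi * n) = 2 * Real.pi * ((-n : ℤ) : ℝ)
    push_cast; ring

lemma KL_θ (r θ w : ℝ) : KL δ hδ (r, θ + 2 * Real.pi, w) = KL δ hδ (r, θ, w) := by
  refine ((Sd δ hδ).proj_eq_proj (k := .L) (l := .L) _ _).2 ?_
  have e : rad 5 3 r (θ + 2 * Real.pi) = rad 5 3 r θ := by unfold rad; rw [Mx_per]
  refine ⟨mult_of_eq ?_, mult_of_eq ?_, mult_of_eq ?_⟩
  · simp [e]
  · simp [e]
  · simp

lemma KL_w (r θ w : ℝ) : KL δ hδ (r, θ, w + per δ) = KL δ hδ (r, θ, w) := by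
  refine ((Sd δ hδ).proj_eq_proj (k := .L) (l := .L) _ _).2 ?_
  refine ⟨mult_of_eq ?_, mult_of_eq ?_, ⟨-1, ?_⟩⟩ <;> simp

lemma KR_θ (r θ w : ℝ) : KR δ hδ (r, θ + 2 * Real.pi, w) = KR δ hδ (r, θ, w) := by
  refine ((Sd δ hδ).proj_eq_proj (k := .R) (l := .R) _ _).2 ?_
  have e : rad (1 / δ + 5) (1 / δ + 2) r (θ + 2 * Real.pi) =
    rad (1 / δ + 5) (1 / δ + 2) r θ := by unfold rad; rw [Mx_per]
  refine ⟨mult_of_eq ?_, mult_of_eq ?_, mult_of_eq ?_⟩
  · simp only [e, Real.cos_add_two_pi]; exact sub_self _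
  · simp only [e, Real.sin_add_two_pi]; exact sub_self _
  · simp

lemma KR_w (r θ w : ℝ) : KR δ hδ (r, θ, w + 2 * Real.pi) = KR δ hδ (r, θ, w) := by
  refine ((Sd δ hδ).proj_eq_proj (k := .R) (l := .R) _ _).2 ?_
  refine ⟨mult_of_eq ?_, mult_of_eq ?_, ⟨-1, ?_⟩⟩ <;> simp

lemma top_aux {R : ℝ} {θ : ℝ} (h1 : Real.pi / 4 ≤ θ) (h2 : θ ≤ 3 * Real.pi / 4) :
    R / Mx θ * Real.sin θ = R := by
  rw [Mx_eq_sin h1 h2, div_mul_cancel₀]
  have := Mx_pos θ
  rw [Mx_eq_sin h1 h2] at this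
  exact this.ne'

lemma side_aux {R : ℝ} {θ : ℝ} (h1 : -(Real.pi / 4) ≤ θ) (h2 : θ ≤ Real.pi / 4) :
    R / Mx θ * Real.cos θ = R := by
  rw [Mx_eq_cos h1 h2, div_mul_cancel₀]
  have := Mx_pos θ
  rw [Mx_eq_cos h1 h2] at this
  exact this.ne'

lemma KL_top (θ w : ℝ) (h1 : Real.pi / 4 ≤ θ) (h2 : θ ≤ 3 * Real.pi / 4) :
    KL δ hδ (1, -θ, w) = KL δ hδ (1, θ, w) := by
  refine ((Sd δ hδ).proj_eq_proj (k := .L) (l := .L) _ _).2 ?_
  have e := top_aux (R := 5) h1 h2
  refine ⟨mult_of_eq ?_, ⟨1, ?_⟩, mult_of_eq ?_⟩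
  · simp [rad_one, Mx_neg]
  · simp only [rad_one, Mx_neg, Real.sin_neg, mul_neg]
    change 5 / Mx θ * Real.sin θ - -(5 / Mx θ * Real.sin θ) = _
    rw [e]; unfold sL; norm_num
  · simp

lemma KL_side (θ w : ℝ) (h1 : -(Real.pi / 4) ≤ θ) (h2 : θ ≤ Real.pi / 4) :
    KL δ hδ (1, Real.pi - θ, w) = KL δ hδ (1, θ, w) := by
  refine ((Sd δ hδ).proj_eq_proj (k := .L) (l := .L) _ _).2 ?_
  have e := side_aux (R := 5) h1 h2
  refine ⟨⟨1, ?_⟩, mult_of_eq ?_, mult_of_eq ?_⟩
  · simp only [rad_one, Mx_pi_sub, Real.cos_pi_sub, mul_neg]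
    change 5 / Mx θ * Real.cos θ - -(5 / Mx θ * Real.cos θ) = _
    rw [e]; unfold sL; norm_num
  · simp [rad_one, Mx_pi_sub]
  · simp

lemma KR_top (θ w : ℝ) (h1 : Real.pi / 4 ≤ θ) (h2 : θ ≤ 3 * Real.pi / 4) :
    KR δ hδ (1, -θ, w) = KR δ hδ (1, θ, w) := by
  refine ((Sd δ hδ).proj_eq_proj (k := .R) (l := .R) _ _).2 ?_
  have e := top_aux (R := 1 / δ + 5) h1 h2
  refine ⟨mult_of_eq ?_, ⟨1, ?_⟩, mult_of_eq ?_⟩
  · simp [rad_one, Mx_neg]
  · simp only [rad_one, Mx_neg, Real.sin_neg, mul_neg]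
    change (1 / δ + 5) / Mx θ * Real.sin θ - -((1 / δ + 5) / Mx θ * Real.sin θ) = _
    rw [e]; unfold sR; push_cast; ring
  · simp

lemma KR_side (θ w : ℝ) (h1 : -(Real.pi / 4) ≤ θ) (h2 : θ ≤ Real.pi / 4) :
    KR δ hδ (1, Real.pi - θ, w) = KR δ hδ (1, θ, w) := by
  refine ((Sd δ hδ).proj_eq_proj (k := .R) (l := .R) _ _).2 ?_
  have e := side_aux (R := 1 / δ + 5) h1 h2
  refine ⟨⟨1, ?_⟩, mult_of_eq ?_, mult_of_eq ?_⟩
  · simp only [rad_one, Mx_pi_sub, Real.cos_pi_sub, mul_neg]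
    change (1 / δ + 5) / Mx θ * Real.cos θ - -((1 / δ + 5) / Mx θ * Real.cos θ) = _
    rw [e]; unfold sR; push_cast; ring
  · simp [rad_one, Mx_pi_sub]
  · simp

lemma KL_zero (θ w : ℝ) : KL δ hδ (0, θ, w) = FC δ hδ (-2, w, θ) := by
  refine ((Sd δ hδ).proj_eq_proj (k := .L) (l := .C) _ _).2 ?_
  have e : clC (-2) = -2 := clC_eq (by norm_num) (by norm_num)
  refine ⟨mult_of_eq ?_, mult_of_eq ?_, mult_of_eq ?_⟩
  · change rad 5 3 0 θ * Real.cos θ - phi (clC (-2)) * Real.cos θ = 0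
    rw [rad_zero, e, phi_neg_two, sub_self]
  · change rad 5 3 0 θ * Real.sin θ - phi (clC (-2)) * Real.sin θ = 0
    rw [rad_zero, e, phi_neg_two, sub_self]
  · change w - w = 0
    ring

lemma KR_zero (θ w : ℝ) : KR δ hδ (0, θ, w) = FC δ hδ (3, θ / δ, w - θ) := by
  refine ((Sd δ hδ).proj_eq_proj (k := .R) (l := .C) _ _).2 ?_
  have e : clC 3 = 3 := clC_eq (by norm_num) (by norm_num)
  have e2 : δ * (θ / δ) = θ := by field_simp
  have e3 : (1 + 2 * δ) / δ = 1 / δ + 2 := by field_simp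
  refine ⟨mult_of_eq ?_, mult_of_eq ?_, mult_of_eq ?_⟩
  · change rad (1 / δ + 5) (1 / δ + 2) 0 θ * Real.cos θ
      - chi δ (clC 3) / δ * Real.cos (δ * (θ / δ)) = 0
    rw [rad_zero, e, chi_three, e2, e3, sub_self]
  · change rad (1 / δ + 5) (1 / δ + 2) 0 θ * Real.sin θ
      - chi δ (clC 3) / δ * Real.sin (δ * (θ / δ)) = 0
    rw [rad_zero, e, chi_three, e2, e3, sub_self]
  · change w - (w - θ + δ * (θ / δ)) = 0
    rw [e2]; ring

lemma mem0 (y : ℝ) : (!₂[3 / 2, 0, y] : E3) ∈ Om δ .C := by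
  change -3 < (3 / 2 : ℝ) ∧ (3 / 2 : ℝ) < 4
  norm_num

lemma FC_base (y : ℝ) : FC δ hδ (3 / 2, 0, y) = (Sd δ hδ).proj .C ⟨!₂[3 / 2, 0, y], mem0 δ y⟩ := by
  have e : clC (3 / 2) = 3 / 2 := clC_eq (by norm_num) (by norm_num)
  change (Sd δ hδ).proj .C ⟨!₂[clC (3 / 2), 0, y], _⟩ = _
  simp only [e]

end Pi1

/-- base point in the collar -/
def m0 (δ : ℝ) (hδ : 0 < δ) : (Sd δ hδ).Space := (Sd δ hδ).proj .C ⟨!₂[3 / 2, 0, 0], Pi1.mem0 δ 0⟩

open Pi1 Seg in
/-- relations in the fundamental group; `z'` is the class of the loop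
`t ↦ proj C (3/2, 0, 2πt)` -/
theorem pi1_relations (δ : ℝ) (hδ : 0 < δ) :
    ∃ z z' A₁ A₂ B₁ B₂ : FundamentalGroup (Sd δ hδ).Space (m0 δ hδ),
      Commute z A₁ ∧ Commute z A₂ ∧ A₁ * A₂ * A₁⁻¹ * A₂⁻¹ = z' ∧
      Commute z' B₁ ∧ Commute z' B₂ ∧ B₁ * B₂ * B₁⁻¹ * B₂⁻¹ = z * z'⁻¹ ∧
      (z' = 1 → ∃ γ : Path (m0 δ hδ) (m0 δ hδ), γ.Homotopic (Path.refl _) ∧
        ∀ t : unitInterval, γ t =
          (Sd δ hδ).proj .C ⟨!₂[3 / 2, 0, 2 * Real.pi * t], Pi1.mem0 δ _⟩) := by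
  have b0 : FC δ hδ (3 / 2, 0, 0) = m0 δ hδ := FC_base δ hδ 0
  have b1 : FC δ hδ (3 / 2, per δ, 0) = m0 δ hδ := by
    rw [← b0]; exact FC_eq δ hδ 1 0 rfl (by simp) (by simp)
  have b2 : FC δ hδ (3 / 2, 0, 2 * Real.pi) = m0 δ hδ := by
    rw [← b0]; exact FC_eq δ hδ 0 1 rfl (by simp) (by simp)
  have b3 : FC δ hδ (3 / 2, 0, -(2 * Real.pi)) = m0 δ hδ := by
    rw [← b0]; exact FC_eq δ hδ 0 (-1) rfl (by simp) (by simp)
  have b4 : FC δ hδ (3 / 2, per δ, -(2 * Real.pi)) = m0 δ hδ := by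
    rw [← b0]; exact FC_eq δ hδ 1 (-1) rfl (by simp) (by simp)
  set z := cls (FC δ hδ) (3 / 2, 0, 0) (3 / 2, per δ, 0) b0 b1 with hz
  set z' := cls (FC δ hδ) (3 / 2, 0, 0) (3 / 2, 0, 2 * Real.pi) b0 b2 with hz'
  -- left piece
  obtain ⟨x, hx⟩ : ∃ x, x = KL δ hδ (0, Real.pi / 4, 0) := ⟨_, rfl⟩
  have hx1 : KL δ hδ (0, Real.pi / 4, 0) = x := hx.symm
  have hx2 : KL δ hδ (0, 9 * Real.pi / 4, 0) = x := by
    rw [hx, ← KL_θ δ hδ 0 (Real.pi / 4)]
    congr 2; congr 1; ring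
  have hx3 : KL δ hδ (0, Real.pi / 4, per δ) = x := by
    rw [hx, ← KL_w δ hδ 0 (Real.pi / 4) 0, zero_add]
  obtain ⟨a₁, a₂, hcomm, ha₁, ha₂⟩ := piece_relations (KL δ hδ) (per δ) (KL_θ δ hδ) (KL_w δ hδ)
    (KL_top δ hδ) (KL_side δ hδ) hx1 hx2 hx3
  have l1 : FC δ hδ (-2, 0, Real.pi / 4) = x := by rw [← KL_zero, hx1]
  have l2 : FC δ hδ (-2, 0, 9 * Real.pi / 4) = x := by rw [← KL_zero, hx2]
  have l3 : FC δ hδ (-2, per δ, Real.pi / 4) = x := by rw [← KL_zero, hx3]
  set h₁ := cls (FC δ hδ) (3 / 2, 0, 0) (-2, 0, Real.pi / 4) b0 l1 with hh₁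
  have lz' : z' = h₁ ≫ (a₁ ≫ a₂ ≫ inv a₁ ≫ inv a₂) ≫ inv h₁ := by
    have e1 : cls (FC δ hδ) (-2, 0, 9 * Real.pi / 4) (3 / 2, 0, 2 * Real.pi) l2 b2 = inv h₁ := by
      rw [hh₁, ← cls_symm]
      refine cls_congr _ _ _ _ fun u h0 h1 => ?_
      rw [R3_seg, R3_seg]
      exact FC_eq δ hδ 0 1 (by ring) (by push_cast; ring) (by push_cast; ring)
    have e2 : cls (KL δ hδ) (0, Real.pi / 4, 0) (0, 9 * Real.pi / 4, 0) hx1 hx2 =
        cls (FC δ hδ) (-2, 0, Real.pi / 4) (-2, 0, 9 * Real.pi / 4) l1 l2 := by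
      refine cls_congr _ _ _ _ fun u h0 h1 => ?_
      rw [R3_seg, R3_seg]
      simp only [sub_self, mul_zero, add_zero]
      exact KL_zero δ hδ _ _
    rw [hcomm, e2, ← e1, cls_comp, hh₁, cls_comp]
  have lz : z = h₁ ≫ cls (KL δ hδ) (0, Real.pi / 4, 0) (0, Real.pi / 4, per δ) hx1 hx3 ≫
      inv h₁ := by
    have e1 : cls (FC δ hδ) (-2, per δ, Real.pi / 4) (3 / 2, per δ, 0) l3 b1 = inv h₁ := by
      rw [hh₁, ← cls_symm]
      refine cls_congr _ _ _ _ fun u h0 h1 => ?_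
      rw [R3_seg, R3_seg]
      exact FC_eq δ hδ 1 0 (by ring) (by push_cast; ring) (by push_cast; ring)
    have e2 : cls (KL δ hδ) (0, Real.pi / 4, 0) (0, Real.pi / 4, per δ) hx1 hx3 =
        cls (FC δ hδ) (-2, 0, Real.pi / 4) (-2, per δ, Real.pi / 4) l1 l3 := by
      refine cls_congr _ _ _ _ fun u h0 h1 => ?_
      rw [R3_seg, R3_seg]
      simp only [sub_self, mul_zero, add_zero]
      exact KL_zero δ hδ _ _
    rw [e2, ← e1, cls_comp, hh₁, cls_comp]
  -- right piece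
  obtain ⟨y, hy⟩ : ∃ y, y = KR δ hδ (0, Real.pi / 4, 0) := ⟨_, rfl⟩
  have hy1 : KR δ hδ (0, Real.pi / 4, 0) = y := hy.symm
  have hy2 : KR δ hδ (0, 9 * Real.pi / 4, 0) = y := by
    rw [hy, ← KR_θ δ hδ 0 (Real.pi / 4)]
    congr 2; congr 1; ring
  have hy3 : KR δ hδ (0, Real.pi / 4, 2 * Real.pi) = y := by
    rw [hy, ← KR_w δ hδ 0 (Real.pi / 4) 0, zero_add]
  obtain ⟨c₁, c₂, hcomm', hc₁, hc₂⟩ := piece_relations (KR δ hδ) (2 * Real.pi) (KR_θ δ hδ)
    (KR_w δ hδ) (KR_top δ hδ) (KR_side δ hδ) hy1 hy2 hy3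
  have r1 : FC δ hδ (3, Real.pi / 4 / δ, 0 - Real.pi / 4) = y := by rw [← KR_zero, hy1]
  have r2 : FC δ hδ (3, 9 * Real.pi / 4 / δ, 0 - 9 * Real.pi / 4) = y := by rw [← KR_zero, hy2]
  have r3 : FC δ hδ (3, Real.pi / 4 / δ, 2 * Real.pi - Real.pi / 4) = y := by
    rw [← KR_zero, hy3]
  set h₂ := cls (FC δ hδ) (3 / 2, 0, 0) (3, Real.pi / 4 / δ, 0 - Real.pi / 4) b0 r1 with hh₂
  have rz' : z' = h₂ ≫ cls (KR δ hδ) (0, Real.pi / 4, 0) (0, Real.pi / 4, 2 * Real.pi) hy1 hy3 ≫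
      inv h₂ := by
    have e1 : cls (FC δ hδ) (3, Real.pi / 4 / δ, 2 * Real.pi - Real.pi / 4)
        (3 / 2, 0, 2 * Real.pi) r3 b2 = inv h₂ := by
      rw [hh₂, ← cls_symm]
      refine cls_congr _ _ _ _ fun u h0 h1 => ?_
      rw [R3_seg, R3_seg]
      exact FC_eq δ hδ 0 1 (by ring) (by push_cast; ring) (by push_cast; ring)
    have e2 : cls (KR δ hδ) (0, Real.pi / 4, 0) (0, Real.pi / 4, 2 * Real.pi) hy1 hy3 =
        cls (FC δ hδ) (3, Real.pi / 4 / δ, 0 - Real.pi / 4)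
          (3, Real.pi / 4 / δ, 2 * Real.pi - Real.pi / 4) r1 r3 := by
      refine cls_congr _ _ _ _ fun u h0 h1 => ?_
      rw [R3_seg, R3_seg]
      simp only [sub_self, mul_zero, add_zero]
      rw [KR_zero]
      congr 2; congr 1; ring
    rw [e2, ← e1, cls_comp, hh₂, cls_comp]
  have rz : inv z' ≫ z = h₂ ≫ (c₁ ≫ c₂ ≫ inv c₁ ≫ inv c₂) ≫ inv h₂ := by
    have e0 : inv z' = cls (FC δ hδ) (3 / 2, 0, 0) (3 / 2, 0, -(2 * Real.pi)) b0 b3 := by
      rw [hz', ← cls_symm]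
      refine cls_congr _ _ _ _ fun u h0 h1 => ?_
      rw [R3_seg, R3_seg]
      exact FC_eq δ hδ 0 1 (by ring) (by push_cast; ring) (by push_cast; ring)
    have e0' : z = cls (FC δ hδ) (3 / 2, 0, -(2 * Real.pi)) (3 / 2, per δ, -(2 * Real.pi))
        b3 b4 := by
      rw [hz]
      refine cls_congr _ _ _ _ fun u h0 h1 => ?_
      rw [R3_seg, R3_seg]
      exact FC_eq δ hδ 0 1 (by ring) (by push_cast; ring) (by push_cast; ring)
    have e1 : cls (FC δ hδ) (3, 9 * Real.pi / 4 / δ, 0 - 9 * Real.pi / 4)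
        (3 / 2, per δ, -(2 * Real.pi)) r2 b4 = inv h₂ := by
      rw [hh₂, ← cls_symm]
      refine cls_congr _ _ _ _ fun u h0 h1 => ?_
      rw [R3_seg, R3_seg]
      exact FC_eq δ hδ 1 (-1) (by ring) (by unfold per; push_cast; ring) (by push_cast; ring)
    have e2 : cls (KR δ hδ) (0, Real.pi / 4, 0) (0, 9 * Real.pi / 4, 0) hy1 hy2 =
        cls (FC δ hδ) (3, Real.pi / 4 / δ, 0 - Real.pi / 4)
          (3, 9 * Real.pi / 4 / δ, 0 - 9 * Real.pi / 4) r1 r2 := by
      refine cls_congr _ _ _ _ fun u h0 h1 => ?_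
      rw [R3_seg, R3_seg]
      simp only [sub_self, mul_zero, add_zero]
      rw [KR_zero]
      congr 2
      congr 1
      · ring
      · ring
    rw [hcomm', e2, ← e1, cls_comp, hh₂, cls_comp, e0, e0', cls_comp]
  obtain ⟨A₁, A₂, hA₁, hA₂, hA⟩ := end_relations h₁ a₁ a₂ _ z z' lz' lz ha₁ ha₂
  obtain ⟨B₁, B₂, hB₁, hB₂, hB⟩ := end_relations h₂ c₁ c₂ _ z' (inv z' ≫ z) rz rz' hc₁ hc₂
  refine ⟨z, z', A₁, A₂, B₁, B₂, hA₁, hA₂, hA, hB₁, hB₂, ?_, ?_⟩
  · rw [hB]
    have hinv : (z' : FundamentalGroup (Sd δ hδ).Space (m0 δ hδ))⁻¹ =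
        inv (C := FundamentalGroupoid (Sd δ hδ).Space) z' := Groupoid.inv_eq_inv z'
    rw [End.mul_def, hinv]
  · intro h
    refine ⟨Seg.path (FC δ hδ) (3 / 2, 0, 0) (3 / 2, 0, 2 * Real.pi) b0 b2, ?_, ?_⟩
    · exact Path.Homotopic.Quotient.exact h
    · intro t
      change FC δ hδ ((3 / 2, 0, 0) + (t : ℝ) • ((3 / 2, 0, 2 * Real.pi) - (3 / 2, 0, 0))) = _
      rw [R3_seg, ← FC_base]
      congr 2
      · ring
      · congr 1 <;> ring

end Vale.Agent.P255
end
end
end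

section

section

/-!
# P255: metric coefficients in one chart: Christoffel symbols, metric compatibility,
skew-symmetry of the curvature, second derivative of `|J|²`
-/

open scoped Manifold ContDiff Topology
open Set

set_option maxSynthPendingDepth 3

noncomputable section

namespace Vale.Agent.P255

variable {E : Type} [NormedAddCommGroup E] [NormedSpace ℝ E]

/-- smooth metric coefficients on an open set -/
structure IsMetricOn (G : E → E →L[ℝ] E →L[ℝ] ℝ) (U : Set E) : Prop where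
  isOpen : IsOpen U
  smooth : ContDiffOn ℝ ∞ G U
  symm : ∀ u ∈ U, ∀ v w, G u v w = G u w v
  pos : ∀ u ∈ U, ∀ v, v ≠ 0 → 0 < G u v v

namespace IsMetricOn

variable {G : E → E →L[ℝ] E →L[ℝ] ℝ} {U : Set E}

theorem contDiffAt (h : IsMetricOn G U) {u : E} (hu : u ∈ U) : ContDiffAt ℝ ∞ G u :=
  h.smooth.contDiffAt (h.isOpen.mem_nhds hu)

theorem differentiableAt (h : IsMetricOn G U) {u : E} (hu : u ∈ U) : DifferentiableAt ℝ G u :=
  (h.contDiffAt hu).differentiableAt (by simp)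

theorem contDiffAt_fderiv (h : IsMetricOn G U) {u : E} (hu : u ∈ U) :
    ContDiffAt ℝ ∞ (fderiv ℝ G) u :=
  (h.contDiffAt hu).fderiv_right (m := ∞) (by simp)

theorem nonneg (h : IsMetricOn G U) {u : E} (hu : u ∈ U) (v : E) : 0 ≤ G u v v := by
  by_cases hv : v = 0
  · simp [hv]
  · exact (h.pos u hu v hv).le

theorem eq_zero (h : IsMetricOn G U) {u : E} (hu : u ∈ U) {v : E} (hv : G u v v = 0) : v = 0 := by
  by_contra h'
  exact (h.pos u hu v h').ne' hv

theorem fderiv_symm (h : IsMetricOn G U) {u : E} (hu : u ∈ U) (x v w : E) :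
    fderiv ℝ G u x v w = fderiv ℝ G u x w v := by
  have h1 : HasFDerivAt (fun p => G p v w) ((fderiv ℝ G u).flip v |>.flip w) u := by
    have := ((h.differentiableAt hu).hasFDerivAt.clm_apply (hasFDerivAt_const v u)).clm_apply
      (hasFDerivAt_const w u)
    refine this.congr_fderiv ?_
    ext z; simp
  have h2 : HasFDerivAt (fun p => G p w v) ((fderiv ℝ G u).flip w |>.flip v) u := by
    have := ((h.differentiableAt hu).hasFDerivAt.clm_apply (hasFDerivAt_const w u)).clm_apply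
      (hasFDerivAt_const v u)
    refine this.congr_fderiv ?_
    ext z; simp
  have h3 : HasFDerivAt (fun p => G p v w) ((fderiv ℝ G u).flip w |>.flip v) u := by
    refine h2.congr_of_eventuallyEq ?_
    filter_upwards [h.isOpen.mem_nhds hu] with p hp
    exact h.symm p hp v w
  have := congr_arg (fun L => L x) (h1.unique h3)
  simpa using this

variable [FiniteDimensional ℝ E]

theorem isInvertible (h : IsMetricOn G U) {u : E} (hu : u ∈ U) : (G u).IsInvertible := by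
  have hinj : Function.Injective (G u) := by
    rw [injective_iff_map_eq_zero]
    intro v hv
    apply h.eq_zero hu
    rw [hv]; simp
  have hdim : Module.finrank ℝ E = Module.finrank ℝ (E →L[ℝ] ℝ) := by
    have h1 : Module.finrank ℝ (E →ₗ[ℝ] ℝ) = Module.finrank ℝ E := Subspace.dual_finrank_eq
    rw [← h1]
    exact (LinearMap.toContinuousLinearMap (𝕜 := ℝ) (E := E) (F' := ℝ)).finrank_eq
  let e : E ≃ₗ[ℝ] (E →L[ℝ] ℝ) :=
    LinearMap.linearEquivOfInjective (G u : E →ₗ[ℝ] (E →L[ℝ] ℝ)) hinj hdim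
  refine ⟨e.toContinuousLinearEquiv, ?_⟩
  ext v w
  rfl

theorem chris_spec (h : IsMetricOn G U) {u : E} (hu : u ∈ U) (v w z : E) :
    G u (chris G u v w) z =
      (fderiv ℝ G u v w z + fderiv ℝ G u w v z - fderiv ℝ G u z v w) / 2 := by
  unfold chris
  rw [(h.isInvertible hu).self_apply_inverse]
  simp
  ring

omit [FiniteDimensional ℝ E] in
theorem ext_of (h : IsMetricOn G U) {u : E} (hu : u ∈ U) {v w : E}
    (hvw : ∀ z, G u v z = G u w z) : v = w := by
  have : G u (v - w) (v - w) = 0 := by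
    rw [map_sub]; simp [hvw]
  exact sub_eq_zero.1 (h.eq_zero hu this)

theorem chris_symm (h : IsMetricOn G U) {u : E} (hu : u ∈ U) (v w : E) :
    chris G u v w = chris G u w v := by
  apply h.ext_of hu
  intro z
  rw [h.chris_spec hu, h.chris_spec hu, h.fderiv_symm hu z v w]
  ring

theorem chris_compat (h : IsMetricOn G U) {u : E} (hu : u ∈ U) (x v w : E) :
    fderiv ℝ G u x v w = G u (chris G u x v) w + G u v (chris G u x w) := by
  rw [h.symm u hu v, h.chris_spec hu, h.chris_spec hu, h.fderiv_symm hu w x v,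
    h.fderiv_symm hu v x w, h.fderiv_symm hu x w v]
  ring

end IsMetricOn


/-- Christoffel symbols as a bilinear map -/
def chrisB (G : E → E →L[ℝ] E →L[ℝ] ℝ) (u : E) : E →L[ℝ] E →L[ℝ] E :=
  (ContinuousLinearMap.compL ℝ E (E →L[ℝ] ℝ) E (G u).inverse) ∘L
    ((1 / 2 : ℝ) • (fderiv ℝ G u + (fderiv ℝ G u).flip
      - (ContinuousLinearMap.flipₗᵢ ℝ E E ℝ).toContinuousLinearEquiv.toContinuousLinearMap ∘L
        (fderiv ℝ G u).flip))

theorem chrisB_apply (G : E → E →L[ℝ] E →L[ℝ] ℝ) (u v w : E) :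
    chrisB G u v w = chris G u v w := by
  simp only [chrisB, chris, ContinuousLinearMap.coe_comp, Function.comp_apply,
    ContinuousLinearMap.compL_apply]
  congr 1

namespace IsMetricOn

variable [FiniteDimensional ℝ E] {G : E → E →L[ℝ] E →L[ℝ] ℝ} {U : Set E}

theorem contDiffAt_chrisB (h : IsMetricOn G U) {u : E} (hu : u ∈ U) :
    ContDiffAt ℝ ∞ (chrisB G) u := by
  unfold chrisB
  have hi : ContDiffAt ℝ ∞ (fun u => (G u).inverse) u :=
    ((h.isInvertible hu).contDiffAt_map_inverse).comp u (h.contDiffAt hu)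
  have hd := h.contDiffAt_fderiv hu
  have hf : ContDiffAt ℝ ∞ (fun u => (fderiv ℝ G u).flip) u :=
    ((ContinuousLinearMap.flipₗᵢ ℝ E E (E →L[ℝ] ℝ)).toContinuousLinearEquiv.contDiff.contDiffAt).comp
      u hd
  refine ContDiffAt.clm_comp ?_ ?_
  · exact (ContinuousLinearMap.compL ℝ E (E →L[ℝ] ℝ) E).contDiff.contDiffAt.comp u hi
  · exact ((hd.add hf).sub (contDiffAt_const.clm_comp hf)).const_smul (1 / 2 : ℝ)

theorem contDiffAt_chris (h : IsMetricOn G U) {u : E} (hu : u ∈ U) (v w : E) :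
    ContDiffAt ℝ ∞ (fun p => chris G p v w) u := by
  simp_rw [← chrisB_apply]
  exact ((h.contDiffAt_chrisB hu).clm_apply contDiffAt_const).clm_apply contDiffAt_const

theorem differentiableAt_chrisB (h : IsMetricOn G U) {u : E} (hu : u ∈ U) :
    DifferentiableAt ℝ (chrisB G) u :=
  (h.contDiffAt_chrisB hu).differentiableAt (by simp)

theorem fderiv_chris (h : IsMetricOn G U) {u : E} (hu : u ∈ U) (v w x : E) :
    fderiv ℝ (fun p => chris G p v w) u x = fderiv ℝ (chrisB G) u x v w := by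
  simp_rw [← chrisB_apply]
  have h1 := (((h.differentiableAt_chrisB hu).hasFDerivAt.clm_apply
    (hasFDerivAt_const v u)).clm_apply (hasFDerivAt_const w u)).fderiv
  rw [h1]
  simp

theorem curv_eq (h : IsMetricOn G U) {u : E} (hu : u ∈ U) (x y z : E) :
    curv G u x y z = fderiv ℝ (chrisB G) u x y z - fderiv ℝ (chrisB G) u y x z
      + chrisB G u x (chrisB G u y z) - chrisB G u y (chrisB G u x z) := by
  unfold curv
  rw [h.fderiv_chris hu, h.fderiv_chris hu]
  simp only [chrisB_apply]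

/-- the curvature is skew-symmetric in its last two arguments -/
theorem curv_skew (h : IsMetricOn G U) {u : E} (hu : u ∈ U) (x y z : E) :
    G u (curv G u x y z) z = 0 := by
  -- first derivative of `p ↦ G p z z`
  have h1 : ∀ p ∈ U, ∀ a, fderiv ℝ (fun q => G q z z) p a = 2 * G p (chrisB G p a z) z := by
    intro p hp a
    have := (((h.differentiableAt hp).hasFDerivAt.clm_apply
      (hasFDerivAt_const z p)).clm_apply (hasFDerivAt_const z p)).fderiv
    rw [this]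
    simp only [add_apply, ContinuousLinearMap.flip_apply]
    simp only [ContinuousLinearMap.comp_apply, zero_apply, map_zero,
      zero_add, add_apply, ContinuousLinearMap.flip_apply]
    rw [h.chris_compat hp, h.symm p hp z, ← chrisB_apply]
    ring
  have hsm : ContDiffAt ℝ 2 (fun q => G q z z) u :=
    (((h.contDiffAt hu).clm_apply contDiffAt_const).clm_apply contDiffAt_const).of_le
      (by norm_cast)
  have hsym : ∀ a b, fderiv ℝ (fun p => fderiv ℝ (fun q => G q z z) p a) u b =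
      fderiv ℝ (fun p => fderiv ℝ (fun q => G q z z) p b) u a := by
    intro a b
    have hs := hsm.isSymmSndFDerivAt (by simp)
    have hd : DifferentiableAt ℝ (fderiv ℝ (fun q => G q z z)) u :=
      (hsm.fderiv_right (m := 1) (by norm_num)).differentiableAt (by simp)
    have e1 : ∀ c d, fderiv ℝ (fun p => fderiv ℝ (fun q => G q z z) p c) u d =
        fderiv ℝ (fderiv ℝ (fun q => G q z z)) u d c := by
      intro c d
      rw [(hd.hasFDerivAt.clm_apply (hasFDerivAt_const c u)).fderiv]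
      simp
    rw [e1, e1]
    exact hs b a
  have hval : ∀ a b, fderiv ℝ (fun p => fderiv ℝ (fun q => G q z z) p a) u b =
      2 * (G u (chrisB G u b (chrisB G u a z)) z + G u (chrisB G u a z) (chrisB G u b z)
        + G u (fderiv ℝ (chrisB G) u b a z) z) := by
    intro a b
    have e1 : (fun p => fderiv ℝ (fun q => G q z z) p a) =ᶠ[𝓝 u]
        fun p => 2 * G p (chrisB G p a z) z := by
      filter_upwards [h.isOpen.mem_nhds hu] with p hp
      exact h1 p hp a
    rw [e1.fderiv_eq]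
    have e2 := (((h.differentiableAt_chrisB hu).hasFDerivAt.clm_apply
      (hasFDerivAt_const a u)).clm_apply (hasFDerivAt_const z u))
    have e3 := (((h.differentiableAt hu).hasFDerivAt.clm_apply e2).clm_apply
      (hasFDerivAt_const z u)).const_mul 2
    rw [e3.fderiv]
    simp only [add_apply, ContinuousLinearMap.flip_apply,
      ContinuousLinearMap.comp_apply, zero_apply, map_zero,
      zero_add, smul_apply, smul_eq_mul]
    rw [h.chris_compat hu]
    simp only [chrisB_apply]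
    ring
  have := hsym x y
  rw [hval, hval] at this
  rw [h.curv_eq hu]
  simp only [map_sub, map_add, sub_apply, add_apply]
  rw [h.symm u hu (chrisB G u x z)] at this
  linarith

/-- metric compatibility along a curve -/
theorem hasDerivAt_inner (h : IsMetricOn G U) {c X Y : ℝ → E} {t : ℝ} (ht : c t ∈ U)
    (hc : DifferentiableAt ℝ c t) (hX : DifferentiableAt ℝ X t) (hY : DifferentiableAt ℝ Y t) :
    HasDerivAt (fun s => G (c s) (X s) (Y s))
      (G (c t) (covD G c X t) (Y t) + G (c t) (X t) (covD G c Y t)) t := by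
  have h1 : HasDerivAt (fun s => G (c s)) (fderiv ℝ G (c t) (deriv c t)) t :=
    (h.differentiableAt ht).hasFDerivAt.comp_hasDerivAt t hc.hasDerivAt
  have h2 := (h1.clm_apply hX.hasDerivAt).clm_apply hY.hasDerivAt
  refine h2.congr_deriv ?_
  simp only [covD, add_apply, map_add]
  rw [h.chris_compat ht]
  ring

end IsMetricOn

end Vale.Agent.P255
end
end
end

section

section

/-!
# P255: the structure `IsExp` (exponential maps of a closed manifold)
-/

open scoped Manifold ContDiff Topology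
open Set

noncomputable section

namespace Vale.Agent.P255

variable {E : Type} [NormedAddCommGroup E] [NormedSpace ℝ E]
variable {M : Type} [TopologicalSpace M] [ChartedSpace E M]

/-- everything about the exponential map that is used later -/
structure IsExp (g : Metric E M) (e : M → E → M) : Prop where
  zero : ∀ m, e m 0 = m
  cont : ∀ m, Continuous (e m)
  geod : ∀ m v, IsGeodesic g (fun t => e m (t • v))
  init : ∀ m v, HasDerivAt (fun t : ℝ => chartAt E m (e m (t • v))) v 0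
  uniq : ∀ γ, IsGeodesic g γ → ∀ t, γ t = e (γ 0) (t • deriv (cc (E := E) γ (γ 0)) 0)
  smooth : ∀ m v a, e m v ∈ (chartAt E a).source →
    ContDiffAt ℝ 1 (fun w => chartAt E a (e m w)) v
  jac : ∀ m v w, IsJacobi g (fun t => e m (t • v))
    (fun a t => fderiv ℝ (fun x => chartAt E a (e m x)) (t • v) (t • w))
  jac_init : ∀ m v w, HasDerivAt
    (fun t : ℝ => fderiv ℝ (fun x => chartAt E m (e m x)) (t • v) (t • w)) w 0

end Vale.Agent.P255
end
end
end

section

section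

/-!
# P255: a local homeomorphism with path lifting along contractions of small open sets is a
covering map
-/

open Topology Set unitInterval

namespace Vale.Agent.P255

variable {E X : Type*} [TopologicalSpace E] [TopologicalSpace X] {p : E → X}

/-- the path `γ` lifts from every point above its starting point -/
def Lifts (p : E → X) (γ : I → X) : Prop :=
  ∀ e, p e = γ 0 → ∃ Γ : I → E, Continuous Γ ∧ (∀ t, p (Γ t) = γ t) ∧ Γ 0 = e

theorem isEvenlyCovered_of_lifts (hp : IsLocalHomeomorph p) (sep : IsSeparatedMap p)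
    (x₀ : X) (U : Set X) (hU : IsOpen U) (hx₀ : x₀ ∈ U) (H : I × U → X) (hH : Continuous H)
    (HU : ∀ q, H q ∈ U)
    (H0 : ∀ u, H (0, u) = x₀) (H1 : ∀ u, H (1, u) = u)
    (lift : ∀ u : U, Lifts p (fun s => H (s, u)))
    (lift' : ∀ u : U, Lifts p (fun s => H (σ s, u))) :
    IsEvenlyCovered p x₀ (p ⁻¹' {x₀}) := by
  classical
  have hdisc : DiscreteTopology (p ⁻¹' {x₀}) := by
    have h1 : IsLocalHomeomorphOn p (p ⁻¹' {x₀}) := hp.isLocalHomeomorphOn.mono (subset_univ _)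
    have : DiscreteTopology (p '' (p ⁻¹' {x₀})) := by
      have : Subsingleton (p '' (p ⁻¹' {x₀})) := by
        constructor
        rintro ⟨_, a, ha, rfl⟩ ⟨_, b, hb, rfl⟩
        apply Subtype.ext
        simp only [mem_preimage, mem_singleton_iff] at ha hb
        simp [ha, hb]
      infer_instance
    exact h1.discreteTopology_of_image
  have hpc : Continuous p := hp.continuous
  -- forward lifts
  have hF : ∀ q : U × (p ⁻¹' {x₀}), ∃ Γ : I → E, Continuous Γ ∧ (∀ t, p (Γ t) = H (t, q.1)) ∧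
      Γ 0 = q.2 := fun q => lift q.1 q.2 (by have := q.2.2; simp only [mem_preimage, mem_singleton_iff] at this; simp only [H0, this])
  choose F Fc Fl F0 using hF
  have hG : ∀ y : p ⁻¹' U, ∃ Γ : I → E, Continuous Γ ∧ (∀ t, p (Γ t) = H (σ t, ⟨p y, y.2⟩)) ∧
      Γ 0 = y := fun y => lift' ⟨p y, y.2⟩ y (by simp [H1])
  choose G Gc Gl G0 using hG
  -- joint continuity
  have hFc : Continuous (fun q : I × (U × (p ⁻¹' {x₀})) => F q.2 q.1) := by
    refine hp.continuous_lift sep (f := ⟨fun q : I × (U × (p ⁻¹' {x₀})) => H (q.1, q.2.1), by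
      fun_prop⟩) (by ext q; exact Fl q.2 q.1) ?_ (fun a => Fc a)
    simp only [F0]
    fun_prop
  have hGc : Continuous (fun q : I × (p ⁻¹' U) => G q.2 q.1) := by
    refine hp.continuous_lift sep (f := ⟨fun q : I × (p ⁻¹' U) =>
      H (σ q.1, ⟨p q.2, q.2.2⟩), by fun_prop⟩) (by ext q; exact Gl q.2 q.1) ?_ (fun a => Gc a)
    simp only [G0]
    fun_prop
  have uniq : ∀ {g₁ g₂ : I → E}, Continuous g₁ → Continuous g₂ → (∀ t, p (g₁ t) = p (g₂ t)) →
      ∀ t₀, g₁ t₀ = g₂ t₀ → ∀ t, g₁ t = g₂ t := by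
    intro g₁ g₂ h₁ h₂ h t₀ ht₀ t
    exact congr_fun (sep.eq_of_comp_eq hp.isLocallyInjective h₁ h₂ (funext h) t₀ ht₀) t
  refine ⟨hdisc, U, hx₀, hU, hU.preimage hpc, ?_⟩
  let toF : p ⁻¹' U → U × (p ⁻¹' {x₀}) := fun y =>
    (⟨p y, y.2⟩, ⟨G y 1, by
      simp only [mem_preimage, mem_singleton_iff, Gl, symm_one, H0]⟩)
  let inF : U × (p ⁻¹' {x₀}) → p ⁻¹' U := fun q =>
    ⟨F q 1, by simp only [mem_preimage, Fl, H1]; exact q.1.2⟩
  have hl : ∀ y, inF (toF y) = y := by
    intro y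
    apply Subtype.ext
    change F (toF y) 1 = y
    have h1 := uniq (Fc (toF y)) ((Gc y).comp continuous_symm) (by
      intro t
      rw [Fl]
      simp only [Function.comp_apply, Gl, symm_symm]
      rfl) 0 (by
      simp only [Function.comp_apply, symm_zero, F0, toF]) 1
    rw [h1]
    simp [G0]
  have hr : ∀ q, toF (inF q) = q := by
    intro q
    have hb : (⟨p (inF q), (inF q).2⟩ : U) = q.1 := by
      apply Subtype.ext
      change p (F q 1) = q.1
      rw [Fl, H1]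
    refine Prod.ext hb (Subtype.ext ?_)
    change G (inF q) 1 = q.2
    have h1 := uniq (Gc (inF q)) ((Fc q).comp continuous_symm) (by
      intro t
      rw [Gl]
      simp only [Function.comp_apply, Fl, hb]) 0 (by
      simp only [Function.comp_apply, symm_zero, G0, inF]) 1
    rw [h1]
    simp [F0]
  refine ⟨{ toFun := toF, invFun := inF, left_inv := hl, right_inv := hr,
            continuous_toFun := ?_, continuous_invFun := ?_ }, fun y => rfl⟩
  · refine Continuous.prodMk (by fun_prop) (Continuous.subtype_mk ?_ _)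
    exact hGc.comp (Continuous.prodMk continuous_const continuous_id)
  · refine Continuous.subtype_mk ?_ _
    exact hFc.comp (Continuous.prodMk continuous_const continuous_id)

theorem isCoveringMap_of_lifts (hp : IsLocalHomeomorph p) (sep : IsSeparatedMap p)
    (h : ∀ x₀ : X, ∃ U : Set X, IsOpen U ∧ x₀ ∈ U ∧ ∃ H : I × U → X, Continuous H ∧
      (∀ q, H q ∈ U) ∧ (∀ u, H (0, u) = x₀) ∧ (∀ u, H (1, u) = u) ∧
      (∀ u : U, Lifts p (fun s => H (s, u))) ∧ (∀ u : U, Lifts p (fun s => H (σ s, u)))) :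
    IsCoveringMap p := by
  intro x₀
  obtain ⟨U, hU, hx₀, H, hH, HU, H0, H1, l1, l2⟩ := h x₀
  exact isEvenlyCovered_of_lifts hp sep x₀ U hU hx₀ H hH HU H0 H1 l1 l2

end Vale.Agent.P255
end
end

section

section

/-!
# P255: lifting a path through a local homeomorphism when all partial lifts stay in a compact set
-/

open Topology Set Filter

namespace Vale.Agent.P255

variable {E X : Type*} [TopologicalSpace E] [TopologicalSpace X] {p : E → X} {γ : ℝ → X} {e : E}

/-- `Γ` lifts `γ` on `[0,T]`, starting at `e`. -/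
def IsLiftOn (p : E → X) (γ : ℝ → X) (e : E) (T : ℝ) (Γ : ℝ → E) : Prop :=
  ContinuousOn Γ (Icc 0 T) ∧ (∀ t ∈ Icc 0 T, p (Γ t) = γ t) ∧ Γ 0 = e

omit [TopologicalSpace X] in
theorem IsLiftOn.mono {T T' : ℝ} {Γ : ℝ → E} (h : IsLiftOn p γ e T Γ) (hT : T' ≤ T) :
    IsLiftOn p γ e T' Γ :=
  ⟨h.1.mono (Icc_subset_Icc_right hT), fun t ht => h.2.1 t (Icc_subset_Icc_right hT ht), h.2.2⟩

theorem IsLiftOn.extend (q : OpenPartialHomeomorph E X) (hq : p = q) {s T : ℝ} (h0 : 0 ≤ s)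
    (hsT : s ≤ T) {Γ : ℝ → E} (hΓ : IsLiftOn p γ e s Γ) (hV : Γ s ∈ q.source)
    (hW : ∀ t ∈ Icc s T, γ t ∈ q.target) (hγ : ContinuousOn γ (Icc s T)) :
    ∃ Γ', IsLiftOn p γ e T Γ' := by
  have hs : γ s = q (Γ s) := by rw [← hΓ.2.1 s ⟨h0, le_rfl⟩, hq]
  have hs' : q.symm (γ s) = Γ s := by rw [hs, q.left_inv hV]
  refine ⟨fun t => if t ≤ s then Γ t else q.symm (γ t), ?_, ?_, ?_⟩
  · have h1 : ContinuousOn (fun t => if t ≤ s then Γ t else q.symm (γ t)) (Icc 0 s) :=
      hΓ.1.congr (fun t ht => by simp [ht.2])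
    have h2 : ContinuousOn (fun t => if t ≤ s then Γ t else q.symm (γ t)) (Icc s T) := by
      refine (q.continuousOn_symm.comp hγ (fun t ht => hW t ht)).congr (fun t ht => ?_)
      by_cases h : t ≤ s
      · have : t = s := le_antisymm h ht.1
        subst this
        simp [hs']
      · simp [h]
    have h3 := h1.union_of_isClosed h2 isClosed_Icc isClosed_Icc
    rwa [Icc_union_Icc_eq_Icc h0 hsT] at h3
  · intro t ht
    by_cases h : t ≤ s
    · simp only [h, if_true]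
      exact hΓ.2.1 t ⟨ht.1, h⟩
    · simp only [h, if_false]
      rw [hq]
      exact q.right_inv (hW t ⟨(not_le.1 h).le, ht.2⟩)
  · simp [h0, hΓ.2.2]

theorem exists_lift [T2Space X] (hp : IsLocalHomeomorph p) (hγ : ContinuousOn γ (Icc 0 1))
    (he : p e = γ 0) {K : Set E} (hK : IsCompact K)
    (hb : ∀ T ∈ Icc (0 : ℝ) 1, ∀ Γ, IsLiftOn p γ e T Γ → ∀ t ∈ Icc 0 T, Γ t ∈ K) :
    ∃ Γ, IsLiftOn p γ e 1 Γ := by
  set S : Set ℝ := {T | ∃ Γ, IsLiftOn p γ e T Γ} with hS
  have h0 : (0 : ℝ) ∈ S := by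
    refine ⟨fun _ => e, continuousOn_const, fun t ht => ?_, rfl⟩
    have : t = 0 := le_antisymm ht.2 ht.1
    rw [this, he]
  have hclosed : IsClosed (S ∩ Icc 0 1) := by
    rw [isClosed_iff_frequently]
    intro T hT
    have hT01 : T ∈ Icc (0 : ℝ) 1 := by
      have : ∃ᶠ y in 𝓝 T, y ∈ Icc (0 : ℝ) 1 := hT.mono (fun y hy => hy.2)
      exact isClosed_iff_frequently.1 isClosed_Icc T this
    refine ⟨?_, hT01⟩
    -- endpoints
    have : Nonempty E := ⟨e⟩
    choose! Γ hΓ using (fun T (h : T ∈ S) => h)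
    have hne : (𝓝[S ∩ Icc 0 1] T).NeBot := by
      rw [← mem_closure_iff_nhdsWithin_neBot, mem_closure_iff_frequently]
      exact hT
    have hmem : ∀ᶠ s in 𝓝[S ∩ Icc 0 1] T, Γ s s ∈ K := by
      filter_upwards [self_mem_nhdsWithin] with s hs
      exact hb s hs.2 (Γ s) (hΓ s hs.1) s ⟨hs.2.1, le_rfl⟩
    obtain ⟨v, hvK, hv⟩ := hK.exists_clusterPt (f := map (fun s => Γ s s) (𝓝[S ∩ Icc 0 1] T))
      (le_principal_iff.2 (mem_map.2 hmem))
    have hpv : p v = γ T := by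
      have h1 : ClusterPt (p v) (map p (map (fun s => Γ s s) (𝓝[S ∩ Icc 0 1] T))) :=
        hv.map hp.continuous.continuousAt tendsto_map
      have h2 : Tendsto (fun s => p (Γ s s)) (𝓝[S ∩ Icc 0 1] T) (𝓝 (γ T)) := by
        have h3 : Tendsto γ (𝓝[S ∩ Icc 0 1] T) (𝓝 (γ T)) :=
          (hγ T hT01).mono_left (nhdsWithin_mono _ inter_subset_right)
        refine h3.congr' ?_
        filter_upwards [self_mem_nhdsWithin] with s hs
        exact ((hΓ s hs.1).2.1 s ⟨hs.2.1, le_rfl⟩).symm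
      rw [map_map] at h1
      have h4 : ClusterPt (p v) (𝓝 (γ T)) := h1.mono h2
      exact eq_of_nhds_neBot h4
    obtain ⟨q, hvq, hq⟩ := hp v
    have hW : q.target ∈ 𝓝 (γ T) := by
      rw [← hpv, hq]
      exact q.open_target.mem_nhds (q.map_source hvq)
    have hγT : ∀ᶠ s in 𝓝[Icc 0 1] T, γ s ∈ q.target := (hγ T hT01) hW
    obtain ⟨ε, hε, hεW⟩ := Metric.mem_nhdsWithin_iff.1 hγT
    have hfr : ∃ᶠ s in 𝓝[S ∩ Icc 0 1] T, Γ s s ∈ q.source := by
      have := hv.frequently (q.open_source.mem_nhds hvq)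
      exact this
    have hev1 : ∀ᶠ s in 𝓝[S ∩ Icc 0 1] T, s ∈ S ∩ Icc 0 1 := self_mem_nhdsWithin
    have hev2 : ∀ᶠ s in 𝓝[S ∩ Icc 0 1] T, s ∈ Metric.ball T ε :=
      nhdsWithin_le_nhds (Metric.ball_mem_nhds T hε)
    obtain ⟨s, hs1, hs2, hs3⟩ := (hfr.and_eventually (hev1.and hev2)).exists
    rcases le_or_gt T s with h | h
    · exact ⟨Γ s, (hΓ s hs2.1).mono h⟩
    · refine (hΓ s hs2.1).extend q hq hs2.2.1 h.le hs1 (fun t ht => hεW ⟨?_, ?_⟩)
        (hγ.mono (Icc_subset_Icc hs2.2.1 hT01.2))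
      · rw [Metric.mem_ball, Real.dist_eq, abs_lt] at hs3 ⊢
        constructor <;> linarith [ht.1, ht.2, hs3.1]
      · exact ⟨hs2.2.1.trans ht.1, ht.2.trans hT01.2⟩
  have hmain : Icc (0 : ℝ) 1 ⊆ S := by
    refine hclosed.Icc_subset_of_forall_mem_nhdsWithin h0 ?_
    rintro T ⟨⟨Γ, hΓ⟩, hT0, hT1⟩
    obtain ⟨q, hvq, hq⟩ := hp (Γ T)
    have hW : q.target ∈ 𝓝 (γ T) := by
      rw [← hΓ.2.1 T ⟨hT0, le_rfl⟩, hq]
      exact q.open_target.mem_nhds (q.map_source hvq)
    have hγT : ∀ᶠ s in 𝓝[Icc 0 1] T, γ s ∈ q.target := (hγ T ⟨hT0, hT1.le⟩) hW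
    obtain ⟨ε, hε, hεW⟩ := Metric.mem_nhdsWithin_iff.1 hγT
    have : Ioo T (min (T + ε) 1) ∈ 𝓝[>] T := Ioo_mem_nhdsGT (by simp [hε, hT1])
    filter_upwards [this] with s hs
    refine hΓ.extend q hq hT0 hs.1.le hvq (fun t ht => hεW ⟨?_, ?_⟩)
        (hγ.mono (Icc_subset_Icc hT0 (hs.2.le.trans (min_le_right _ _))))
    · rw [Metric.mem_ball, Real.dist_eq, abs_lt]
      have := hs.2.trans_le (min_le_left _ _)
      constructor <;> linarith [ht.1, ht.2]
    · exact ⟨hT0.trans ht.1, ht.2.trans (hs.2.le.trans (min_le_right _ _))⟩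
  exact hmain ⟨zero_le_one, le_rfl⟩

end Vale.Agent.P255
end
end

section

section

/-!
# P255: the exponential map is a covering map (under the Gauss lemma and the absence of
conjugate points), shifts of geodesics, comparison
-/

open scoped Manifold ContDiff Topology unitInterval
open Set Filter

noncomputable section

namespace Vale.Agent.P255

section Basic

variable {E : Type} [NormedAddCommGroup E] [NormedSpace ℝ E]

/-- Cauchy-Schwarz for nonnegative symmetric bilinear forms -/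
theorem cs_form (B : E →L[ℝ] E →L[ℝ] ℝ) (hs : ∀ v w, B v w = B w v) (hn : ∀ v, 0 ≤ B v v)
    (v w : E) : B v w ≤ Real.sqrt (B v v) * Real.sqrt (B w w) := by
  have h : ∀ t : ℝ, 0 ≤ B v v * (t * t) + 2 * B v w * t + B w w := by
    intro t
    have h1 := hn (t • v + w)
    simp only [map_add, map_smul, add_apply, smul_apply, smul_eq_mul] at h1
    rw [hs w v] at h1
    linarith
  have h2 := discrim_le_zero h
  rw [discrim] at h2
  have h3 : B v w ^ 2 ≤ (Real.sqrt (B v v) * Real.sqrt (B w w)) ^ 2 := by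
    rw [mul_pow, Real.sq_sqrt (hn v), Real.sq_sqrt (hn w)]; linarith
  exact (abs_le_of_sq_le_sq' h3 (by (clear * -; positivity))).2

theorem nonneg_of_pos {B : E →L[ℝ] E →L[ℝ] ℝ} (hp : ∀ v, v ≠ 0 → 0 < B v v) (v : E) :
    0 ≤ B v v := by
  rcases eq_or_ne v 0 with rfl | h
  · simp
  · exact (hp v h).le

/-- balls of a positive definite form are compact -/
theorem isCompact_form [FiniteDimensional ℝ E] (B : E →L[ℝ] E →L[ℝ] ℝ)
    (hp : ∀ v, v ≠ 0 → 0 < B v v) (R : ℝ) : IsCompact {v : E | B v v ≤ R} := by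
  have hcont : Continuous fun v : E => B v v := by continuity
  obtain ⟨c, hc, hc2⟩ : ∃ c : ℝ, 0 < c ∧ ∀ v : E, c * ‖v‖ ^ 2 ≤ B v v := by
    rcases (Metric.sphere (0 : E) 1).eq_empty_or_nonempty with h | h
    · refine ⟨1, one_pos, fun v => ?_⟩
      have hv : v = 0 := by
        by_contra hv
        have : (‖v‖⁻¹ • v) ∈ Metric.sphere (0 : E) 1 := by
          simp [norm_smul, inv_mul_cancel₀ (norm_ne_zero_iff.2 hv)]
        rw [h] at this
        exact this
      simp [hv]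
    · obtain ⟨v₀, hv₀, hmin⟩ := (isCompact_sphere (0 : E) 1).exists_isMinOn h
        hcont.continuousOn
      have hv₀0 : v₀ ≠ 0 := by
        rintro rfl
        simp at hv₀
      refine ⟨B v₀ v₀, hp v₀ hv₀0, fun v => ?_⟩
      rcases eq_or_ne v 0 with rfl | hv
      · simp
      · have hn : 0 < ‖v‖ := norm_pos_iff.2 hv
        have hmem : (‖v‖⁻¹ • v) ∈ Metric.sphere (0 : E) 1 := by
          simp [norm_smul, inv_mul_cancel₀ hn.ne']
        have h1 : B v₀ v₀ ≤ B (‖v‖⁻¹ • v) (‖v‖⁻¹ • v) := hmin hmem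
        simp only [map_smul, smul_apply, smul_eq_mul] at h1
        have h2 : ‖v‖⁻¹ * (‖v‖⁻¹ * B v v) * ‖v‖ ^ 2 = B v v := by
          field_simp
        calc B v₀ v₀ * ‖v‖ ^ 2
            ≤ ‖v‖⁻¹ * (‖v‖⁻¹ * B v v) * ‖v‖ ^ 2 :=
              mul_le_mul_of_nonneg_right h1 (by positivity)
          _ = B v v := h2
  apply Metric.isCompact_of_isClosed_isBounded
  · exact isClosed_le hcont continuous_const
  · rw [Metric.isBounded_iff_subset_closedBall 0]
    refine ⟨Real.sqrt (R / c), fun v hv => ?_⟩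
    rw [mem_closedBall_zero_iff]
    apply Real.le_sqrt_of_sq_le
    rw [le_div_iff₀ hc]
    have h1 := hc2 v
    have h2 : B v v ≤ R := hv
    linarith

/-- derivative of a local lift through a map with injective derivative -/
theorem hasDerivAt_lift [FiniteDimensional ℝ E] {F : E → E} {c x : ℝ → E} {t : ℝ} {w : E}
    (hF : ContDiffAt ℝ 1 F (c t)) (hinj : ∀ z, fderiv ℝ F (c t) z = 0 → z = 0)
    (hc : ContinuousAt c t) (hx : ∀ᶠ s in 𝓝 t, F (c s) = x s) (hxd : HasDerivAt x w t) :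
    ∃ c' : E, HasDerivAt c c' t ∧ fderiv ℝ F (c t) c' = w := by
  have hinj' : Function.Injective (fderiv ℝ F (c t) : E →ₗ[ℝ] E) := by
    rw [← LinearMap.ker_eq_bot, LinearMap.ker_eq_bot']
    exact hinj
  let L : E ≃L[ℝ] E :=
    (LinearEquiv.ofInjectiveEndo (fderiv ℝ F (c t) : E →ₗ[ℝ] E) hinj').toContinuousLinearEquiv
  have hL : (L : E →L[ℝ] E) = fderiv ℝ F (c t) := by
    ext z; rfl
  have hFd : HasFDerivAt F (L : E →L[ℝ] E) (c t) := by
    rw [hL]; exact (hF.differentiableAt one_ne_zero).hasFDerivAt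
  let φ := hF.toOpenPartialHomeomorph F hFd one_ne_zero
  have hφ : ∀ z, φ z = F z := fun z => rfl
  have hmem : c t ∈ φ.source := hF.mem_toOpenPartialHomeomorph_source hFd one_ne_zero
  have hev : ∀ᶠ s in 𝓝 t, c s = φ.symm (x s) := by
    have h1 : ∀ᶠ s in 𝓝 t, c s ∈ φ.source := hc (φ.open_source.mem_nhds hmem)
    filter_upwards [h1, hx] with s h2 h3
    rw [← h3, ← hφ, φ.left_inv h2]
  have hxt : x t = F (c t) := hx.self_of_nhds.symm
  have htar : x t ∈ φ.target := by rw [hxt, ← hφ]; exact φ.map_source hmem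
  have hsymm : φ.symm (x t) = c t := by rw [hxt, ← hφ, φ.left_inv hmem]
  have h4 : HasFDerivAt φ.symm (L.symm : E →L[ℝ] E) (x t) := by
    apply φ.hasFDerivAt_symm htar
    rw [hsymm]
    exact hFd
  have h5 : HasDerivAt (φ.symm ∘ x) (L.symm w) t := h4.comp_hasDerivAt t hxd
  refine ⟨L.symm w, h5.congr_of_eventuallyEq hev, ?_⟩
  rw [← hL]
  exact L.apply_symm_apply w

end Basic

section Exp

variable {E : Type} [NormedAddCommGroup E] [NormedSpace ℝ E] [FiniteDimensional ℝ E]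
variable {M : Type} [TopologicalSpace M] [ChartedSpace E M]

omit [FiniteDimensional ℝ E] in
theorem Metric.ip_symm (g : Metric E M) (m : M) (v w : E) : g.ip m v w = g.ip m w v :=
  g.symm m _ (mem_chart_target E m) v w

omit [FiniteDimensional ℝ E] in
theorem Metric.ip_pos (g : Metric E M) (m : M) (v : E) (hv : v ≠ 0) : 0 < g.ip m v v :=
  g.pos m _ (mem_chart_target E m) v hv

variable {g : Metric E M} {e : M → E → M}

theorem IsExp.isLocalHomeomorph (he : IsExp g e) (m : M)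
    (inj : ∀ (v w : E) (a : M), e m v ∈ (chartAt E a).source →
      fderiv ℝ (fun x => chartAt E a (e m x)) v w = 0 → w = 0) :
    IsLocalHomeomorph (e m) := by
  apply IsLocalHomeomorph.mk
  intro v
  set a := e m v with ha
  set F : E → E := fun x => chartAt E a (e m x) with hFdef
  have hsrc : e m v ∈ (chartAt E a).source := by rw [← ha]; exact mem_chart_source E a
  have hF : ContDiffAt ℝ 1 F v := he.smooth m v a hsrc
  have hinj' : Function.Injective (fderiv ℝ F v : E →ₗ[ℝ] E) := by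
    rw [← LinearMap.ker_eq_bot, LinearMap.ker_eq_bot']
    exact fun z hz => inj v z a hsrc hz
  let L : E ≃L[ℝ] E :=
    (LinearEquiv.ofInjectiveEndo (fderiv ℝ F v : E →ₗ[ℝ] E) hinj').toContinuousLinearEquiv
  have hL : (L : E →L[ℝ] E) = fderiv ℝ F v := by
    ext z; rfl
  have hFd : HasFDerivAt F (L : E →L[ℝ] E) v := by
    rw [hL]; exact (hF.differentiableAt one_ne_zero).hasFDerivAt
  let φ := hF.toOpenPartialHomeomorph F hFd one_ne_zero
  have hφ : ∀ z, φ z = F z := fun z => rfl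
  have hmem : v ∈ φ.source := hF.mem_toOpenPartialHomeomorph_source hFd one_ne_zero
  have hopen : IsOpen (e m ⁻¹' (chartAt E a).source) :=
    (chartAt E a).open_source.preimage (he.cont m)
  let φ' := φ.restrOpen _ hopen
  let ψ := φ'.trans (chartAt E a).symm
  refine ⟨ψ, ?_, ?_⟩
  · rw [OpenPartialHomeomorph.trans_source]
    refine ⟨⟨hmem, hsrc⟩, ?_⟩
    change F v ∈ (chartAt E a).symm.source
    exact (chartAt E a).map_source hsrc
  · intro x hx
    rw [OpenPartialHomeomorph.trans_source] at hx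
    have hx1 : e m x ∈ (chartAt E a).source := hx.1.2
    change e m x = (chartAt E a).symm (F x)
    rw [hFdef]
    exact ((chartAt E a).left_inv hx1).symm

/-- the statement of the Gauss lemma at `m` -/
def GaussAt (g : Metric E M) (e : M → E → M) (m : M) : Prop :=
  ∀ (v w : E) (a : M), e m v ∈ (chartAt E a).source →
    g.coef a (chartAt E a (e m v)) (fderiv ℝ (fun x => chartAt E a (e m x)) v v)
      (fderiv ℝ (fun x => chartAt E a (e m x)) v w) = g.ip m v w

/-- the differential of the exponential map at `m` is injective everywhere -/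
def InjAt (E : Type) [NormedAddCommGroup E] [NormedSpace ℝ E] {M : Type} [TopologicalSpace M]
    [ChartedSpace E M] (e : M → E → M) (m : M) : Prop :=
  ∀ (v w : E) (a : M), e m v ∈ (chartAt E a).source →
    fderiv ℝ (fun x => chartAt E a (e m x)) v w = 0 → w = 0

/-- A priori bound for lifts of curves in a chart. -/
theorem IsExp.lift_bound (he : IsExp g e) {m : M} (hG : GaussAt g e m) (hI : InjAt E e m)
    {a : M} {x w : ℝ → E} {T C : ℝ} (hC0 : 0 ≤ C)
    (hx : ∀ t ∈ Icc 0 T, x t ∈ (chartAt E a).target)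
    (hxd : ∀ t ∈ Ioo 0 T, HasDerivAt x (w t) t)
    (hC : ∀ t ∈ Ioo 0 T, g.coef a (x t) (w t) (w t) ≤ C ^ 2)
    {Γ : ℝ → E} (hΓ : ContinuousOn Γ (Icc 0 T))
    (hl : ∀ t ∈ Icc 0 T, e m (Γ t) = (chartAt E a).symm (x t)) :
    ∀ t ∈ Icc 0 T, Real.sqrt (g.ip m (Γ t) (Γ t) + 1) ≤
      Real.sqrt (g.ip m (Γ 0) (Γ 0) + 1) + C * t := by
  have hipn : ∀ v, 0 ≤ g.ip m v v := nonneg_of_pos (g.ip_pos m)
  have hcontN : ContinuousOn (fun t => g.ip m (Γ t) (Γ t)) (Icc 0 T) := by fun_prop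
  have hcont : ContinuousOn (fun t => Real.sqrt (g.ip m (Γ t) (Γ t) + 1) - C * t)
      (Icc 0 T) := by fun_prop
  have hder : ∀ t ∈ Ioo 0 T, ∃ d ≤ 0, HasDerivAt
      (fun t => Real.sqrt (g.ip m (Γ t) (Γ t) + 1) - C * t) d t := by
    intro t ht
    have ht' : t ∈ Icc 0 T := Ioo_subset_Icc_self ht
    have hnb : Icc 0 T ∈ 𝓝 t := Icc_mem_nhds ht.1 ht.2
    have hct : ContinuousAt Γ t := hΓ.continuousAt hnb
    have hsrc : e m (Γ t) ∈ (chartAt E a).source := by
      rw [hl t ht']; exact (chartAt E a).map_target (hx t ht')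
    have hFx : ∀ s ∈ Icc 0 T, chartAt E a (e m (Γ s)) = x s := fun s hs => by
      rw [hl s hs, (chartAt E a).right_inv (hx s hs)]
    obtain ⟨c', hc', hc''⟩ := hasDerivAt_lift (he.smooth m (Γ t) a hsrc)
      (fun z hz => hI (Γ t) z a hsrc hz) hct
      (by filter_upwards [hnb] with s hs; exact hFx s hs) (hxd t ht)
    have hN : HasDerivAt (fun s => g.ip m (Γ s) (Γ s)) (g.ip m c' (Γ t) + g.ip m (Γ t) c') t := by
      have h1 : HasDerivAt (fun s => g.ip m (Γ s)) (g.ip m c') t :=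
        (g.ip m).hasFDerivAt.comp_hasDerivAt t hc'
      exact h1.clm_apply hc'
    have hN1 : 0 < g.ip m (Γ t) (Γ t) + 1 := by have := hipn (Γ t); linarith
    have hS : HasDerivAt (fun s => Real.sqrt (g.ip m (Γ s) (Γ s) + 1))
        ((g.ip m c' (Γ t) + g.ip m (Γ t) c') / (2 * Real.sqrt (g.ip m (Γ t) (Γ t) + 1))) t :=
      (hN.add_const 1).sqrt hN1.ne'
    refine ⟨_, ?_, hS.sub ((hasDerivAt_id t).const_mul C)⟩
    rw [g.ip_symm m c' (Γ t)]
    have hg1 := hG (Γ t) (Γ t) a hsrc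
    have hg2 := hG (Γ t) c' a hsrc
    rw [hc'', hFx t ht'] at hg2
    rw [hFx t ht'] at hg1
    have hcs := cs_form (g.coef a (x t)) (g.symm a _ (hx t ht'))
      (nonneg_of_pos (g.pos a _ (hx t ht')))
      (fderiv ℝ (fun x => chartAt E a (e m x)) (Γ t) (Γ t)) (w t)
    rw [hg1, hg2] at hcs
    have h2 : Real.sqrt (g.coef a (x t) (w t) (w t)) ≤ C := by
      rw [Real.sqrt_le_left hC0]; exact hC t ht
    have h3 : Real.sqrt (g.ip m (Γ t) (Γ t)) ≤ Real.sqrt (g.ip m (Γ t) (Γ t) + 1) :=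
      Real.sqrt_le_sqrt (by linarith)
    have h4 : 0 < Real.sqrt (g.ip m (Γ t) (Γ t) + 1) := Real.sqrt_pos.2 hN1
    have h5 : g.ip m (Γ t) c' ≤ Real.sqrt (g.ip m (Γ t) (Γ t) + 1) * C :=
      hcs.trans (mul_le_mul h3 h2 (Real.sqrt_nonneg _) h4.le)
    rw [mul_one, sub_nonpos, div_le_iff₀ (by linarith)]
    linarith
  have hanti : AntitoneOn (fun t => Real.sqrt (g.ip m (Γ t) (Γ t) + 1) - C * t) (Icc 0 T) := by
    apply antitoneOn_of_deriv_nonpos (convex_Icc _ _) hcont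
    · rw [interior_Icc]
      intro t ht
      obtain ⟨d, _, hd⟩ := hder t ht
      exact hd.differentiableAt.differentiableWithinAt
    · rw [interior_Icc]
      intro t ht
      obtain ⟨d, hd0, hd⟩ := hder t ht
      rw [hd.deriv]; exact hd0
  intro t ht
  have h0 : (0 : ℝ) ∈ Icc 0 T := ⟨le_rfl, ht.1.trans ht.2⟩
  have := hanti h0 ht ht.1
  simp only [mul_zero, sub_zero] at this
  linarith

/-- Segments in a chart lift. -/
theorem IsExp.lift_segment [T2Space M] (he : IsExp g e) {m : M} (hG : GaussAt g e m)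
    (hI : InjAt E e m) {a : M} {x₁ x₂ : E}
    (hx : ∀ t ∈ Icc (0 : ℝ) 1, x₁ + t • (x₂ - x₁) ∈ (chartAt E a).target) {v : E}
    (hv : e m v = (chartAt E a).symm x₁) :
    ∃ Γ, IsLiftOn (e m) (fun t : ℝ => (chartAt E a).symm (x₁ + t • (x₂ - x₁))) v 1 Γ := by
  have hcx : Continuous fun t : ℝ => x₁ + t • (x₂ - x₁) := by fun_prop
  have hcont : ContinuousOn (fun t : ℝ => g.coef a (x₁ + t • (x₂ - x₁)) (x₂ - x₁) (x₂ - x₁))
      (Icc 0 1) := by
    have h1 : ContinuousOn (fun t : ℝ => g.coef a (x₁ + t • (x₂ - x₁))) (Icc 0 1) :=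
      (g.smooth a).continuousOn.comp hcx.continuousOn hx
    fun_prop
  obtain ⟨C₀, hC₀⟩ := (isCompact_Icc (a := (0 : ℝ)) (b := 1)).exists_bound_of_continuousOn hcont
  set C := |C₀| + 1 with hCdef
  have hCpos : 0 ≤ C := by positivity
  have hCb : ∀ t ∈ Icc (0 : ℝ) 1,
      g.coef a (x₁ + t • (x₂ - x₁)) (x₂ - x₁) (x₂ - x₁) ≤ C ^ 2 := by
    intro t ht
    have h1 := hC₀ t ht
    rw [Real.norm_eq_abs] at h1
    have h2 := (le_abs_self _).trans h1
    have h3 : C₀ ≤ |C₀| := le_abs_self _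
    (by_contra nlg; linarith only [nlg, mul_nonneg (sub_nonneg.2 hCpos) (sub_nonneg.2 h3), mul_nonneg (sub_nonneg.2 hCpos) (sub_nonneg.2 h2), mul_nonneg (le_of_lt (sub_pos.2 (not_le.1 nlg))) (sub_nonneg.2 hCpos), mul_nonneg (sq_nonneg (C : ℝ)) (sub_nonneg.2 (abs_nonneg C₀)), abs_nonneg C₀])
  set R := (Real.sqrt (g.ip m v v + 1) + C) ^ 2 with hR
  refine exists_lift (he.isLocalHomeomorph m hI) ?_ ?_ (K := {u : E | g.ip m u u ≤ R})
    (isCompact_form (g.ip m) (g.ip_pos m) R) ?_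
  · exact (chartAt E a).continuousOn_symm.comp hcx.continuousOn hx
  · simp [hv]
  · intro T hT Γ hΓ t ht
    have hT' : Icc 0 T ⊆ Icc (0 : ℝ) 1 := Icc_subset_Icc_right hT.2
    have hb := he.lift_bound hG hI (T := T) hCpos (x := fun t => x₁ + t • (x₂ - x₁))
      (w := fun _ => x₂ - x₁)
      (fun t ht => hx t (hT' ht)) (fun t _ => by
        have := ((hasDerivAt_id t).smul_const (x₂ - x₁)).const_add x₁
        simpa using this)
      (fun t ht => hCb t (hT' (Ioo_subset_Icc_self ht))) hΓ.1 hΓ.2.1 t ht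
    rw [hΓ.2.2] at hb
    have ht1 : t ≤ 1 := ht.2.trans hT.2
    have h1 : Real.sqrt (g.ip m (Γ t) (Γ t) + 1) ≤ Real.sqrt (g.ip m v v + 1) + C := by
      linarith only [mul_nonneg (sub_nonneg.2 hCpos) (sub_nonneg.2 ht1), hb]
    have h2 := pow_le_pow_left₀ (Real.sqrt_nonneg _) h1 2
    rw [Real.sq_sqrt (by have := nonneg_of_pos (g.ip_pos m) (Γ t); linarith)] at h2
    change g.ip m (Γ t) (Γ t) ≤ R
    linarith

/-- The exponential map is a covering map. -/
theorem IsExp.isCoveringMap_of [T2Space M] (he : IsExp g e) {m : M} (hG : GaussAt g e m)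
    (hI : InjAt E e m) : IsCoveringMap (e m) := by
  apply isCoveringMap_of_lifts (he.isLocalHomeomorph m hI) (T2Space.isSeparatedMap _)
  intro x₀
  set φ := chartAt E x₀ with hφ
  obtain ⟨r, hr, hball⟩ := Metric.isOpen_iff.1 φ.open_target (φ x₀) (mem_chart_target E x₀)
  set B := Metric.ball (φ x₀) r with hB
  set U := φ.source ∩ φ ⁻¹' B with hU
  have hUo : IsOpen U := φ.isOpen_inter_preimage Metric.isOpen_ball
  have hx₀U : x₀ ∈ U := ⟨mem_chart_source E x₀, Metric.mem_ball_self hr⟩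
  have hcB : φ x₀ ∈ B := Metric.mem_ball_self hr
  have hseg : ∀ (y z : E), y ∈ B → z ∈ B → ∀ t ∈ Icc (0 : ℝ) 1, y + t • (z - y) ∈ B := by
    intro y z hy hz t ht
    exact (convex_ball (φ x₀) r).add_smul_sub_mem hy hz ht
  let H : I × U → M := fun q => φ.symm (φ x₀ + (q.1 : ℝ) • (φ q.2 - φ x₀))
  have hmem : ∀ q : I × U, φ x₀ + (q.1 : ℝ) • (φ q.2 - φ x₀) ∈ B := fun q =>
    hseg _ _ hcB q.2.2.2 _ q.1.2
  have hφU : Continuous fun u : U => φ u :=
    (φ.continuousOn.mono inter_subset_left).domRestrict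
  refine ⟨U, hUo, hx₀U, H, ?_, ?_, ?_, ?_, ?_, ?_⟩
  · have h1 : Continuous fun q : I × U => φ x₀ + (q.1 : ℝ) • (φ q.2 - φ x₀) :=
      continuous_const.add ((continuous_subtype_val.comp continuous_fst).smul
        ((hφU.comp continuous_snd).sub continuous_const))
    exact φ.continuousOn_symm.comp_continuous h1 fun q => hball (hmem q)
  · intro q
    refine ⟨φ.map_target (hball (hmem q)), ?_⟩
    change φ (H q) ∈ B
    rw [φ.right_inv (hball (hmem q))]
    exact hmem q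
  · intro u
    simp only [H, Icc.coe_zero, zero_smul, add_zero]
    exact φ.left_inv (mem_chart_source E x₀)
  · intro u
    simp only [H, Icc.coe_one, one_smul, add_sub_cancel]
    exact φ.left_inv u.2.1
  · intro u v hv
    obtain ⟨Γ, h1, h2, h3⟩ := he.lift_segment hG hI (m := m) (a := x₀) (x₁ := φ x₀) (x₂ := φ u)
      (fun t ht => hball (hseg _ _ hcB u.2.2 t ht)) (v := v) (by
        rw [hv]
        simp only [H, Icc.coe_zero, zero_smul, add_zero]
        rfl)
    refine ⟨fun t : I => Γ t, ?_, ?_, ?_⟩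
    · exact h1.comp_continuous continuous_subtype_val fun t => t.2
    · intro t
      exact h2 t t.2
    · exact h3
  · intro u v hv
    obtain ⟨Γ, h1, h2, h3⟩ := he.lift_segment hG hI (m := m) (a := x₀) (x₁ := φ u) (x₂ := φ x₀)
      (fun t ht => hball (hseg _ _ u.2.2 hcB t ht)) (v := v) (by
        rw [hv]
        simp only [H, unitInterval.symm_zero, Icc.coe_one, one_smul, add_sub_cancel]
        rfl)
    refine ⟨fun t : I => Γ t, ?_, ?_, ?_⟩
    · exact h1.comp_continuous continuous_subtype_val fun t => t.2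
    · intro t
      rw [h2 t t.2]
      simp only [H, unitInterval.coe_symm_eq]
      congr 1
      module
    · exact h3

omit [FiniteDimensional ℝ E] in
/-- translation of the time parameter of a geodesic -/
theorem IsGeodesic.comp_add {γ : ℝ → M} (h : IsGeodesic g γ) (s : ℝ) :
    IsGeodesic g (fun t => γ (s + t)) := by
  have hadd : Continuous fun t : ℝ => s + t := by fun_prop
  refine ⟨?_, ?_⟩
  · exact (h.cont.comp hadd.continuousOn fun _ _ => mem_univ _)
  · intro a t _ hsrc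
    obtain ⟨h1, h2, h3⟩ := h.eqn a (s + t) (mem_univ _) hsrc
    have e1 : cc (E := E) (fun t => γ (s + t)) a = fun t => cc (E := E) γ a (s + t) := rfl
    have e2 : deriv (fun t => cc (E := E) γ a (s + t)) = fun t => deriv (cc (E := E) γ a) (s + t) := by
      funext t
      exact deriv_comp_const_add _ s t
    rw [e1, e2]
    refine ⟨?_, ?_, ?_⟩
    · exact h1.comp t (by fun_prop : DifferentiableAt ℝ (fun t => s + t) t)
    · exact h2.comp t (by fun_prop : DifferentiableAt ℝ (fun t => s + t) t)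
    · exact (deriv_comp_const_add (deriv (cc (E := E) γ a)) s t).trans h3

omit [FiniteDimensional ℝ E] in
/-- speed of `t ↦ e q (t w)` in a chart -/
theorem IsExp.hasDerivAt_ray' (he : IsExp g e) (q : M) (w : E) (t : ℝ) (a : M)
    (ha : e q (t • w) ∈ (chartAt E a).source) :
    HasDerivAt (fun s : ℝ => chartAt E a (e q (s • w)))
      (fderiv ℝ (fun x => chartAt E a (e q x)) (t • w) w) t := by
  have h1 := ((he.smooth q (t • w) a ha).differentiableAt one_ne_zero).hasFDerivAt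
  have h2 : HasDerivAt (fun s : ℝ => s • w) ((1 : ℝ) • w) t := (hasDerivAt_id t).smul_const w
  have h3 := h1.comp_hasDerivAt t h2
  rw [one_smul] at h3
  exact h3

omit [FiniteDimensional ℝ E] in
theorem speed_of_gaussAt {q : M} (hG : GaussAt g e q) (w : E) (t : ℝ) (a : M)
    (ha : e q (t • w) ∈ (chartAt E a).source) (ht : t ≠ 0) :
    g.coef a (chartAt E a (e q (t • w))) (fderiv ℝ (fun x => chartAt E a (e q x)) (t • w) w)
      (fderiv ℝ (fun x => chartAt E a (e q x)) (t • w) w) = g.ip q w w := by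
  have h := hG (t • w) (t • w) a ha
  simp only [map_smul, smul_apply, smul_eq_mul] at h
  have ht2 : t * t ≠ 0 := mul_ne_zero ht ht
  apply mul_left_cancel₀ ht2
  linarith

omit [FiniteDimensional ℝ E] in
theorem IsExp.shift_of (he : IsExp g e) {m : M} (hG : GaussAt g e m) (u : E) (s : ℝ) :
    ∃ w, g.ip (e m (s • u)) w w = g.ip m u u ∧
      ∀ t : ℝ, e m ((s + t) • u) = e (e m (s • u)) (t • w) := by
  have hgeo : IsGeodesic g (fun t => e m ((s + t) • u)) :=
    IsGeodesic.comp_add (he.geod m u) s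
  have huniq := he.uniq _ hgeo
  simp only [add_zero] at huniq
  refine ⟨_, ?_, huniq⟩
  set p := e m (s • u) with hp
  have hsrc : e m (s • u) ∈ (chartAt E p).source := by rw [← hp]; exact mem_chart_source E p
  have hd : deriv (cc (E := E) (fun t => e m ((s + t) • u)) p) 0 =
      fderiv ℝ (fun x => chartAt E p (e m x)) (s • u) u := by
    have h1 := he.hasDerivAt_ray' m u s p hsrc
    have h2 : HasDerivAt (fun t : ℝ => chartAt E p (e m ((s + t) • u)))
        (fderiv ℝ (fun x => chartAt E p (e m x)) (s • u) u) 0 := by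
      have h3 : HasDerivAt (fun t : ℝ => chartAt E p (e m (t • u)))
        (fderiv ℝ (fun x => chartAt E p (e m x)) (s • u) u) (s + 0) := by rwa [add_zero]
      exact h3.comp_const_add s 0
    exact h2.deriv
  rw [hd]
  rcases eq_or_ne s 0 with hs | hs
  · have hpm : p = m := by rw [hp, hs, zero_smul, he.zero]
    have h1 : fderiv ℝ (fun x => chartAt E p (e m x)) (s • u) u = u := by
      rw [hpm]
      have h2 := he.hasDerivAt_ray' m u s m (by rw [← hp, hpm]; exact mem_chart_source E m)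
      have h3 := he.init m u
      rw [hs] at h2 ⊢
      exact h2.unique h3
    rw [h1, hpm]
  · have := speed_of_gaussAt hG u s p hsrc hs
    rw [← hp] at this
    exact this

/-- the comparison estimate at `m` -/
def RauchAt (g : Metric E M) (e : M → E → M) (m : M) : Prop :=
  ∀ (v w : E) (a : M), e m v ∈ (chartAt E a).source →
    g.ip m w w ≤ g.coef a (chartAt E a (e m v)) (fderiv ℝ (fun x => chartAt E a (e m x)) v w)
      (fderiv ℝ (fun x => chartAt E a (e m x)) v w)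

omit [FiniteDimensional ℝ E] in
theorem RauchAt.injAt {m : M} (h : RauchAt g e m) : InjAt E e m := by
  intro v w a ha h0
  by_contra hw
  have h1 := h v w a ha
  rw [h0] at h1
  simp only [map_zero] at h1
  exact absurd (g.ip_pos m w hw) (not_lt.2 h1)

theorem IsExp.compare_of (he : IsExp g e) {m q : M} (hR : RauchAt g e m)
    (hGq : GaussAt g e q) (w : E) (c : ℝ → E) (hc : ContinuousOn c (Icc 0 1))
    (h : ∀ t ∈ Icc (0 : ℝ) 1, e m (c t) = e q (t • w)) :
    g.ip m (c 1 - c 0) (c 1 - c 0) ≤ g.ip q w w := by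
  set l := c 1 - c 0 with hl
  have hipn : ∀ v, 0 ≤ g.ip m v v := nonneg_of_pos (g.ip_pos m)
  set A := Real.sqrt (g.ip m l l) * Real.sqrt (g.ip q w w) with hA
  have hcont : ContinuousOn (fun t => g.ip m l (c t) - A * t) (Icc 0 1) := by fun_prop
  have hder : ∀ t ∈ Ioo (0 : ℝ) 1, ∃ d ≤ 0, HasDerivAt (fun t => g.ip m l (c t) - A * t) d t := by
    intro t ht
    have ht' : t ∈ Icc (0 : ℝ) 1 := Ioo_subset_Icc_self ht
    have hnb : Icc (0 : ℝ) 1 ∈ 𝓝 t := Icc_mem_nhds ht.1 ht.2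
    have hct : ContinuousAt c t := hc.continuousAt hnb
    set a := e q (t • w) with ha
    have hsrcq : e q (t • w) ∈ (chartAt E a).source := by rw [← ha]; exact mem_chart_source E a
    have hsrcm : e m (c t) ∈ (chartAt E a).source := by rw [h t ht']; exact hsrcq
    obtain ⟨c', hc', hc''⟩ := hasDerivAt_lift (he.smooth m (c t) a hsrcm)
      (fun z hz => hR.injAt (c t) z a hsrcm hz) hct
      (x := fun s => chartAt E a (e q (s • w)))
      (by filter_upwards [hnb] with s hs; rw [h s hs]) (he.hasDerivAt_ray' q w t a hsrcq)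
    have hr := hR (c t) c' a hsrcm
    rw [hc'', h t ht', ← ha] at hr
    have hsp := speed_of_gaussAt hGq w t a hsrcq ht.1.ne'
    rw [← ha] at hsp
    rw [hsp] at hr
    have hS : HasDerivAt (fun s => g.ip m l (c s)) (g.ip m l c') t :=
      (g.ip m l).hasFDerivAt.comp_hasDerivAt t hc'
    refine ⟨_, ?_, hS.sub ((hasDerivAt_id t).const_mul A)⟩
    rw [mul_one, sub_nonpos]
    exact (cs_form (g.ip m) (g.ip_symm m) hipn l c').trans
      (mul_le_mul_of_nonneg_left (Real.sqrt_le_sqrt hr) (Real.sqrt_nonneg _))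
  have hanti : AntitoneOn (fun t => g.ip m l (c t) - A * t) (Icc 0 1) := by
    apply antitoneOn_of_deriv_nonpos (convex_Icc _ _) hcont
    · rw [interior_Icc]
      intro t ht
      obtain ⟨d, _, hd⟩ := hder t ht
      exact hd.differentiableAt.differentiableWithinAt
    · rw [interior_Icc]
      intro t ht
      obtain ⟨d, hd0, hd⟩ := hder t ht
      rw [hd.deriv]; exact hd0
  have h1 := hanti (left_mem_Icc.2 zero_le_one) (right_mem_Icc.2 zero_le_one) zero_le_one
  simp only [mul_zero, sub_zero, mul_one] at h1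
  have h2 : g.ip m l l ≤ A := by
    have : g.ip m l l = g.ip m l (c 1) - g.ip m l (c 0) := by rw [← map_sub, ← hl]
    linarith
  rcases (hipn l).eq_or_lt with h0 | h0
  · rw [← h0]; exact nonneg_of_pos (g.ip_pos q) w
  · have h3 : 0 < Real.sqrt (g.ip m l l) := Real.sqrt_pos.2 h0
    have h4 : Real.sqrt (g.ip m l l) * Real.sqrt (g.ip m l l) ≤ A := by
      rw [Real.mul_self_sqrt h0.le]; exact h2
    have h5 := le_of_mul_le_mul_left h4 h3
    exact (Real.sqrt_le_sqrt_iff (nonneg_of_pos (g.ip_pos q) w)).1 h5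

end Exp

end Vale.Agent.P255
end
end
end

section

section

/-!
Abstract half of the argument that the manifold of P255 carries no metric of nonpositive
curvature: a group acting properly and cocompactly by isometries on a space satisfying
the midpoint inequality of Bruhat and Tits cannot contain a certain configuration of
commuting elements and commutators.
-/

namespace Vale.Agent.P255

open Filter Topology

/-- `CNAct d` collects what is used about the action of `Γ` on `X`: the function `d` is a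
pseudometric invariant under `Γ`, midpoints satisfy the Bruhat-Tits inequality, the quotient
is (sequentially) compact and the action is proper. -/
structure CNAct (Γ X : Type*) [Group Γ] [MulAction Γ X] (d : X → X → ℝ) : Prop where
  nonneg : ∀ x y, 0 ≤ d x y
  self : ∀ x, d x x = 0
  symm : ∀ x y, d x y = d y x
  tri : ∀ x y z, d x z ≤ d x y + d y z
  inv : ∀ (g : Γ) (x y : X), d (g • x) (g • y) = d x y
  cn : ∀ y z : X, ∃ m : X, ∀ x : X,
    d x m ^ 2 ≤ (d x y ^ 2 + d x z ^ 2) / 2 - d y z ^ 2 / 4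
  cocompact : ∀ x : ℕ → X, ∃ (g : ℕ → Γ) (y : X) (φ : ℕ → ℕ), StrictMono φ ∧
    Tendsto (fun n => d (g n • x (φ n)) y) atTop (𝓝 0)
  proper : ∀ (y : X) (R : ℝ), {g : Γ | d y (g • y) ≤ R}.Finite

variable {Γ X : Type*} [Group Γ] [MulAction Γ X] {d : X → X → ℝ}

/-- Minimal displacement. -/
noncomputable def tau (d : X → X → ℝ) (g : Γ) : ℝ := ⨅ x : X, d x (g • x)

namespace CNAct

/-- The quadrilateral inequality. -/
lemma quad (h : CNAct Γ X d) (p q r s : X) :
    d p r ^ 2 + d q s ^ 2 ≤ d p q ^ 2 + d q r ^ 2 + d r s ^ 2 + d s p ^ 2 := by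
  obtain ⟨m, hm⟩ := h.cn q s
  have h1 := hm p
  have h2 := hm r
  have h3 := h.tri p m r
  have h4 := h.symm m r
  have h5 := h.nonneg p m
  have h6 := h.nonneg r m
  have h7 := h.nonneg p r
  have h8 : d p r ^ 2 ≤ (d p m + d r m) ^ 2 := by
    rw [h4] at h3
    exact pow_le_pow_left₀ h7 h3 2
  have h9 : (d p m + d r m) ^ 2 ≤ 2 * d p m ^ 2 + 2 * d r m ^ 2 := by
    linarith only [sq_nonneg (d p m - d r m)]
  rw [h.symm q r, h.symm s p]
  linarith only [h9, h8, h2, h1]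

/-- Moving to a midpoint of `x` and `g x` at least halves the displacement of `g ^ 2`. -/
lemma exists_half (h : CNAct Γ X d) (g : Γ) (x : X) :
    ∃ m : X, 2 * d m (g • m) ≤ d x ((g ^ 2) • x) := by
  obtain ⟨m, hm⟩ := h.cn x (g • x)
  refine ⟨m, ?_⟩
  have e1 : (g ^ 2) • x = g • g • x := by rw [pow_two, mul_smul]
  have h1 := hm (g⁻¹ • m)
  have a1 : d (g⁻¹ • m) m = d m (g • m) := by
    rw [← h.inv g (g⁻¹ • m) m, smul_inv_smul]
  have a2 : d (g⁻¹ • m) x = d m (g • x) := by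
    rw [← h.inv g (g⁻¹ • m) x, smul_inv_smul]
  have a3 : d (g⁻¹ • m) (g • x) = d m (g • g • x) := by
    rw [← h.inv g (g⁻¹ • m) (g • x), smul_inv_smul]
  rw [a1, a2, a3] at h1
  have h2 := hm (g • x)
  rw [h.self (g • x)] at h2
  have h3 := hm (g • g • x)
  rw [h.inv g (g • x) x] at h3
  rw [h.symm m (g • x), h.symm m (g • g • x)] at h1
  rw [h.symm (g • x) x] at h2 h3
  rw [e1, h.symm x (g • g • x)]
  have h4 : (2 * d m (g • m)) ^ 2 ≤ d (g • g • x) x ^ 2 := by linarith only [h3, h2, h1]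
  exact abs_le_of_sq_le_sq' h4 (h.nonneg _ _) |>.2

lemma bdd (h : CNAct Γ X d) (g : Γ) : BddBelow (Set.range fun x : X => d x (g • x)) :=
  ⟨0, by rintro _ ⟨x, rfl⟩; exact h.nonneg _ _⟩

lemma tau_le (h : CNAct Γ X d) (g : Γ) (x : X) : tau d g ≤ d x (g • x) :=
  ciInf_le (h.bdd g) x

lemma tau_nonneg (h : CNAct Γ X d) (g : Γ) : 0 ≤ tau d g :=
  Real.iInf_nonneg fun _ => h.nonneg _ _

/-- The displacement of `g` attains its minimum. -/
lemma exists_min (h : CNAct Γ X d) [Nonempty X] (g : Γ) :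
    ∃ x₀ : X, d x₀ (g • x₀) = tau d g := by
  -- a minimizing sequence
  have hseq : ∀ n : ℕ, ∃ x : X, d x (g • x) < tau d g + 1 / ((n : ℝ) + 1) := by
    intro n
    have : tau d g < tau d g + 1 / ((n : ℝ) + 1) := by
      have : (0 : ℝ) < 1 / ((n : ℝ) + 1) := by positivity
      linarith
    exact exists_lt_of_ciInf_lt this
  choose x hx using hseq
  obtain ⟨γ, y, φ, hφ, hlim⟩ := h.cocompact x
  -- conjugated elements
  set k : ℕ → Γ := fun n => γ n * g * (γ n)⁻¹ with hk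
  have hval : ∀ n, d y (k n • y) = d ((γ n)⁻¹ • y) (g • (γ n)⁻¹ • y) := by
    intro n
    rw [← h.inv (γ n) ((γ n)⁻¹ • y), smul_inv_smul]
    simp only [hk, mul_smul]
  have hge : ∀ n, tau d g ≤ d y (k n • y) := fun n => by
    rw [hval]; exact h.tau_le g _
  have hle : ∀ n, d y (k n • y) ≤ 2 * d (γ n • x (φ n)) y + (tau d g + 1 / ((φ n : ℝ) + 1)) := by
    intro n
    have t1 := h.tri y (γ n • x (φ n)) (k n • y)
    have t2 := h.tri (γ n • x (φ n)) (k n • (γ n • x (φ n))) (k n • y)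
    rw [h.inv] at t2
    have t3 : d (γ n • x (φ n)) (k n • (γ n • x (φ n))) = d (x (φ n)) (g • x (φ n)) := by
      simp only [hk, mul_smul, inv_smul_smul]
      rw [h.inv]
    have t4 := (hx (φ n)).le
    rw [h.symm y (γ n • x (φ n))] at t1
    linarith only [t4, t3, t2, t1]
  by_contra hcon
  push Not at hcon
  have hgt : ∀ n, tau d g < d y (k n • y) := by
    intro n
    refine lt_of_le_of_ne (hge n) ?_
    intro he
    refine hcon ((γ n)⁻¹ • y) ?_
    rw [← hval, ← he]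
  -- upper bound tends to tau
  have hub : Tendsto (fun n => 2 * d (γ n • x (φ n)) y + (tau d g + 1 / ((φ n : ℝ) + 1)))
      atTop (𝓝 (tau d g)) := by
    have h1 : Tendsto (fun n => 1 / ((φ n : ℝ) + 1)) atTop (𝓝 0) :=
      tendsto_one_div_add_atTop_nhds_zero_nat.comp hφ.tendsto_atTop
    have h2 := ((hlim.const_mul 2).add ((tendsto_const_nhds (x := tau d g)).add h1))
    simpa using h2
  have hfin := h.proper y (tau d g + 1)
  have hfin2 : {e : Γ | d y (e • y) ≤ tau d g + 1 ∧ tau d g < d y (e • y)}.Finite :=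
    hfin.subset fun e he => he.1
  obtain ⟨N, hN⟩ := (hub.eventually (gt_mem_nhds (show tau d g < tau d g + 1 by linarith))).exists
  have hmemN : k N ∈ {e : Γ | d y (e • y) ≤ tau d g + 1 ∧ tau d g < d y (e • y)} :=
    ⟨(hle N).trans hN.le, hgt N⟩
  obtain ⟨e, he, hmin⟩ := Set.exists_min_image _ (fun e : Γ => d y (e • y)) hfin2 ⟨_, hmemN⟩
  obtain ⟨M, hM1, hM2⟩ := ((hub.eventually (gt_mem_nhds he.2)).and
    (hub.eventually (gt_mem_nhds (show tau d g < tau d g + 1 by linarith)))).exists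
  have hmemM : k M ∈ {e : Γ | d y (e • y) ≤ tau d g + 1 ∧ tau d g < d y (e • y)} :=
    ⟨(hle M).trans hM2.le, hgt M⟩
  have := hmin _ hmemM
  have h5 := hle M
  linarith only [h5, this, hM1]

lemma pow_le (h : CNAct Γ X d) (g : Γ) (x : X) (n : ℕ) :
    d x ((g ^ n) • x) ≤ n * d x (g • x) := by
  induction n with
  | zero => simp [h.self]
  | succ n ih =>
    have h1 := h.tri x ((g ^ n) • x) ((g ^ (n + 1)) • x)
    have h2 : d ((g ^ n) • x) ((g ^ (n + 1)) • x) = d x (g • x) := by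
      rw [pow_succ, mul_smul, h.inv]
    rw [h2] at h1
    push_cast
    linarith

lemma two_pow_le (h : CNAct Γ X d) (k : ℕ) (g : Γ) (c : ℝ) (hc : ∀ x : X, c ≤ d x (g • x))
    (x : X) : 2 ^ k * c ≤ d x ((g ^ (2 ^ k)) • x) := by
  induction k generalizing x with
  | zero => simpa using hc x
  | succ k ih =>
    obtain ⟨m, hm⟩ := h.exists_half (g ^ (2 ^ k)) x
    have h1 := ih m
    rw [← pow_mul, ← pow_succ] at hm
    have : (2 : ℝ) ^ (k + 1) * c = 2 * (2 ^ k * c) := by ring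
    rw [this]
    linarith

/-- Along a point of minimal displacement the orbit is linear. -/
lemma min_pow (h : CNAct Γ X d) (g : Γ) (x₀ : X) (h0 : d x₀ (g • x₀) = tau d g) (n : ℕ) :
    d x₀ ((g ^ n) • x₀) = n * tau d g := by
  apply le_antisymm
  · have := h.pow_le g x₀ n
    rwa [h0] at this
  · have hn : n ≤ 2 ^ n := Nat.lt_two_pow_self.le
    have h1 := h.two_pow_le n g (tau d g) (h.tau_le g) x₀
    have h2 := h.tri x₀ ((g ^ n) • x₀) ((g ^ (2 ^ n)) • x₀)
    have h3 : d ((g ^ n) • x₀) ((g ^ (2 ^ n)) • x₀) = d x₀ ((g ^ (2 ^ n - n)) • x₀) := by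
      have : g ^ (2 ^ n) = g ^ n * g ^ (2 ^ n - n) := by
        rw [← pow_add]; congr 1; omega
      rw [this, mul_smul, h.inv]
    have h4 := h.pow_le g x₀ (2 ^ n - n)
    rw [h0, Nat.cast_sub hn] at h4
    push_cast at h4
    rw [h3] at h2
    linarith only [h4, h2, h1]

/-- Displacements of powers grow linearly with slope `tau`, up to a bounded error. -/
lemma pow_bound (h : CNAct Γ X d) [Nonempty X] (g : Γ) (x y : X) :
    ∃ C : ℝ, 0 ≤ C ∧ ∀ n : ℕ, |d x ((g ^ n) • y) - n * tau d g| ≤ C := by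
  obtain ⟨x₀, h0⟩ := h.exists_min g
  refine ⟨d x x₀ + d y x₀, add_nonneg (h.nonneg _ _) (h.nonneg _ _), fun n => ?_⟩
  have h1 := h.min_pow g x₀ h0 n
  have h2 := h.tri x x₀ ((g ^ n) • y)
  have h3 := h.tri x₀ ((g ^ n) • x₀) ((g ^ n) • y)
  have h4 := h.tri x₀ x ((g ^ n) • x₀)
  have h5 := h.tri x ((g ^ n) • y) ((g ^ n) • x₀)
  rw [h.inv] at h3 h5
  rw [h.symm x₀ y] at h3
  rw [h.symm x₀ x] at h4
  rw [abs_le]
  constructor <;> linarith

lemma tendsto_div (h : CNAct Γ X d) [Nonempty X] (g : Γ) (x : X) :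
    Tendsto (fun n : ℕ => d x ((g ^ n) • x) / n) atTop (𝓝 (tau d g)) := by
  obtain ⟨C, hC0, hC⟩ := h.pow_bound g x x
  have h1 : Tendsto (fun n : ℕ => C / (n : ℝ)) atTop (𝓝 0) :=
    tendsto_const_div_atTop_nhds_zero_nat C
  rw [tendsto_iff_norm_sub_tendsto_zero]
  refine squeeze_zero' (Eventually.of_forall fun _ => norm_nonneg _) ?_ h1
  filter_upwards [eventually_gt_atTop 0] with n hn
  have hn' : (0 : ℝ) < n := by exact_mod_cast hn
  rw [Real.norm_eq_abs, le_div_iff₀ hn', ← abs_of_pos hn', ← abs_mul, abs_of_pos hn']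
  have : (d x ((g ^ n) • x) / n - tau d g) * n = d x ((g ^ n) • x) - n * tau d g := by
    field_simp
  rw [this]
  exact hC n

lemma tau_inv (h : CNAct Γ X d) (g : Γ) : tau d g⁻¹ = tau d g := by
  unfold tau
  have key : ∀ x : X, d x (g⁻¹ • x) = d x (g • x) := by
    intro x
    rw [← h.inv g x, smul_inv_smul, h.symm]
  exact congrArg _ (funext key)

lemma tau_sq (h : CNAct Γ X d) [Nonempty X] (g : Γ) : tau d (g ^ 2) = 2 * tau d g := by
  obtain ⟨x₀, h0⟩ := h.exists_min g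
  have h1 := h.tendsto_div (g ^ 2) x₀
  have h2 := h.tendsto_div g x₀
  have h3 : Tendsto (fun n : ℕ => 2 * n) atTop atTop :=
    tendsto_id.const_mul_atTop' (by norm_num)
  have h4 := (h2.comp h3).const_mul 2
  refine tendsto_nhds_unique h1 (h4.congr' ?_)
  filter_upwards [eventually_gt_atTop 0] with n hn
  have hn' : (0 : ℝ) < n := by exact_mod_cast hn
  simp only [Function.comp]
  rw [pow_mul]
  push_cast
  field_simp

lemma par_le (h : CNAct Γ X d) [Nonempty X] {u v : Γ} (huv : Commute u v) :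
    tau d (u * v) ^ 2 + tau d (u * v⁻¹) ^ 2 ≤ 2 * tau d u ^ 2 + 2 * tau d v ^ 2 := by
  obtain ⟨x⟩ := ‹Nonempty X›
  have t1 := (h.tendsto_div (u * v) x).pow 2
  have t2 := (h.tendsto_div (u * v⁻¹) x).pow 2
  have t3 := ((h.tendsto_div u x).pow 2).const_mul 2
  have t4 := ((h.tendsto_div v x).pow 2).const_mul 2
  refine le_of_tendsto_of_tendsto (t1.add t2) (t3.add t4) ?_
  filter_upwards [eventually_gt_atTop 0] with n hn
  have hn' : (0 : ℝ) < n := by exact_mod_cast hn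
  have hq := h.quad x ((u ^ n) • x) ((u * v) ^ n • x) ((v ^ n) • x)
  have e1 : d ((u ^ n) • x) ((v ^ n) • x) = d x (((u * v⁻¹) ^ n) • x) := by
    rw [huv.inv_right.mul_pow, (huv.inv_right.pow_pow n n).eq, mul_smul, inv_pow,
      ← h.inv (v ^ n) x, smul_inv_smul, h.symm]
  have e2 : d ((u ^ n) • x) ((u * v) ^ n • x) = d x ((v ^ n) • x) := by
    rw [huv.mul_pow, mul_smul, h.inv]
  have e3 : d ((u * v) ^ n • x) ((v ^ n) • x) = d x ((u ^ n) • x) := by
    rw [huv.mul_pow, (huv.pow_pow n n).eq, mul_smul, h.inv, h.symm]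
  rw [e1, e2, e3, h.symm ((v ^ n) • x) x] at hq
  have : ∀ a : ℝ, (a / n) ^ 2 = a ^ 2 / (n : ℝ) ^ 2 := fun a => div_pow _ _ _
  simp only [this]
  rw [← add_div, ← mul_div_assoc, ← mul_div_assoc, ← add_div]
  apply div_le_div_of_nonneg_right _ (by positivity)
  linarith only [hq]

lemma par_eq (h : CNAct Γ X d) [Nonempty X] {u v : Γ} (huv : Commute u v) :
    tau d (u * v) ^ 2 + tau d (u * v⁻¹) ^ 2 = 2 * tau d u ^ 2 + 2 * tau d v ^ 2 := by
  apply le_antisymm (h.par_le huv)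
  have hc : Commute (u * v) (u * v⁻¹) := by
    have h1 : Commute u (u * v⁻¹) := (Commute.refl u).mul_right huv.inv_right
    have h2 : Commute v (u * v⁻¹) := huv.symm.mul_right (Commute.refl v).inv_right
    exact h1.mul_left h2
  have h1 := h.par_le hc
  have e1 : (u * v) * (u * v⁻¹) = u ^ 2 := by
    rw [pow_two, mul_assoc u v, ← mul_assoc v u, huv.symm.eq, mul_assoc u v,
      mul_inv_cancel, mul_one]
  have e2 : (u * v) * (u * v⁻¹)⁻¹ = v ^ 2 := by
    rw [mul_inv_rev, inv_inv, mul_assoc, ← mul_assoc v v, ← pow_two,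
      (huv.symm.pow_left 2).inv_right.eq, mul_inv_cancel_left]
  rw [e1, e2, h.tau_sq, h.tau_sq] at h1
  linarith only [h1]

/-- The polarization of `tau ^ 2`. -/
lemma tau_pow_mul (h : CNAct Γ X d) [Nonempty X] {u c : Γ} (huc : Commute u c) (n : ℕ) :
    tau d (u ^ n * c) ^ 2 = n ^ 2 * tau d u ^ 2 +
      n * (tau d (u * c) ^ 2 - tau d u ^ 2 - tau d c ^ 2) + tau d c ^ 2 := by
  induction n using Nat.strong_induction_on with
  | _ n ih =>
    match n, ih with
    | 0, _ => simp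
    | 1, _ => simp only [pow_one, Nat.cast_one]; ring
    | n + 2, ih =>
      have h1 := ih n (by omega)
      have h2 := ih (n + 1) (by omega)
      have hc : Commute (u ^ (n + 1) * c) u :=
        ((Commute.refl u).pow_left (n + 1)).mul_left huc.symm
      have h3 := h.par_eq hc
      have e1 : u ^ (n + 1) * c * u = u ^ (n + 2) * c := by
        rw [hc.eq, ← mul_assoc, ← pow_succ']
      have e2 : u ^ (n + 1) * c * u⁻¹ = u ^ n * c := by
        rw [hc.inv_right.eq, ← mul_assoc, pow_succ' u n, inv_mul_cancel_left]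
      rw [e1, e2] at h3
      push_cast at h2 ⊢
      nlinarith

/-- Asymptotic rays in the direction of `g` have the same Busemann function. -/
lemma tendsto_cross (h : CNAct Γ X d) [Nonempty X] {g : Γ} (hg : 0 < tau d g)
    (y y' x x' : X) :
    Tendsto (fun n : ℕ => (d y ((g ^ n) • x) - d y ((g ^ n) • x')) -
      (d y' ((g ^ n) • x) - d y' ((g ^ n) • x'))) atTop (𝓝 0) := by
  obtain ⟨C1, hC10, hC1⟩ := h.pow_bound g y x
  set K : ℝ := d y y' ^ 2 + d x x' ^ 2 + 2 * d x x' * d y y' with hK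
  have hlin : Tendsto (fun n : ℕ => n * tau d g - C1) atTop atTop := by
    apply tendsto_atTop_add_const_right
    exact tendsto_natCast_atTop_atTop.atTop_mul_const hg
  have hz : Tendsto (fun n : ℕ => K / (n * tau d g - C1)) atTop (𝓝 0) :=
    hlin.const_div_atTop K
  rw [tendsto_zero_iff_norm_tendsto_zero]
  refine squeeze_zero' (Eventually.of_forall fun _ => norm_nonneg _) ?_ hz
  filter_upwards [hlin.eventually_gt_atTop 0] with n hn
  rw [Real.norm_eq_abs, le_div_iff₀ hn]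
  set p := d y ((g ^ n) • x)
  set q := d y ((g ^ n) • x')
  set r := d y' ((g ^ n) • x)
  set s := d y' ((g ^ n) • x')
  have hp0 : 0 ≤ p := h.nonneg _ _
  have hq0 : 0 ≤ q := h.nonneg _ _
  have hr0 : 0 ≤ r := h.nonneg _ _
  have hs0 : 0 ≤ s := h.nonneg _ _
  have hxx0 : 0 ≤ d x x' := h.nonneg _ _
  have hyy0 : 0 ≤ d y y' := h.nonneg _ _
  have hp : n * tau d g - C1 ≤ p := by
    have := (abs_le.1 (hC1 n)).1
    linarith
  -- quadrilateral inequalities
  have q1 := h.quad y y' ((g ^ n) • x) ((g ^ n) • x')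
  have q2 := h.quad y y' ((g ^ n) • x') ((g ^ n) • x)
  rw [h.inv] at q1 q2
  rw [h.symm ((g ^ n) • x') y] at q1
  rw [h.symm ((g ^ n) • x) y, h.symm x' x] at q2
  change p ^ 2 + s ^ 2 ≤ d y y' ^ 2 + r ^ 2 + d x x' ^ 2 + q ^ 2 at q1
  change q ^ 2 + r ^ 2 ≤ d y y' ^ 2 + s ^ 2 + d x x' ^ 2 + p ^ 2 at q2
  -- bounded differences
  have b1 : |r - s| ≤ d x x' := by
    have t1 := h.tri y' ((g ^ n) • x) ((g ^ n) • x')
    have t2 := h.tri y' ((g ^ n) • x') ((g ^ n) • x)
    rw [h.inv] at t1 t2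
    rw [h.symm x' x] at t2
    rw [abs_le]; constructor <;> linarith
  have b2 : |p - r| ≤ d y y' := by
    have t1 := h.tri y y' ((g ^ n) • x)
    have t2 := h.tri y' y ((g ^ n) • x)
    rw [h.symm y' y] at t2
    rw [abs_le]; constructor <;> linarith
  have b3 : |q - s| ≤ d y y' := by
    have t1 := h.tri y y' ((g ^ n) • x')
    have t2 := h.tri y' y ((g ^ n) • x')
    rw [h.symm y' y] at t2
    rw [abs_le]; constructor <;> linarith
  have key : (p - q - (r - s)) * (p + q) =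
      (p ^ 2 + s ^ 2 - q ^ 2 - r ^ 2) - (r - s) * ((p - r) + (q - s)) := by ring
  have b4 : |(r - s) * ((p - r) + (q - s))| ≤ d x x' * (2 * d y y') := by
    rw [abs_mul]
    have : |p - r + (q - s)| ≤ 2 * d y y' := by
      calc |p - r + (q - s)| ≤ |p - r| + |q - s| := abs_add_le _ _
        _ ≤ 2 * d y y' := by linarith
    exact mul_le_mul b1 this (abs_nonneg _) hxx0
  have b5 : |p ^ 2 + s ^ 2 - q ^ 2 - r ^ 2| ≤ d y y' ^ 2 + d x x' ^ 2 := by
    rw [abs_le]; constructor <;> linarith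
  have b6 : |(p - q - (r - s)) * (p + q)| ≤ K := by
    rw [key]
    calc |(p ^ 2 + s ^ 2 - q ^ 2 - r ^ 2) - (r - s) * ((p - r) + (q - s))|
        ≤ |p ^ 2 + s ^ 2 - q ^ 2 - r ^ 2| + |(r - s) * ((p - r) + (q - s))| := abs_sub _ _
      _ ≤ K := by rw [hK]; linarith
  rw [abs_mul, abs_of_nonneg (by linarith : 0 ≤ p + q)] at b6
  calc |p - q - (r - s)| * (n * tau d g - C1) ≤ |p - q - (r - s)| * (p + q) :=
        mul_le_mul_of_nonneg_left (by linarith) (abs_nonneg _)
    _ ≤ K := b6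

/-- The Busemann quasi-cocycle of the centralizer of `g`. -/
lemma tendsto_add (h : CNAct Γ X d) [Nonempty X] {g : Γ} (hg : 0 < tau d g) (x : X)
    {u : Γ} (v : Γ) (hu : Commute g u) :
    Tendsto (fun n : ℕ => (d x ((g ^ n) • (u * v) • x) - d x ((g ^ n) • x)) -
      (d x ((g ^ n) • u • x) - d x ((g ^ n) • x)) -
      (d x ((g ^ n) • v • x) - d x ((g ^ n) • x))) atTop (𝓝 0) := by
  have h1 := h.tendsto_cross hg (u⁻¹ • x) x (v • x) x
  refine h1.congr fun n => ?_
  have e : ∀ z : X, d x ((g ^ n) • u • z) = d (u⁻¹ • x) ((g ^ n) • z) := by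
    intro z
    rw [← h.inv u (u⁻¹ • x), smul_inv_smul, smul_smul, smul_smul, (hu.pow_left n).eq]
  rw [mul_smul, e, e]
  ring

lemma tendsto_comm (h : CNAct Γ X d) [Nonempty X] {g : Γ} (hg : 0 < tau d g) (x : X)
    {a b : Γ} (ha : Commute g a) (hb : Commute g b) :
    Tendsto (fun n : ℕ => d x ((g ^ n) • (a * b * a⁻¹ * b⁻¹) • x) - d x ((g ^ n) • x))
      atTop (𝓝 0) := by
  have h1 := h.tendsto_add hg x b ha
  have h2 := h.tendsto_add hg x a hb
  have hc : Commute g (a * b * a⁻¹ * b⁻¹) :=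
    ((ha.mul_right hb).mul_right ha.inv_right).mul_right hb.inv_right
  have h3 := h.tendsto_add hg x (b * a) hc
  have e : a * b * a⁻¹ * b⁻¹ * (b * a) = a * b := by group
  rw [e] at h3
  have h4 := (h1.sub h2).sub h3
  simp only [sub_zero] at h4
  refine h4.congr fun n => ?_
  ring

lemma cross_nonpos (h : CNAct Γ X d) [Nonempty X] {g c : Γ} (hc : Commute g c)
    {x₀ : X} (h0 : d x₀ (g • x₀) = tau d g)
    (hlim : Tendsto (fun n : ℕ => d x₀ ((g ^ n) • c • x₀) - d x₀ ((g ^ n) • x₀))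
      atTop (𝓝 0)) :
    tau d (g * c) ^ 2 ≤ tau d g ^ 2 + tau d c ^ 2 := by
  set Q := tau d (g * c) ^ 2 - tau d g ^ 2 - tau d c ^ 2 with hQ
  suffices hs : Q ≤ 0 by linarith
  have hlim2 : Tendsto (fun n : ℕ => 2 * tau d g *
      (d x₀ ((g ^ n) • c • x₀) - d x₀ ((g ^ n) • x₀)) +
      (d x₀ ((g ^ n) • c • x₀) - d x₀ ((g ^ n) • x₀)) ^ 2 * (n : ℝ)⁻¹) atTop (𝓝 0) := by
    have t1 := hlim.const_mul (2 * tau d g)
    have t2 := (hlim.pow 2).mul (tendsto_inv_atTop_nhds_zero_nat (𝕜 := ℝ))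
    simpa using t1.add t2
  refine ge_of_tendsto hlim2 ?_
  filter_upwards [eventually_gt_atTop 0] with n hn
  have hn' : (0 : ℝ) < n := by exact_mod_cast hn
  set B := d x₀ ((g ^ n) • c • x₀) - d x₀ ((g ^ n) • x₀) with hB
  have h1 := h.tau_le (g ^ n * c) x₀
  have h2 := h.min_pow g x₀ h0 n
  have h3 := h.tau_pow_mul hc n
  rw [mul_smul] at h1
  have h4 : tau d (g ^ n * c) ≤ n * tau d g + B := by rw [hB, h2]; linarith
  have h5 : tau d (g ^ n * c) ^ 2 ≤ (n * tau d g + B) ^ 2 :=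
    pow_le_pow_left₀ (h.tau_nonneg _) h4 2
  rw [h3, ← hQ] at h5
  have h6 : (n : ℝ) * Q ≤ n * (2 * tau d g * B) + B ^ 2 := by
    linarith only [sq_nonneg (tau d c), h5]
  have h7 : n * (2 * tau d g * B + B ^ 2 * (n : ℝ)⁻¹) = n * (2 * tau d g * B) + B ^ 2 := by
    field_simp
  rw [← h7] at h6
  exact le_of_mul_le_mul_left h6 hn'

/-- If `a` and `b` commute with `g` then `g` is orthogonal to the commutator of `a`, `b`. -/
lemma orth (h : CNAct Γ X d) [Nonempty X] {g a b : Γ} (ha : Commute g a)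
    (hb : Commute g b) :
    tau d (g * (a * b * a⁻¹ * b⁻¹)) ^ 2 = tau d g ^ 2 + tau d (a * b * a⁻¹ * b⁻¹) ^ 2 := by
  set c := a * b * a⁻¹ * b⁻¹ with hcdef
  have hc : Commute g c :=
    ((ha.mul_right hb).mul_right ha.inv_right).mul_right hb.inv_right
  have hci : c⁻¹ = b * a * b⁻¹ * a⁻¹ := by rw [hcdef]; group
  have hpar := h.par_eq hc
  rcases (h.tau_nonneg g).eq_or_lt with h0 | h0
  · -- degenerate case
    have nn : ∀ {e : Γ}, Commute g e → tau d e ^ 2 ≤ tau d (g * e) ^ 2 := by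
      intro e he
      set Q := tau d (g * e) ^ 2 - tau d g ^ 2 - tau d e ^ 2 with hQ
      by_contra hlt
      push Not at hlt
      have hQneg : Q < 0 := by rw [hQ, ← h0]; linarith only [hlt]
      obtain ⟨n, hn⟩ := exists_nat_gt (tau d e ^ 2 / (-Q))
      have h3 := h.tau_pow_mul he n
      rw [← hQ, ← h0] at h3
      rw [div_lt_iff₀ (by linarith only [hQneg])] at hn
      linarith only [sq_nonneg (tau d (g ^ n * e)), h3, hn]
    have n1 := nn hc
    have n2 := nn hc.inv_right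
    rw [h.tau_inv] at n2
    rw [← h0] at hpar ⊢
    nlinarith
  · obtain ⟨x₀, hx₀⟩ := h.exists_min g
    have l1 := h.cross_nonpos hc hx₀ (h.tendsto_comm h0 x₀ ha hb)
    have l2 := h.cross_nonpos (hci ▸ hc.inv_right) hx₀ (h.tendsto_comm h0 x₀ hb ha)
    rw [← hci, h.tau_inv] at l2
    linarith

/-- The contradiction. -/
theorem contradiction (h : CNAct Γ X d) [Nonempty X] {e₁ e₂ a₁ b₁ a₂ b₂ : Γ}
    (h12 : Commute e₁ e₂) (ha₁ : Commute e₁ a₁) (hb₁ : Commute e₁ b₁)
    (hr₁ : e₂ = a₁ * b₁ * a₁⁻¹ * b₁⁻¹)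
    (ha₂ : Commute e₂ a₂) (hb₂ : Commute e₂ b₂)
    (hr₂ : e₁ * e₂⁻¹ = a₂ * b₂ * a₂⁻¹ * b₂⁻¹)
    (hfree : ∀ x : X, d x (e₂ • x) ≠ 0) : False := by
  have o1 := h.orth ha₁ hb₁
  have o2 := h.orth ha₂ hb₂
  rw [← hr₁] at o1
  rw [← hr₂] at o2
  have e : e₂ * (e₁ * e₂⁻¹) = e₁ := by
    rw [← mul_assoc, h12.symm.eq]; group
  rw [e] at o2
  have hp := h.par_eq h12
  have : tau d e₂ ^ 2 = 0 := by nlinarith [sq_nonneg (tau d e₂)]
  have h0 : tau d e₂ = 0 := by simpa using this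
  obtain ⟨x₀, hx₀⟩ := h.exists_min e₂
  exact hfree x₀ (hx₀.trans h0)

end CNAct

end Vale.Agent.P255
end
end

section

section

/-!
From a system of exponential maps with the comparison property of nonpositive curvature to
the action of the fundamental group on homotopy classes of paths (a space satisfying the
Bruhat-Tits midpoint inequality).
-/

open scoped Topology unitInterval
open Set Filter

noncomputable section

namespace Vale.Agent.P255

/-- A system of exponential maps which are coverings, with the comparison property. -/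
structure ExpSys (E M : Type) [NormedAddCommGroup E] [NormedSpace ℝ E]
    [TopologicalSpace M] where
  e : M → E → M
  ip : M → E →L[ℝ] E →L[ℝ] ℝ
  ip_symm : ∀ m v w, ip m v w = ip m w v
  ip_pos : ∀ m v, v ≠ 0 → 0 < ip m v v
  zero : ∀ m, e m 0 = m
  cov : ∀ m, IsCoveringMap (e m)
  shift : ∀ m u (s : ℝ), ∃ w, ip (e m (s • u)) w w = ip m u u ∧
      ∀ t : ℝ, e m ((s + t) • u) = e (e m (s • u)) (t • w)
  compare : ∀ m q w (c : ℝ → E), ContinuousOn c (Icc 0 1) →
    (∀ t ∈ Icc (0 : ℝ) 1, e m (c t) = e q (t • w)) →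
    ip m (c 1 - c 0) (c 1 - c 0) ≤ ip q w w

namespace ExpSys

variable {E M : Type} [NormedAddCommGroup E] [NormedSpace ℝ E]
variable [TopologicalSpace M] (S : ExpSys E M)

/-! ### the norms -/

/-- the norm at `m` -/
def nrm (m : M) (v : E) : ℝ := Real.sqrt (S.ip m v v)

lemma ip_nonneg (m : M) (v : E) : 0 ≤ S.ip m v v := by
  rcases eq_or_ne v 0 with rfl | h
  · simp
  · exact (S.ip_pos m v h).le

lemma nrm_nonneg (m : M) (v : E) : 0 ≤ S.nrm m v := Real.sqrt_nonneg _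

lemma nrm_sq (m : M) (v : E) : S.nrm m v ^ 2 = S.ip m v v := Real.sq_sqrt (S.ip_nonneg m v)

lemma nrm_zero (m : M) : S.nrm m 0 = 0 := by simp [nrm]

lemma nrm_neg (m : M) (v : E) : S.nrm m (-v) = S.nrm m v := by simp [nrm]

lemma eq_zero_of_nrm {m : M} {v : E} (h : S.nrm m v = 0) : v = 0 := by
  by_contra hv
  have := S.ip_pos m v hv
  rw [← S.nrm_sq, h] at this
  simp at this

lemma ip_add (m : M) (v w : E) : S.ip m (v + w) (v + w) =
    S.ip m v v + 2 * S.ip m v w + S.ip m w w := by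
  simp only [map_add, add_apply]
  rw [S.ip_symm m w v]; ring

lemma ip_sub (m : M) (v w : E) : S.ip m (v - w) (v - w) =
    S.ip m v v - 2 * S.ip m v w + S.ip m w w := by
  simp only [map_sub, sub_apply]
  rw [S.ip_symm m w v]; ring

lemma cauchy (m : M) (v w : E) : S.ip m v w ≤ S.nrm m v * S.nrm m w := by
  have h : ∀ t : ℝ, 0 ≤ S.ip m v v * (t * t) + 2 * S.ip m v w * t + S.ip m w w := by
    intro t
    have h1 := S.ip_nonneg m (t • v + w)
    rw [S.ip_add] at h1
    simp only [map_smul, smul_apply, smul_eq_mul] at h1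
    linarith
  have h2 := discrim_le_zero h
  rw [discrim] at h2
  have h3 : S.ip m v w ^ 2 ≤ (S.nrm m v * S.nrm m w) ^ 2 := by
    rw [mul_pow, S.nrm_sq, S.nrm_sq]; linarith
  exact (abs_le_of_sq_le_sq' h3 (mul_nonneg (S.nrm_nonneg _ _) (S.nrm_nonneg _ _))).2

lemma nrm_add (m : M) (v w : E) : S.nrm m (v + w) ≤ S.nrm m v + S.nrm m w := by
  have h1 : S.nrm m (v + w) ^ 2 ≤ (S.nrm m v + S.nrm m w) ^ 2 := by
    rw [S.nrm_sq, S.ip_add, add_sq, S.nrm_sq, S.nrm_sq]
    have := S.cauchy m v w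
    linarith
  exact (abs_le_of_sq_le_sq' h1 (add_nonneg (S.nrm_nonneg _ _) (S.nrm_nonneg _ _))).2

/-! ### vectors of homotopy classes -/

/-- homotopy classes of paths -/
abbrev Cl {M : Type} [TopologicalSpace M] (x y : M) : Type := Path.Homotopic.Quotient x y

/-- the zero vector as a lift of the base point -/
def base (y : M) : S.e y ⁻¹' {y} := ⟨0, S.zero y⟩

/-- the initial vector of the geodesic in a homotopy class -/
def vec {y z : M} (α : Cl y z) : E := ((S.cov y).monodromy α (S.base y) : E)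

lemma e_vec {y z : M} (α : Cl y z) : S.e y (S.vec α) = z :=
  ((S.cov y).monodromy α (S.base y)).2

/-- the geodesic path with initial vector `v` -/
def rayTo (y z : M) (v : E) (h : S.e y v = z) : Path y z where
  toFun t := S.e y ((t : ℝ) • v)
  continuous_toFun := by
    have := (S.cov y).continuous
    fun_prop
  source' := by simp [S.zero]
  target' := by simp [h]

@[simp] lemma rayTo_apply (y z : M) (v : E) (h : S.e y v = z) (t : I) :
    S.rayTo y z v h t = S.e y ((t : ℝ) • v) := rfl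

/-- Lifting characterization of `vec` for composed classes. -/
lemma vec_trans {m y z : M} (μ : Cl m y) (γ : Path y z) (c : C(I, E)) (h0 : c 0 = S.vec μ)
    (h : ∀ t, S.e m (c t) = γ t) :
    S.vec (μ.trans (Path.Homotopic.Quotient.mk γ)) = c 1 := by
  have h1 : (S.cov m).monodromy (μ.trans (Path.Homotopic.Quotient.mk γ)) (S.base m) =
      (S.cov m).monodromy (Path.Homotopic.Quotient.mk γ) ((S.cov m).monodromy μ (S.base m)) :=
    (S.cov m).monodromy_trans_apply _ _ _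
  have hγ : γ.toContinuousMap 0 = S.e m (((S.cov m).monodromy μ (S.base m)) : E) := by
    have := S.e_vec μ
    rw [vec] at this
    rw [this]; exact γ.source
  have h2 : c = (S.cov m).liftPath γ.toContinuousMap
      (((S.cov m).monodromy μ (S.base m)) : E) hγ := by
    rw [(S.cov m).eq_liftPath_iff']
    exact ⟨funext h, h0⟩
  unfold vec
  rw [h1]
  conv_rhs => rw [h2]
  rfl

lemma vec_refl (y : M) : S.vec (Path.Homotopic.Quotient.refl y) = 0 := by
  unfold vec
  rw [(S.cov y).monodromy_refl]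
  rfl

lemma vec_mk {y z : M} (γ : Path y z) (c : C(I, E)) (h0 : c 0 = 0)
    (h : ∀ t, S.e y (c t) = γ t) :
    S.vec (Path.Homotopic.Quotient.mk γ) = c 1 := by
  have := S.vec_trans (Path.Homotopic.Quotient.refl y) γ c (by rw [h0, S.vec_refl]) h
  rwa [Path.Homotopic.Quotient.refl_trans] at this

lemma vec_rayTo (y z : M) (v : E) (h : S.e y v = z) :
    S.vec (Path.Homotopic.Quotient.mk (S.rayTo y z v h)) = v := by
  have := S.vec_mk (S.rayTo y z v h) ⟨fun t : I => (t : ℝ) • v, by fun_prop⟩ (by simp)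
    (fun t => rfl)
  simpa using this

lemma eq_rayTo {y z : M} (α : Cl y z) :
    α = Path.Homotopic.Quotient.mk (S.rayTo y z (S.vec α) (S.e_vec α)) := by
  induction α using Path.Homotopic.Quotient.ind with
  | mk γ =>
    rw [Path.Homotopic.Quotient.eq]
    have hγ0 : γ.toContinuousMap 0 = S.e y 0 := by rw [S.zero]; exact γ.source
    set Γ := (S.cov y).liftPath γ.toContinuousMap 0 hγ0 with hΓ
    have hΓ1 : Γ 1 = S.vec (Path.Homotopic.Quotient.mk γ) := rfl
    have hl : ∀ t, S.e y (Γ t) = γ t := fun t =>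
      congrFun ((S.cov y).liftPath_lifts γ.toContinuousMap 0 hγ0) t
    let P : Path (0 : E) (Γ 1) := ⟨Γ, (S.cov y).liftPath_zero _ _ _, rfl⟩
    let P' : Path (0 : E) (Γ 1) :=
      { toFun := fun t => (t : ℝ) • Γ 1
        continuous_toFun := by fun_prop
        source' := by simp
        target' := by simp }
    have hPP : P.Homotopic P' := SimplyConnectedSpace.paths_homotopic P P'
    have h2 := hPP.map ⟨S.e y, (S.cov y).continuous⟩
    have h3 := h2.pathCast (S.zero y).symm (x₃ := z) (by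
      change z = S.e y (Γ 1)
      rw [hl]; exact γ.target.symm)
    refine (Eq.mp ?_ h3)
    congr 1
    · ext t
      exact hl t

lemma vec_inj {y z : M} {α β : Cl y z} (h : S.vec α = S.vec β) : α = β := by
  rw [S.eq_rayTo α, S.eq_rayTo β]
  congr 2

/-- length of a homotopy class -/
def len {y z : M} (α : Cl y z) : ℝ := S.nrm y (S.vec α)

lemma len_nonneg {y z : M} (α : Cl y z) : 0 ≤ S.len α := S.nrm_nonneg _ _

lemma len_refl (y : M) : S.len (Path.Homotopic.Quotient.refl y) = 0 := by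
  rw [len, S.vec_refl, S.nrm_zero]

lemma eq_refl_of_len {y : M} {α : Cl y y} (h : S.len α = 0) :
    α = Path.Homotopic.Quotient.refl y := by
  apply S.vec_inj
  rw [S.vec_refl, S.eq_zero_of_nrm h]

/-- reversal, with the vector -/
lemma vec_symm {y z : M} (α : Cl y z) : S.nrm z (S.vec α.symm) = S.len α := by
  obtain ⟨w, hw, hw2⟩ := S.shift y (S.vec α) 1
  rw [one_smul] at hw
  have hz := S.e_vec α
  rw [hz] at hw
  have hw3 : ∀ t : ℝ, S.e y ((1 + t) • S.vec α) = S.e z (t • w) := by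
    intro t
    have := hw2 t
    rwa [one_smul, hz] at this
  have h1 : S.vec α.symm = -w := by
    conv_lhs => rw [S.eq_rayTo α]
    rw [← Path.Homotopic.Quotient.mk_symm]
    have := S.vec_mk (S.rayTo y z (S.vec α) (S.e_vec α)).symm
      ⟨fun t : I => (-(t : ℝ)) • w, by fun_prop⟩ (by simp) (by
        intro t
        change S.e z ((-(t : ℝ)) • w) = S.e y (((σ t : I) : ℝ) • S.vec α)
        rw [← hw3, unitInterval.coe_symm_eq]
        congr 2)
    simpa using this
  rw [h1, S.nrm_neg, nrm, hw, len, nrm]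

lemma len_symm {y z : M} (α : Cl y z) : S.len α.symm = S.len α := S.vec_symm α

/-- comparison -/
lemma compare' {m y z : M} (μ : Cl m y) (β : Cl y z) :
    S.nrm m (S.vec (μ.trans β) - S.vec μ) ≤ S.len β := by
  set w := S.vec β with hw
  set γ := S.rayTo y z w (S.e_vec β) with hγ
  have hγ0 : γ.toContinuousMap 0 = S.e m (S.vec μ) := by
    rw [S.e_vec]; exact γ.source
  set c := (S.cov m).liftPath γ.toContinuousMap (S.vec μ) hγ0 with hc
  have hl : ∀ t, S.e m (c t) = γ t := fun t =>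
    congrFun ((S.cov m).liftPath_lifts γ.toContinuousMap (S.vec μ) hγ0) t
  have hc0 : c 0 = S.vec μ := (S.cov m).liftPath_zero _ _ _
  have hc1 : S.vec (μ.trans β) = c 1 := by
    conv_lhs => rw [S.eq_rayTo β]
    exact S.vec_trans μ γ c hc0 hl
  have hcmp := S.compare m y w (fun t : ℝ => c (projIcc 0 1 zero_le_one t))
    (by fun_prop) (by
      intro t ht
      rw [projIcc_of_mem _ ht, hl]
      rfl)
  have e1 : projIcc (0 : ℝ) 1 zero_le_one 1 = (1 : I) := projIcc_right _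
  have e0 : projIcc (0 : ℝ) 1 zero_le_one 0 = (0 : I) := projIcc_left _
  simp only [e0, e1] at hcmp
  rw [hc1, ← hc0, len, ← hw, nrm, nrm]
  exact Real.sqrt_le_sqrt hcmp

lemma len_trans {x y z : M} (α : Cl x y) (β : Cl y z) :
    S.len (α.trans β) ≤ S.len α + S.len β := by
  have h1 := S.compare' α β
  have h2 := S.nrm_add x (S.vec (α.trans β) - S.vec α) (S.vec α)
  rw [sub_add_cancel] at h2
  unfold len at *
  linarith

/-- midpoints -/
lemma exists_mid {y z : M} (β : Cl y z) : ∃ (m : M) (μ : Cl y m),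
    ∀ (x : M) (ζ : Cl y x),
      S.len (μ.symm.trans ζ) ^ 2 ≤ (S.len ζ ^ 2 + S.len (β.symm.trans ζ) ^ 2) / 2
        - S.len β ^ 2 / 4 := by
  set u := S.vec β with hu
  set m := S.e y ((1 / 2 : ℝ) • u) with hm
  obtain ⟨w, hw, hw2⟩ := S.shift y u (1 / 2)
  rw [← hm] at hw
  have hw3 : ∀ t : ℝ, S.e y ((1 / 2 + t) • u) = S.e m (t • w) := hw2
  have hwy : S.e m ((-1 / 2 : ℝ) • w) = y := by
    rw [← hw3]; norm_num [S.zero]
  have hwz : S.e m ((1 / 2 : ℝ) • w) = z := by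
    rw [← hw3]; norm_num; exact S.e_vec β
  -- the class from `y` to `m`
  set μ : Cl y m := Path.Homotopic.Quotient.mk (S.rayTo y m ((1 / 2 : ℝ) • u) rfl) with hμ
  have hvμ : S.vec μ = (1 / 2 : ℝ) • u := S.vec_rayTo _ _ _ _
  have hvμ' : S.vec μ.symm = (-1 / 2 : ℝ) • w := by
    rw [hμ, ← Path.Homotopic.Quotient.mk_symm]
    have := S.vec_mk (S.rayTo y m ((1 / 2 : ℝ) • u) rfl).symm
      ⟨fun t : I => (-(t : ℝ) / 2) • w, by fun_prop⟩ (by simp) (by
        intro t
        change S.e m ((-(t : ℝ) / 2) • w) = S.e y (((σ t : I) : ℝ) • ((1 / 2 : ℝ) • u))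
        rw [← hw3, smul_smul, unitInterval.coe_symm_eq]
        congr 2
        ring)
    simpa using this
  set ν : Cl m z := Path.Homotopic.Quotient.mk (S.rayTo m z ((1 / 2 : ℝ) • w) hwz) with hν
  have hvν : S.vec ν = (1 / 2 : ℝ) • w := S.vec_rayTo _ _ _ _
  have hμν : μ.trans ν = β := by
    apply S.vec_inj
    rw [hν, S.vec_trans μ (S.rayTo m z ((1 / 2 : ℝ) • w) hwz)
      ⟨fun t : I => (1 / 2 + (t : ℝ) / 2) • u, by fun_prop⟩ (by simp [hvμ]) (by
        intro t
        simp only [ContinuousMap.coe_mk, rayTo_apply]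
        rw [hw3, smul_smul]
        congr 2
        ring)]
    simp only [ContinuousMap.coe_mk, Icc.coe_one]
    norm_num
    exact hu
  have hν' : μ.symm.trans β = ν := by
    rw [← hμν, ← Path.Homotopic.Quotient.trans_assoc, Path.Homotopic.Quotient.symm_trans,
      Path.Homotopic.Quotient.refl_trans]
  refine ⟨m, μ, fun x ζ => ?_⟩
  set V := S.vec (μ.symm.trans ζ) with hV
  have c1 := S.compare' μ.symm ζ
  rw [hvμ', ← hV] at c1
  have c2 := S.compare' ν (β.symm.trans ζ)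
  have e2 : ν.trans (β.symm.trans ζ) = μ.symm.trans ζ := by
    rw [← hν', Path.Homotopic.Quotient.trans_assoc, ← Path.Homotopic.Quotient.trans_assoc β,
      Path.Homotopic.Quotient.trans_symm, Path.Homotopic.Quotient.refl_trans]
  rw [e2, hvν, ← hV] at c2
  have q1 := pow_le_pow_left₀ (S.nrm_nonneg _ _) c1 2
  have q2 := pow_le_pow_left₀ (S.nrm_nonneg _ _) c2 2
  rw [S.nrm_sq, S.ip_sub] at q1 q2
  simp only [map_smul, smul_apply, smul_eq_mul] at q1 q2
  have q3 : S.len (μ.symm.trans ζ) ^ 2 = S.ip m V V := by rw [len, S.nrm_sq]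
  have q4 : S.len β ^ 2 = S.ip m w w := by rw [len, S.nrm_sq, hw]
  rw [q3, q4]
  linarith only [q2, q1]

/-! ### compactness -/

lemma finite_fiber [FiniteDimensional ℝ E] [T2Space M] (y : M) (R : ℝ) :
    {v : E | S.e y v = y ∧ S.nrm y v ≤ R}.Finite := by
  -- the closed ball is compact
  have hcont : Continuous fun v : E => S.ip y v v := by continuity
  obtain ⟨c, hc, hc2⟩ : ∃ c : ℝ, 0 < c ∧ ∀ v : E, c * ‖v‖ ^ 2 ≤ S.ip y v v := by
    rcases (Metric.sphere (0 : E) 1).eq_empty_or_nonempty with h | h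
    · refine ⟨1, one_pos, fun v => ?_⟩
      have hv : v = 0 := by
        by_contra hv
        have : (‖v‖⁻¹ • v) ∈ Metric.sphere (0 : E) 1 := by
          simp [norm_smul, inv_mul_cancel₀ (norm_ne_zero_iff.2 hv)]
        rw [h] at this
        exact this
      simp [hv]
    · obtain ⟨v₀, hv₀, hmin⟩ := (isCompact_sphere (0 : E) 1).exists_isMinOn h
        hcont.continuousOn
      have hv₀0 : v₀ ≠ 0 := by
        rintro rfl
        simp at hv₀
      refine ⟨S.ip y v₀ v₀, S.ip_pos y v₀ hv₀0, fun v => ?_⟩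
      rcases eq_or_ne v 0 with rfl | hv
      · simp
      · have hn : 0 < ‖v‖ := norm_pos_iff.2 hv
        have hmem : (‖v‖⁻¹ • v) ∈ Metric.sphere (0 : E) 1 := by
          simp [norm_smul, inv_mul_cancel₀ hn.ne']
        have h1 : S.ip y v₀ v₀ ≤ S.ip y (‖v‖⁻¹ • v) (‖v‖⁻¹ • v) := hmin hmem
        simp only [map_smul, smul_apply, smul_eq_mul] at h1
        have h2 : ‖v‖⁻¹ * (‖v‖⁻¹ * S.ip y v v) * ‖v‖ ^ 2 = S.ip y v v := by
          field_simp
        calc S.ip y v₀ v₀ * ‖v‖ ^ 2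
            ≤ ‖v‖⁻¹ * (‖v‖⁻¹ * S.ip y v v) * ‖v‖ ^ 2 :=
              mul_le_mul_of_nonneg_right h1 (by positivity)
          _ = S.ip y v v := h2
  have hK : IsCompact {v : E | S.nrm y v ≤ R} := by
    apply Metric.isCompact_of_isClosed_isBounded
    · apply isClosed_le _ continuous_const
      unfold nrm
      exact hcont.sqrt
    · rw [Metric.isBounded_iff_subset_closedBall 0]
      refine ⟨Real.sqrt (R ^ 2 / c), fun v hv => ?_⟩
      rw [mem_closedBall_zero_iff]
      apply Real.le_sqrt_of_sq_le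
      rw [le_div_iff₀ hc]
      have h1 := hc2 v
      have h2 : S.nrm y v ^ 2 ≤ R ^ 2 := pow_le_pow_left₀ (S.nrm_nonneg _ _) hv 2
      rw [S.nrm_sq] at h2
      linarith
  have hF : IsClosed (S.e y ⁻¹' {y}) := isClosed_singleton.preimage (S.cov y).continuous
  have hD : DiscreteTopology (S.e y ⁻¹' {y}) := (S.cov y y).discreteTopology_fiber
  have hKF : IsCompact ({v : E | S.nrm y v ≤ R} ∩ S.e y ⁻¹' {y}) := hK.inter_right hF
  have hfin := hKF.finite ⟨DiscreteTopology.of_subset hD inter_subset_right⟩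
  refine hfin.subset fun v hv => ⟨hv.2, hv.1⟩

/-! ### the space of homotopy classes and the action -/

/-- homotopy classes of paths ending at `m₀` -/
def PX (m₀ : M) : Type := Σ y : M, Cl y m₀

instance (m₀ : M) : MulAction (FundamentalGroup M m₀) (PX m₀) where
  smul p x := ⟨x.1, x.2.trans p⟩
  one_smul x := Sigma.ext rfl (heq_of_eq (Path.Homotopic.Quotient.trans_refl x.2))
  mul_smul p q x :=
    Sigma.ext rfl (heq_of_eq (Path.Homotopic.Quotient.trans_assoc x.2 q p).symm)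

lemma smul_def {m₀ : M} (p : FundamentalGroup M m₀) (x : PX m₀) :
    p • x = ⟨x.1, x.2.trans p⟩ := rfl

/-- the distance on the space of homotopy classes -/
def dd {m₀ : M} (x y : PX m₀) : ℝ := S.len (x.2.trans y.2.symm)

lemma symm_trans' {x y z : M} (α : Cl x y) (β : Cl y z) :
    (α.trans β).symm = β.symm.trans α.symm := by
  induction α using Path.Homotopic.Quotient.ind with
  | mk α =>
    induction β using Path.Homotopic.Quotient.ind with
    | mk β =>
      simp only [← Path.Homotopic.Quotient.mk_symm, ← Path.Homotopic.Quotient.mk_trans,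
        Path.trans_symm]

lemma symm_symm' {x y : M} (α : Cl x y) : α.symm.symm = α := by
  induction α using Path.Homotopic.Quotient.ind with
  | mk α => simp only [← Path.Homotopic.Quotient.mk_symm, Path.symm_symm]

open Path.Homotopic.Quotient in
lemma cancel_mid {w x y z : M} (α : Cl w x) (β : Cl y x) (γ : Cl x z) :
    (α.trans β.symm).trans (β.trans γ) = α.trans γ := by
  rw [trans_assoc, ← trans_assoc β.symm, symm_trans, refl_trans]

open Path.Homotopic.Quotient in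
theorem cnAct [FiniteDimensional ℝ E] [CompactSpace M] [T2Space M] (m₀ : M) :
    CNAct (FundamentalGroup M m₀) (PX m₀) S.dd where
  nonneg _ _ := S.len_nonneg _
  self x := by
    unfold dd
    rw [trans_symm, S.len_refl]
  symm x y := by
    unfold dd
    rw [← S.len_symm, symm_trans', symm_symm']
  tri x y z := by
    unfold dd
    have h := S.len_trans (x.2.trans y.2.symm) (y.2.trans z.2.symm)
    rwa [cancel_mid] at h
  inv g x y := by
    unfold dd
    rw [smul_def, smul_def]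
    congr 1
    simp only
    rw [symm_trans', trans_assoc, ← trans_assoc g, trans_symm, refl_trans]
  cn y z := by
    obtain ⟨m, μ, h⟩ := S.exists_mid (y.2.trans z.2.symm)
    refine ⟨⟨m, μ.symm.trans y.2⟩, fun x => ?_⟩
    have h1 := h x.1 (y.2.trans x.2.symm)
    have e1 : S.dd x ⟨m, μ.symm.trans y.2⟩ = S.len (μ.symm.trans (y.2.trans x.2.symm)) := by
      unfold dd
      rw [← S.len_symm, symm_trans', symm_symm', trans_assoc]
    have e2 : S.dd x y = S.len (y.2.trans x.2.symm) := by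
      unfold dd
      rw [← S.len_symm, symm_trans', symm_symm']
    have e3 : S.dd x z = S.len ((y.2.trans z.2.symm).symm.trans (y.2.trans x.2.symm)) := by
      unfold dd
      rw [symm_trans', symm_symm', cancel_mid, ← S.len_symm, symm_trans', symm_symm']
    rw [e1, e2, e3]
    exact h1
  cocompact x := by
    obtain ⟨y, hy⟩ : ∃ y, MapClusterPt y atTop (fun n => (x n).1) :=
      exists_clusterPt_of_compactSpace _
    have hU : ∀ n : ℕ, ∃ᶠ k in atTop, ∃ u : E, S.e y u = (x k).1 ∧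
        S.nrm y u < 1 / ((n : ℝ) + 1) := by
      intro n
      have hpos : (0 : ℝ) < 1 / ((n : ℝ) + 1) := by positivity
      have hcont : Continuous fun v : E => S.nrm y v := by
        unfold nrm; continuity
      have hopen : IsOpen {v : E | S.nrm y v < 1 / ((n : ℝ) + 1)} :=
        isOpen_lt hcont continuous_const
      have him : IsOpen (S.e y '' {v : E | S.nrm y v < 1 / ((n : ℝ) + 1)}) :=
        (S.cov y).isOpenMap _ hopen
      have hmem : y ∈ S.e y '' {v : E | S.nrm y v < 1 / ((n : ℝ) + 1)} :=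
        ⟨0, by simpa [nrm_zero] using hpos, S.zero y⟩
      have := hy.frequently (him.mem_nhds hmem)
      refine this.mono fun k hk => ?_
      obtain ⟨u, hu, hu2⟩ := hk
      exact ⟨u, hu2, hu⟩
    obtain ⟨φ, hφ, hφ2⟩ := extraction_forall_of_frequently hU
    choose u hu hu2 using hφ2
    let τ : ∀ n, Cl y (x (φ n)).1 := fun n =>
      Path.Homotopic.Quotient.mk (S.rayTo y (x (φ n)).1 (u n) (hu n))
    have hτ : ∀ n, S.len (τ n) = S.nrm y (u n) := fun n => by
      rw [len, S.vec_rayTo]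
    let ξ : Cl y m₀ := (τ 0).trans (x (φ 0)).2
    refine ⟨fun n => ((x (φ n)).2.symm.trans ((τ n).symm.trans ξ) : Cl m₀ m₀), ⟨y, ξ⟩, φ, hφ,
      ?_⟩
    have hz : Tendsto (fun n : ℕ => 1 / ((n : ℝ) + 1)) atTop (𝓝 0) :=
      tendsto_one_div_add_atTop_nhds_zero_nat
    refine squeeze_zero (fun n => S.len_nonneg _) (fun n => ?_) hz
    have e : S.dd ((show FundamentalGroup M m₀ from
        ((x (φ n)).2.symm.trans ((τ n).symm.trans ξ) : Cl m₀ m₀)) • (x (φ n)))
        (⟨y, ξ⟩ : PX m₀) = S.len (τ n).symm := by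
      unfold dd
      rw [smul_def]
      congr 1
      simp only
      rw [← trans_assoc, trans_symm, refl_trans, trans_assoc, trans_symm, trans_refl]
    refine (le_of_eq e).trans ?_
    rw [S.len_symm, hτ]
    exact (hu2 n).le
  proper y R := by
    have hfin := S.finite_fiber y.1 R
    let f : FundamentalGroup M m₀ → E := fun g => S.vec (y.2.trans (y.2.trans g).symm)
    have hinj : Function.Injective f := by
      intro g g' h
      have h1 : y.2.trans (y.2.trans g).symm = y.2.trans (y.2.trans g').symm := S.vec_inj h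
      have h2 := congrArg (fun α : Cl y.1 y.1 => (y.2.symm.trans α)) h1
      simp only [← trans_assoc, symm_trans, refl_trans] at h2
      have h3 := congrArg (fun α : Cl m₀ y.1 => α.symm) h2
      simp only [symm_symm'] at h3
      have h4 := congrArg (fun α : Cl y.1 m₀ => (y.2.symm.trans α)) h3
      simp only [← trans_assoc, symm_trans, refl_trans] at h4
      exact h4
    refine Set.Finite.subset (hfin.preimage hinj.injOn) ?_
    intro g hg
    exact ⟨S.e_vec _, hg⟩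

include S in
open Path.Homotopic.Quotient in
theorem obstruction [FiniteDimensional ℝ E] [CompactSpace M] [T2Space M] (m₀ : M)
    (z z' A₁ A₂ B₁ B₂ : FundamentalGroup M m₀)
    (hzA₁ : Commute z A₁) (hzA₂ : Commute z A₂) (hA : A₁ * A₂ * A₁⁻¹ * A₂⁻¹ = z')
    (hzB₁ : Commute z' B₁) (hzB₂ : Commute z' B₂) (hB : B₁ * B₂ * B₁⁻¹ * B₂⁻¹ = z * z'⁻¹) :
    z' = 1 := by
  by_contra hne
  have : Nonempty (PX m₀) := ⟨⟨m₀, Path.Homotopic.Quotient.refl m₀⟩⟩
  have hzz' : Commute z z' := by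
    rw [← hA]
    exact ((hzA₁.mul_right hzA₂).mul_right hzA₁.inv_right).mul_right hzA₂.inv_right
  refine (S.cnAct m₀).contradiction hzz' hzA₁ hzA₂ hA.symm hzB₁ hzB₂ hB.symm ?_
  intro x hx
  apply hne
  have h1 : x.2.trans (x.2.trans z').symm = Path.Homotopic.Quotient.refl x.1 :=
    S.eq_refl_of_len hx
  have h2 := congrArg (fun α : Cl x.1 x.1 => α.trans (x.2.trans z')) h1
  simp only [trans_assoc, symm_trans, trans_refl, refl_trans] at h2
  have h3 := congrArg (fun α : Cl x.1 m₀ => (x.2.symm.trans α)) h2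
  simp only [← trans_assoc, symm_trans, refl_trans] at h3
  exact h3.symm

end ExpSys

end Vale.Agent.P255
end
end
end

section

section

/-!
# P255: consequences of the covering property: closed geodesics are not null-homotopic,
the obstruction for metrics satisfying the comparison estimate
-/

open scoped Manifold ContDiff Topology unitInterval
open Set Filter

noncomputable section

namespace Vale.Agent.P255

section

variable {E : Type} [NormedAddCommGroup E] [NormedSpace ℝ E]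
variable {M : Type} [TopologicalSpace M]

/-- A closed geodesic `t ↦ e m (t v)`, `v ≠ 0`, is not null-homotopic when `e m` is a covering. -/
theorem not_homotopic_refl_of_cov {e : M → E → M} {m : M} (cov : IsCoveringMap (e m))
    (zero : e m 0 = m) {v : E} (hv : v ≠ 0) (γ : Path m m)
    (hγ : ∀ t : I, γ t = e m ((t : ℝ) • v)) : ¬ γ.Homotopic (Path.refl m) := by
  intro h
  have h0 : γ.toContinuousMap 0 = e m 0 := by rw [zero]; exact γ.source
  have h0' : (Path.refl m).toContinuousMap 0 = e m 0 := by rw [zero]; exact (Path.refl m).source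
  have h1 := cov.liftPath_apply_one_eq_of_homotopicRel h 0 h0 h0'
  have e1 : (⟨fun t : I => (t : ℝ) • v, by fun_prop⟩ : C(I, E)) =
      cov.liftPath γ.toContinuousMap 0 h0 := by
    rw [cov.eq_liftPath_iff']
    exact ⟨funext fun t => (hγ t).symm, by simp⟩
  have e2 : (ContinuousMap.const I (0 : E)) =
      cov.liftPath (Path.refl m).toContinuousMap 0 h0' := by
    rw [cov.eq_liftPath_iff']
    exact ⟨funext fun t => zero, by simp⟩
  rw [← e1, ← e2] at h1
  simp at h1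
  exact hv h1

end

variable {E : Type} [NormedAddCommGroup E] [NormedSpace ℝ E] [FiniteDimensional ℝ E]
variable {M : Type} [TopologicalSpace M] [ChartedSpace E M]
variable {g : Metric E M} {e : M → E → M}

/-- closed geodesics of a metric for which `e m` is a covering are not null-homotopic -/
theorem IsExp.closed_geodesic_not_null [T2Space M] (he : IsExp g e) {γ : ℝ → M}
    (hγ : IsGeodesic g γ) (hG : GaussAt g e (γ 0)) (hI : InjAt E e (γ 0))
    (hne : ∃ t, γ t ≠ γ 0) (c : Path (γ 0) (γ 0))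
    (hc : ∀ t : I, c t = γ t) : ¬ c.Homotopic (Path.refl (γ 0)) := by
  have huniq := he.uniq γ hγ
  set v := deriv (cc (E := E) γ (γ 0)) 0 with hv
  have hv0 : v ≠ 0 := by
    intro h0
    obtain ⟨t, ht⟩ := hne
    apply ht
    rw [huniq t, h0, smul_zero, he.zero]
  exact not_homotopic_refl_of_cov (he.isCoveringMap_of hG hI) (he.zero _) hv0 c
    (fun t => by rw [hc]; exact huniq t)

/-- The exponential system of a metric satisfying the Gauss lemma and the comparison estimate. -/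
def IsExp.toExpSys [T2Space M] (he : IsExp g e) (hG : ∀ m, GaussAt g e m)
    (hR : ∀ m, RauchAt g e m) : ExpSys E M where
  e := e
  ip := g.ip
  ip_symm := g.ip_symm
  ip_pos := g.ip_pos
  zero := he.zero
  cov m := he.isCoveringMap_of (hG m) (hR m).injAt
  shift m u s := he.shift_of (hG m) u s
  compare m q w c hc h := he.compare_of (hR m) (hG q) w c hc h

theorem IsExp.obstruction [CompactSpace M] [T2Space M] (he : IsExp g e)
    (hG : ∀ m, GaussAt g e m) (hR : ∀ m, RauchAt g e m) (m₀ : M)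
    (z z' A₁ A₂ B₁ B₂ : FundamentalGroup M m₀)
    (hzA₁ : Commute z A₁) (hzA₂ : Commute z A₂) (hA : A₁ * A₂ * A₁⁻¹ * A₂⁻¹ = z')
    (hzB₁ : Commute z' B₁) (hzB₂ : Commute z' B₂) (hB : B₁ * B₂ * B₁⁻¹ * B₂⁻¹ = z * z'⁻¹) :
    z' = 1 :=
  (he.toExpSys hG hR).obstruction m₀ z z' A₁ A₂ B₁ B₂ hzA₁ hzA₂ hA hzB₁ hzB₂ hB

end Vale.Agent.P255
end
end
end

section

section

/-!
# P255: vector fields along curves; chart-independent inner products and their derivatives
-/

open scoped Manifold ContDiff Topology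
open Set Filter

set_option maxSynthPendingDepth 3

noncomputable section

namespace Vale.Agent.P255

variable {E : Type} [NormedAddCommGroup E] [NormedSpace ℝ E]
variable {M : Type} [TopologicalSpace M] [ChartedSpace E M]

theorem Metric.isMetricOn' (g : Metric E M) (a : M) :
    IsMetricOn (g.coef a) (chartAt E a).target where
  isOpen := (chartAt E a).open_target
  smooth := g.smooth a
  symm := g.symm a
  pos := g.pos a

theorem contDiffAt_trans [IsManifold 𝓘(ℝ, E) ∞ M] (a b : M) {u : E}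
    (hu : u ∈ (chartAt E a).target) (hb : (chartAt E a).symm u ∈ (chartAt E b).source) :
    ContDiffAt ℝ ∞ (trans E a b) u := by
  have h1 : u ∈ ((extChartAt 𝓘(ℝ, E) a).symm ≫ extChartAt 𝓘(ℝ, E) b).source := by
    rw [ext_coord_change_source]
    simp [hu, hb]
  have := contDiffWithinAt_ext_coord_change (I := 𝓘(ℝ, E)) (n := ∞) b a h1
  have h2 : trans E a b = (extChartAt 𝓘(ℝ, E) b) ∘ (extChartAt 𝓘(ℝ, E) a).symm := by
    funext v
    simp [trans]
  rw [h2, ← contDiffWithinAt_univ]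
  simpa using this

/-- components of a vector field along `γ`, compatible with the changes of charts -/
def Compat (γ : ℝ → M) (X : M → ℝ → E) : Prop :=
  ∀ a b t, γ t ∈ (chartAt E a).source → γ t ∈ (chartAt E b).source →
    X b t = fderiv ℝ (trans E a b) (cc γ a t) (X a t)

/-- inner product of two vector fields along `γ` -/
def prodF (g : Metric E M) (γ : ℝ → M) (X Y : M → ℝ → E) (t : ℝ) : ℝ :=
  g.coef (γ t) (cc γ (γ t) t) (X (γ t) t) (Y (γ t) t)

theorem cc_mem {γ : ℝ → M} {a : M} {t : ℝ} (ha : γ t ∈ (chartAt E a).source) :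
    cc (E := E) γ a t ∈ (chartAt E a).target := (chartAt E a).map_source ha

theorem symm_cc {γ : ℝ → M} {a : M} {t : ℝ} (ha : γ t ∈ (chartAt E a).source) :
    (chartAt E a).symm (cc (E := E) γ a t) = γ t := (chartAt E a).left_inv ha

theorem trans_cc {γ : ℝ → M} {a b : M} {t : ℝ} (ha : γ t ∈ (chartAt E a).source) :
    trans E a b (cc (E := E) γ a t) = cc γ b t := by
  unfold trans; rw [symm_cc ha]; rfl

theorem prodF_eq (g : Metric E M) {γ : ℝ → M} {X Y : M → ℝ → E} (hX : Compat γ X)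
    (hY : Compat γ Y) {a : M} {t : ℝ} (ha : γ t ∈ (chartAt E a).source) :
    prodF g γ X Y t = g.coef a (cc γ a t) (X a t) (Y a t) := by
  unfold prodF
  have hm := mem_chart_source E (γ t)
  rw [hX a (γ t) t ha hm, hY a (γ t) t ha hm, ← trans_cc ha]
  exact g.compat a (γ t) _ (cc_mem ha) (by rw [symm_cc ha]; exact hm) _ _

/-- the velocity of a geodesic, in charts -/
def vel (γ : ℝ → M) (a : M) (t : ℝ) : E := deriv (cc (E := E) γ a) t

theorem eventually_mem_source {γ : ℝ → M} {t : ℝ} (hγ : ContinuousAt γ t) {a : M}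
    (ha : γ t ∈ (chartAt E a).source) : ∀ᶠ s in 𝓝 t, γ s ∈ (chartAt E a).source :=
  hγ ((chartAt E a).open_source.mem_nhds ha)

theorem vel_compat [IsManifold 𝓘(ℝ, E) ∞ M] {γ : ℝ → M} (hγ : Continuous γ)
    (hd : ∀ a t, γ t ∈ (chartAt E a).source → DifferentiableAt ℝ (cc (E := E) γ a) t) :
    Compat (E := E) γ (vel γ) := by
  intro a b t ha hb
  have h1 : cc (E := E) γ b =ᶠ[𝓝 t] fun s => trans E a b (cc γ a s) := by
    filter_upwards [eventually_mem_source hγ.continuousAt ha] with s hs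
    exact (trans_cc hs).symm
  unfold vel
  rw [h1.deriv_eq]
  have h2 : DifferentiableAt ℝ (trans E a b) (cc γ a t) :=
    (contDiffAt_trans a b (cc_mem ha) (by rw [symm_cc ha]; exact hb)).differentiableAt (by simp)
  exact (h2.hasFDerivAt.comp_hasDerivAt t (hd a t ha).hasDerivAt).deriv

theorem IsGeodesic.continuous {g : Metric E M} {γ : ℝ → M} (h : IsGeodesic g γ) :
    Continuous γ := by
  have := h.cont
  rwa [continuousOn_univ] at this

theorem IsGeodesic.vel_compat [IsManifold 𝓘(ℝ, E) ∞ M] {g : Metric E M} {γ : ℝ → M}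
    (h : IsGeodesic g γ) : Compat (E := E) γ (vel γ) :=
  Vale.Agent.P255.vel_compat h.continuous (fun a t ha => (h.eqn a t (mem_univ _) ha).1)

theorem IsGeodesic.covD_vel {g : Metric E M} {γ : ℝ → M} (h : IsGeodesic g γ) {a : M} {t : ℝ}
    (ha : γ t ∈ (chartAt E a).source) :
    covD (g.coef a) (cc γ a) (vel γ a) t = 0 := by
  have h1 := (h.eqn a t (mem_univ _) ha).2.2
  unfold covD vel
  rw [h1]
  simp

section FD

variable [FiniteDimensional ℝ E]

theorem hasDerivAt_prodF (g : Metric E M) {γ : ℝ → M} (hγ : Continuous γ) {X Y : M → ℝ → E}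
    (hX : Compat γ X) (hY : Compat γ Y) {a : M} {t : ℝ} (ha : γ t ∈ (chartAt E a).source)
    (hc : DifferentiableAt ℝ (cc (E := E) γ a) t) (hXd : DifferentiableAt ℝ (X a) t)
    (hYd : DifferentiableAt ℝ (Y a) t) :
    HasDerivAt (prodF g γ X Y)
      (g.coef a (cc γ a t) (covD (g.coef a) (cc γ a) (X a) t) (Y a t) +
        g.coef a (cc γ a t) (X a t) (covD (g.coef a) (cc γ a) (Y a) t)) t := by
  have h1 := (g.isMetricOn' a).hasDerivAt_inner (cc_mem ha) hc hXd hYd
  refine h1.congr_of_eventuallyEq ?_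
  filter_upwards [eventually_mem_source hγ.continuousAt ha] with s hs
  exact prodF_eq g hX hY hs

theorem IsJacobi.compat' {g : Metric E M} {γ : ℝ → M} {J : M → ℝ → E} (hJ : IsJacobi g γ J) :
    Compat γ J := hJ.compat

/-- `⟨J, γ'⟩` is an affine function of time -/
theorem IsJacobi.prod_vel [IsManifold 𝓘(ℝ, E) ∞ M] {g : Metric E M} {γ : ℝ → M}
    (h : IsGeodesic g γ) {J : M → ℝ → E} (hJ : IsJacobi g γ J) :
    ∃ α β : ℝ, ∀ t, prodF g γ J (vel γ) t = α + β * t ∧
      HasDerivAt (prodF g γ J (vel γ)) β t := by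
  have h1 : ∀ a t, γ t ∈ (chartAt E a).source → HasDerivAt (prodF g γ J (vel γ))
      (g.coef a (cc γ a t) (covD (g.coef a) (cc γ a) (J a) t) (vel γ a t)) t := by
    intro a t ha
    have h2 := h.eqn a t (mem_univ _) ha
    have := hasDerivAt_prodF g h.continuous hJ.compat' h.vel_compat ha h2.1
      (hJ.eqn a t ha).1 h2.2.1
    rw [h.covD_vel ha] at this
    simpa using this
  have h3 : ∀ t, HasDerivAt (deriv (prodF g γ J (vel γ))) 0 t := by
    intro t
    have ha := mem_chart_source E (γ t)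
    have h2 := h.eqn (γ t) t (mem_univ _) ha
    have hm := g.isMetricOn' (γ t)
    have h4 := hm.hasDerivAt_inner (cc_mem ha) h2.1 (hJ.eqn (γ t) t ha).2.1 h2.2.1
    have h5 : covD (g.coef (γ t)) (cc γ (γ t)) (covD (g.coef (γ t)) (cc γ (γ t)) (J (γ t))) t =
        - curv (g.coef (γ t)) (cc γ (γ t) t) (J (γ t) t) (deriv (cc γ (γ t)) t)
          (deriv (cc γ (γ t)) t) := eq_neg_of_add_eq_zero_left (hJ.eqn (γ t) t ha).2.2
    have h6 := h.covD_vel ha
    unfold vel at h6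
    rw [h5, show covD (g.coef (γ t)) (cc γ (γ t)) (deriv (cc γ (γ t))) t = 0 from h6] at h4
    simp only [map_neg, neg_apply, map_zero, add_zero] at h4
    rw [hm.curv_skew (cc_mem ha), neg_zero] at h4
    refine h4.congr_of_eventuallyEq ?_
    filter_upwards [eventually_mem_source h.continuous.continuousAt ha] with s hs
    exact (h1 (γ t) s hs).deriv
  have h7 : ∀ s t, deriv (prodF g γ J (vel γ)) s = deriv (prodF g γ J (vel γ)) t :=
    is_const_of_deriv_eq_zero (fun t => (h3 t).differentiableAt) (fun t => (h3 t).deriv)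
  refine ⟨prodF g γ J (vel γ) 0, deriv (prodF g γ J (vel γ)) 0, fun t => ⟨?_, ?_⟩⟩
  · have h8 : ∀ t, HasDerivAt (fun t => prodF g γ J (vel γ) t -
        deriv (prodF g γ J (vel γ)) 0 * t) 0 t := by
      intro t
      have h9 := (h1 (γ t) t (mem_chart_source E (γ t))).differentiableAt.hasDerivAt
      have := h9.sub ((hasDerivAt_id t).const_mul (deriv (prodF g γ J (vel γ)) 0))
      refine this.congr_deriv ?_
      rw [h7 t 0]; simp
    have h9 := is_const_of_deriv_eq_zero (fun t => (h8 t).differentiableAt)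
      (fun t => (h8 t).deriv) t 0
    simp only [mul_zero, sub_zero] at h9
    linarith
  · rw [← h7 t 0]
    exact (h1 (γ t) t (mem_chart_source E (γ t))).differentiableAt.hasDerivAt

/-- first and second derivatives of `|J|²` -/
theorem IsJacobi.deriv_sq {g : Metric E M} {γ : ℝ → M}
    (h : IsGeodesic g γ) {J : M → ℝ → E} (hJ : IsJacobi g γ J) {a : M} {t : ℝ}
    (ha : γ t ∈ (chartAt E a).source) :
    HasDerivAt (prodF g γ J J)
      (2 * g.coef a (cc γ a t) (covD (g.coef a) (cc γ a) (J a) t) (J a t)) t ∧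
    HasDerivAt (deriv (prodF g γ J J))
      (2 * (g.coef a (cc γ a t) (covD (g.coef a) (cc γ a) (J a) t)
          (covD (g.coef a) (cc γ a) (J a) t) -
        g.coef a (cc γ a t) (curv (g.coef a) (cc γ a t) (J a t) (deriv (cc γ a) t)
          (deriv (cc γ a) t)) (J a t))) t := by
  have hm := g.isMetricOn' a
  have h1 : ∀ t, γ t ∈ (chartAt E a).source → HasDerivAt (prodF g γ J J)
      (2 * g.coef a (cc γ a t) (covD (g.coef a) (cc γ a) (J a) t) (J a t)) t := by
    intro t ha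
    have h2 := h.eqn a t (mem_univ _) ha
    have h3 := hJ.eqn a t ha
    have := hasDerivAt_prodF g h.continuous hJ.compat' hJ.compat' ha h2.1 h3.1 h3.1
    refine this.congr_deriv ?_
    rw [hm.symm _ (cc_mem ha) (J a t)]
    ring
  refine ⟨h1 t ha, ?_⟩
  have h2 := h.eqn a t (mem_univ _) ha
  have h3 := hJ.eqn a t ha
  have h4 := (hm.hasDerivAt_inner (cc_mem ha) h2.1 h3.2.1 h3.1).const_mul 2
  have h5 : covD (g.coef a) (cc γ a) (covD (g.coef a) (cc γ a) (J a)) t =
      - curv (g.coef a) (cc γ a t) (J a t) (deriv (cc γ a) t) (deriv (cc γ a) t) :=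
    eq_neg_of_add_eq_zero_left h3.2.2
  rw [h5] at h4
  refine (h4.congr_deriv ?_).congr_of_eventuallyEq ?_
  · simp only [map_neg, neg_apply]
    ring
  · filter_upwards [eventually_mem_source h.continuous.continuousAt ha] with s hs
    exact (h1 s hs).deriv

end FD

end Vale.Agent.P255
end
end
end

section

section

/-!
# P255: uniqueness of Jacobi fields; nonpositive curvature implies no conjugate points
-/

open scoped Manifold ContDiff Topology
open Set Filter

set_option maxSynthPendingDepth 3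

noncomputable section

namespace Vale.Agent.P255

variable {E : Type} [NormedAddCommGroup E] [NormedSpace ℝ E]

/-- `x ↦ R(x,y)y` as a linear map -/
def curvOp (G : E → E →L[ℝ] E →L[ℝ] ℝ) (u y : E) : E →L[ℝ] E :=
  ((fderiv ℝ (chrisB G) u).flip y).flip y - (fderiv ℝ (chrisB G) u y).flip y
    + (chrisB G u).flip (chrisB G u y y) - (chrisB G u y) ∘L ((chrisB G u).flip y)

/-- the operator of the first order system satisfied by `(J, DJ)` -/
def jacOp (G : E → E →L[ℝ] E →L[ℝ] ℝ) (u y : E) : (E × E) →L[ℝ] (E × E) :=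
  ((ContinuousLinearMap.snd ℝ E E) - (chrisB G u y) ∘L (ContinuousLinearMap.fst ℝ E E)).prod
    (-((curvOp G u y) ∘L (ContinuousLinearMap.fst ℝ E E))
      - (chrisB G u y) ∘L (ContinuousLinearMap.snd ℝ E E))

variable [FiniteDimensional ℝ E]

theorem IsMetricOn.curvOp_apply {G : E → E →L[ℝ] E →L[ℝ] ℝ} {U : Set E} (h : IsMetricOn G U)
    {u : E} (hu : u ∈ U) (x y : E) : curvOp G u y x = curv G u x y y := by
  rw [h.curv_eq hu]
  simp [curvOp]

theorem IsMetricOn.continuousAt_jacOp {G : E → E →L[ℝ] E →L[ℝ] ℝ} {U : Set E}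
    (h : IsMetricOn G U) {c y : ℝ → E} {t : ℝ} (ht : c t ∈ U) (hc : ContinuousAt c t)
    (hy : ContinuousAt y t) : ContinuousAt (fun s => jacOp G (c s) (y s)) t := by
  have h1 : ContinuousAt (fun s => chrisB G (c s)) t :=
    ContinuousAt.comp (g := chrisB G) (h.contDiffAt_chrisB ht).continuousAt hc
  have h2 : ContinuousAt (fun s => fderiv ℝ (chrisB G) (c s)) t :=
    ContinuousAt.comp (g := fderiv ℝ (chrisB G))
      ((h.contDiffAt_chrisB ht).fderiv_right (m := 0) (by simp)).continuousAt hc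
  have h3 : ContinuousAt (fun s => chrisB G (c s) (y s)) t := h1.clm_apply hy
  have h4 : ContinuousAt (fun s => chrisB G (c s) (y s) (y s)) t := h3.clm_apply hy
  have h5 : ContinuousAt (fun s => (chrisB G (c s)).flip) t :=
    (ContinuousLinearMap.flipₗᵢ ℝ E E E).continuous.continuousAt.comp h1
  have h6 : ContinuousAt (fun s => (fderiv ℝ (chrisB G) (c s)).flip) t :=
    (ContinuousLinearMap.flipₗᵢ ℝ E E (E →L[ℝ] E)).continuous.continuousAt.comp h2
  have h7 : ContinuousAt (fun s => ((fderiv ℝ (chrisB G) (c s)).flip (y s)).flip) t :=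
    (ContinuousLinearMap.flipₗᵢ ℝ E E E).continuous.continuousAt.comp (h6.clm_apply hy)
  have h8 : ContinuousAt (fun s => (fderiv ℝ (chrisB G) (c s) (y s)).flip) t :=
    (ContinuousLinearMap.flipₗᵢ ℝ E E E).continuous.continuousAt.comp (h2.clm_apply hy)
  have hcu : ContinuousAt (fun s => curvOp G (c s) (y s)) t := by
    unfold curvOp
    refine ((h7.clm_apply hy).sub (h8.clm_apply hy)).add (h5.clm_apply h4) |>.sub ?_
    exact h3.clm_comp (h5.clm_apply hy)
  unfold jacOp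
  have h9 : ContinuousAt (fun s => (ContinuousLinearMap.snd ℝ E E) -
      (chrisB G (c s) (y s)) ∘L (ContinuousLinearMap.fst ℝ E E)) t :=
    continuousAt_const.sub (h3.clm_comp continuousAt_const)
  have h10 : ContinuousAt (fun s => -((curvOp G (c s) (y s)) ∘L (ContinuousLinearMap.fst ℝ E E))
      - (chrisB G (c s) (y s)) ∘L (ContinuousLinearMap.snd ℝ E E)) t :=
    (hcu.clm_comp continuousAt_const).neg.sub (h3.clm_comp continuousAt_const)
  exact (ContinuousLinearMap.prodₗᵢ (𝕜 := ℝ) (E := E × E) (F := E) (G := E)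
    ℝ).continuous.continuousAt.comp (h9.prodMk h10)

variable {M : Type} [TopologicalSpace M] [ChartedSpace E M]

theorem IsJacobi.hasDerivAt_pair {g : Metric E M} {γ : ℝ → M} {J : M → ℝ → E}
    (hJ : IsJacobi g γ J) {a : M} {t : ℝ} (ha : γ t ∈ (chartAt E a).source) :
    HasDerivAt (fun s => (J a s, covD (g.coef a) (cc γ a) (J a) s))
      (jacOp (g.coef a) (cc γ a t) (deriv (cc γ a) t)
        (J a t, covD (g.coef a) (cc γ a) (J a) t)) t := by
  obtain ⟨h1, h2, h3⟩ := hJ.eqn a t ha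
  have h4 : deriv (J a) t = covD (g.coef a) (cc γ a) (J a) t -
      chris (g.coef a) (cc γ a t) (deriv (cc γ a) t) (J a t) := by
    unfold covD; abel
  have h5 : deriv (covD (g.coef a) (cc γ a) (J a)) t =
      - curv (g.coef a) (cc γ a t) (J a t) (deriv (cc γ a) t) (deriv (cc γ a) t) -
      chris (g.coef a) (cc γ a t) (deriv (cc γ a) t) (covD (g.coef a) (cc γ a) (J a) t) := by
    rw [← eq_neg_of_add_eq_zero_left h3]
    conv_rhs => rw [covD]
    abel
  have h6 := h1.hasDerivAt.prodMk h2.hasDerivAt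
  refine h6.congr_deriv ?_
  rw [h4, h5]
  simp [jacOp, (g.isMetricOn' a).curvOp_apply (cc_mem ha), chrisB_apply]

theorem IsJacobi.exists_nbhd {g : Metric E M} {γ : ℝ → M} (h : IsGeodesic g γ)
    {J : M → ℝ → E} (hJ : IsJacobi g γ J) {a : M} {t₀ : ℝ}
    (ha : γ t₀ ∈ (chartAt E a).source) :
    ∃ ε > 0, (∀ t ∈ Ioo (t₀ - ε) (t₀ + ε), γ t ∈ (chartAt E a).source) ∧
      ∀ s ∈ Ioo (t₀ - ε) (t₀ + ε), J a s = 0 → covD (g.coef a) (cc γ a) (J a) s = 0 →
        ∀ t ∈ Ioo (t₀ - ε) (t₀ + ε), J a t = 0 := by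
  have hgt := h.eqn a t₀ (mem_univ _) ha
  have h1 : ContinuousAt (fun s => jacOp (g.coef a) (cc γ a s) (deriv (cc γ a) s)) t₀ :=
    (g.isMetricOn' a).continuousAt_jacOp (cc_mem ha) hgt.1.continuousAt hgt.2.1.continuousAt
  obtain ⟨K, hK⟩ : ∃ K : ℝ, ∀ᶠ s in 𝓝 t₀,
      ‖jacOp (g.coef a) (cc γ a s) (deriv (cc γ a) s)‖ ≤ K := by
    refine ⟨‖jacOp (g.coef a) (cc γ a t₀) (deriv (cc γ a) t₀)‖ + 1, ?_⟩
    have := h1.norm.eventually (Iio_mem_nhds (lt_add_one _))
    exact this.mono (fun s hs => le_of_lt hs)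
  have h2 := (eventually_mem_source h.continuous.continuousAt ha).and hK
  obtain ⟨ε, hε, hball⟩ := Metric.eventually_nhds_iff_ball.1 h2
  have hI : ∀ t, t ∈ Ioo (t₀ - ε) (t₀ + ε) → t ∈ Metric.ball t₀ ε := by
    intro t ht
    rw [Real.ball_eq_Ioo]; exact ht
  refine ⟨ε, hε, fun t ht => (hball t (hI t ht)).1, fun s hs hs1 hs2 t ht => ?_⟩
  have hu := ODE_solution_unique_of_mem_Ioo
    (v := fun s x => jacOp (g.coef a) (cc γ a s) (deriv (cc γ a) s) x) (s := fun _ => univ)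
    (K := Real.toNNReal K) (f := fun s => (J a s, covD (g.coef a) (cc γ a) (J a) s))
    (g := fun _ => 0) (a := t₀ - ε) (b := t₀ + ε) (t₀ := s) ?_ hs ?_ ?_ ?_
  · have := hu ht
    exact congr_arg Prod.fst this
  · intro t ht
    refine LipschitzOnWith.of_dist_le_mul (fun x _ y _ => ?_)
    rw [dist_eq_norm, dist_eq_norm, ← map_sub]
    refine (ContinuousLinearMap.le_opNorm _ _).trans ?_
    gcongr
    exact (hball t (hI t ht)).2.trans (Real.le_coe_toNNReal K)
  · intro t ht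
    exact ⟨hJ.hasDerivAt_pair (hball t (hI t ht)).1, mem_univ _⟩
  · intro t ht
    refine ⟨?_, mem_univ _⟩
    simpa using hasDerivAt_const t (0 : E × E)
  · simp [hs1, hs2]

omit [FiniteDimensional ℝ E] in
theorem prodF_self_eq_zero {g : Metric E M} {γ : ℝ → M} {J : M → ℝ → E} (hJ : Compat γ J)
    {a : M} {t : ℝ} (ha : γ t ∈ (chartAt E a).source) : prodF g γ J J t = 0 ↔ J a t = 0 := by
  rw [prodF_eq g hJ hJ ha]
  constructor
  · exact (g.isMetricOn' a).eq_zero (cc_mem ha)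
  · intro h; rw [h]; simp

/-- unique continuation for Jacobi fields -/
theorem IsJacobi.zero_of_eventually {g : Metric E M} {γ : ℝ → M} (h : IsGeodesic g γ)
    {J : M → ℝ → E} (hJ : IsJacobi g γ J) {t₀ : ℝ}
    (h0 : ∀ᶠ s in 𝓝 t₀, prodF g γ J J s = 0) :
    ∀ a t, γ t ∈ (chartAt E a).source → J a t = 0 := by
  set Z : Set ℝ := {t | ∀ᶠ s in 𝓝 t, prodF g γ J J s = 0} with hZ
  have hopen : IsOpen Z := by
    rw [isOpen_iff_mem_nhds]
    intro t ht
    exact eventually_eventually_nhds.2 ht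
  have hclosed : IsClosed Z := by
    rw [← closure_subset_iff_isClosed]
    intro t ht
    have ha := mem_chart_source E (γ t)
    obtain ⟨ε, hε, hsrc, huniq⟩ := hJ.exists_nbhd h ha
    obtain ⟨s, hsZ, hs⟩ := Metric.mem_closure_iff.1 ht ε hε
    have hsI : s ∈ Ioo (t - ε) (t + ε) := by
      rw [← Real.ball_eq_Ioo, Metric.mem_ball, dist_comm]; exact hs
    have hloc : (fun x => J (γ t) x) =ᶠ[𝓝 s] fun _ => 0 := by
      filter_upwards [hsZ, Ioo_mem_nhds hsI.1 hsI.2] with x hx hxI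
      exact (prodF_self_eq_zero hJ.compat' (hsrc x hxI)).1 hx
    have hcov : covD (g.coef (γ t)) (cc γ (γ t)) (J (γ t)) s = 0 := by
      have h1 : deriv (J (γ t)) s = 0 := by
        have := hloc.deriv_eq
        simpa using this
      have h2 : J (γ t) s = 0 := hloc.self_of_nhds
      unfold covD
      rw [h1, h2, ← chrisB_apply]; simp
    have hall := huniq s hsI hloc.self_of_nhds hcov
    change ∀ᶠ s in 𝓝 t, prodF g γ J J s = 0
    filter_upwards [Ioo_mem_nhds (show t - ε < t by linarith) (show t < t + ε by linarith)]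
      with x hx
    exact (prodF_self_eq_zero hJ.compat' (hsrc x hx)).2 (hall x hx)
  have huniv : Z = univ := IsClopen.eq_univ ⟨hclosed, hopen⟩ ⟨t₀, h0⟩
  intro a t ha
  have ht : t ∈ Z := by rw [huniv]; exact mem_univ _
  have ht' : ∀ᶠ s in 𝓝 t, prodF g γ J J s = 0 := ht
  exact (prodF_self_eq_zero hJ.compat' ha).1 ht'.self_of_nhds

/-- a Jacobi field with vanishing initial data vanishes -/
theorem IsJacobi.zero_of_initial {g : Metric E M} {γ : ℝ → M} (h : IsGeodesic g γ)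
    {J : M → ℝ → E} (hJ : IsJacobi g γ J) {a : M} {t₀ : ℝ}
    (ha : γ t₀ ∈ (chartAt E a).source) (h0 : J a t₀ = 0)
    (h1 : covD (g.coef a) (cc γ a) (J a) t₀ = 0) :
    ∀ b t, γ t ∈ (chartAt E b).source → J b t = 0 := by
  obtain ⟨ε, hε, hsrc, huniq⟩ := hJ.exists_nbhd h ha
  have h2 := huniq t₀ ⟨by linarith, by linarith⟩ h0 h1
  refine hJ.zero_of_eventually h (t₀ := t₀) ?_
  filter_upwards [Ioo_mem_nhds (show t₀ - ε < t₀ by linarith) (show t₀ < t₀ + ε by linarith)]
      with x hx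
  exact (prodF_self_eq_zero hJ.compat' (hsrc x hx)).2 (h2 x hx)

end Vale.Agent.P255
end
end
end

section

section

/-!
# P255: the glued space is path connected
-/

open scoped Manifold ContDiff Topology
open Set

noncomputable section

namespace Vale.Agent.P255

theorem Glue.joined_of_segment {E : Type} [NormedAddCommGroup E] [NormedSpace ℝ E] (S : Glue E)
    {k : S.K} (u v : S.Om k) (h : segment ℝ (u : E) (v : E) ⊆ S.Om k) :
    Joined (S.proj k u) (S.proj k v) := by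
  have h1 : JoinedIn (S.Om k) (u : E) (v : E) := JoinedIn.of_segment_subset h
  have h2 : Joined u v := joinedIn_iff_joined u.2 v.2 |>.1 h1
  exact h2.map (S.continuous_proj k)

variable {δ : ℝ}

theorem proj_eq_of_rel (hδ : 0 < δ) {k l : Kind} {u v : E3} (hu : u ∈ Om δ k) (hv : v ∈ Om δ l)
    (h : rel δ (k, u) (l, v)) :
    (Sd δ hδ).proj k ⟨u, hu⟩ = (Sd δ hδ).proj l ⟨v, hv⟩ :=
  ((Sd δ hδ).proj_eq_proj _ _).2 h

theorem plane_near {c ρ x y : ℝ} (hρ : 0 < ρ) (hc : 2 * ρ < c) (hx : |x| ≤ c / 2)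
    (hy : |y| ≤ c / 2) (h : ρ ^ 2 < x ^ 2 + y ^ 2) (k l : ℤ) :
    ρ ^ 2 < (x - c * k) ^ 2 + (y - c * l) ^ 2 := by
  have hc0 : 0 < c := by linarith
  have key : ∀ (m : ℤ) (z : ℝ), |z| ≤ c / 2 → m ≠ 0 → ρ ^ 2 < (z - c * m) ^ 2 := by
    intro m z hz hm
    have h2 : (1 : ℝ) ≤ |(m : ℝ)| := by
      have : (1 : ℤ) ≤ |m| := Int.one_le_abs hm
      rw [← Int.cast_abs]
      exact_mod_cast this
    have h3 : c ≤ |c * (m : ℝ)| := by
      rw [abs_mul, abs_of_pos hc0]
      linarith only [mul_nonneg (le_of_lt (sub_pos.2 hc0)) (sub_nonneg.2 h2)]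
    have h5 : ρ < |z - c * m| := by
      have := abs_sub_abs_le_abs_sub (c * (m : ℝ)) z
      rw [abs_sub_comm] at this
      linarith
    rw [← sq_abs (z - c * m)]
    exact pow_lt_pow_left₀ h5 hρ.le (by norm_num)
  by_cases hk : k = 0
  · by_cases hl : l = 0
    · subst hk hl
      simpa using h
    · have := key l y hy hl
      have := sq_nonneg (x - c * k)
      linarith
  · have := key k x hx hk
    have := sq_nonneg (y - c * l)
    linarith

theorem exists_reduce_symm {c : ℝ} (hc : 0 < c) (x : ℝ) : ∃ y, Mult c (y - x) ∧ |y| ≤ c / 2 := by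
  obtain ⟨y, hy, h0, h1⟩ := exists_reduce hc (x + c / 2)
  refine ⟨y - c / 2, ?_, ?_⟩
  · rwa [show y - (x + c / 2) = y - c / 2 - x by ring] at hy
  · rw [abs_le]
    constructor <;> linarith

/-- radial segments in a plane minus discs -/
theorem radial_segment {c ρ r r' θ : ℝ} (hρ : 0 < ρ) (hc : 2 * r' < c) (hr : ρ < r) (hr' : ρ < r')
    (hx : |r * Real.cos θ| ≤ c / 2) (hy : |r * Real.sin θ| ≤ c / 2) {t : ℝ} (ht0 : 0 ≤ t)
    (ht1 : t ≤ 1) (k l : ℤ) :
    ρ ^ 2 < ((1 - t) * (r * Real.cos θ) + t * (r' * Real.cos θ) - c * k) ^ 2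
      + ((1 - t) * (r * Real.sin θ) + t * (r' * Real.sin θ) - c * l) ^ 2 := by
  have h1 : ∀ z w : ℝ, |z| ≤ c / 2 → |w| ≤ c / 2 → |(1 - t) * z + t * w| ≤ c / 2 := by
    intro z w hz hw
    have a1 := abs_le.1 hz
    have a2 := abs_le.1 hw
    rw [abs_le]
    constructor <;> nlinarith
  have hr0 : 0 < r' := hρ.trans hr'
  have h2 : |r' * Real.cos θ| ≤ c / 2 := (abs_mul_cos_le hr0 θ).trans (by linarith)
  have h3 : |r' * Real.sin θ| ≤ c / 2 := (abs_mul_sin_le hr0 θ).trans (by linarith)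
  apply plane_near hρ (by linarith) (h1 _ _ hx h2) (h1 _ _ hy h3)
  have h4 := Real.sin_sq_add_cos_sq θ
  have h5 : ((1 - t) * (r * Real.cos θ) + t * (r' * Real.cos θ)) ^ 2
      + ((1 - t) * (r * Real.sin θ) + t * (r' * Real.sin θ)) ^ 2
      = ((1 - t) * r + t * r') ^ 2 * (Real.sin θ ^ 2 + Real.cos θ ^ 2) := by ring
  rw [h5, h4, mul_one]
  have h6 : ρ < (1 - t) * r + t * r' := by
    rcases eq_or_lt_of_le ht0 with h | h
    · rw [← h]; linarith
    · have e1 : (1 - t) * ρ ≤ (1 - t) * r := mul_le_mul_of_nonneg_left hr.le (by linarith)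
      have e2 : t * ρ < t * r' := mul_lt_mul_of_pos_left hr' h
      linarith
  exact pow_lt_pow_left₀ h6 hρ.le (by norm_num)

theorem joined_C (hδ : 0 < δ) (u v : E3) (hu : u ∈ Om δ .C) (hv : v ∈ Om δ .C) :
    Joined ((Sd δ hδ).proj .C ⟨u, hu⟩) ((Sd δ hδ).proj .C ⟨v, hv⟩) := by
  refine (Sd δ hδ).joined_of_segment (k := Kind.C) ⟨u, hu⟩ ⟨v, hv⟩ ?_
  rintro w ⟨a, b, ha, hb, hab, rfl⟩
  have hu1 : -3 < u 0 := hu.1
  have hu2 : u 0 < 4 := hu.2
  have hv1 : -3 < v 0 := hv.1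
  have hv2 : v 0 < 4 := hv.2
  have e : (a • u + b • v) 0 = a * u 0 + b * v 0 := by simp
  show -3 < (a • u + b • v) 0 ∧ (a • u + b • v) 0 < 4
  rw [e]
  have hb' : b = 1 - a := by linarith
  subst hb'
  constructor
  · by_cases h : a = 0
    · subst h; linarith
    · have : 0 < a := lt_of_le_of_ne ha (Ne.symm h)
      (by_contra nlg; linarith only [nlg, mul_nonneg (le_of_lt (sub_pos.2 hv1)) (sub_nonneg.2 hb), mul_pos (sub_pos.2 hu1) (sub_pos.2 this), mul_nonneg (sub_nonneg.2 (not_lt.1 nlg)) (le_of_lt (sub_pos.2 this)), mul_nonneg (sub_nonneg.2 (not_lt.1 nlg)) (sub_nonneg.2 hb)])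
  · by_cases h : a = 0
    · subst h; linarith
    · have : 0 < a := lt_of_le_of_ne ha (Ne.symm h)
      (by_contra nlg; linarith only [nlg, mul_nonneg (le_of_lt (sub_pos.2 hv2)) (sub_nonneg.2 hb), mul_pos (sub_pos.2 hu2) (sub_pos.2 this), mul_nonneg (sub_nonneg.2 (not_lt.1 nlg)) (le_of_lt (sub_pos.2 this)), mul_nonneg (sub_nonneg.2 (not_lt.1 nlg)) (sub_nonneg.2 hb)])

theorem zero_mem_C : (0 : E3) ∈ Om δ .C := by
  show -3 < (0 : E3) 0 ∧ (0 : E3) 0 < 4
  constructor <;> simp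

theorem joined_base (hδ : 0 < δ) (x : (Sd δ hδ).Space) :
    Joined x ((Sd δ hδ).proj .C ⟨0, zero_mem_C (δ := δ)⟩) := by
  obtain ⟨k, ⟨u, hu⟩, rfl⟩ := (Sd δ hδ).exists_rep x
  have hu' : u ∈ Om δ k := hu
  have hk : ∀ k' : Kind, k' = k → Joined ((Sd δ hδ).proj k ⟨u, hu⟩)
      ((Sd δ hδ).proj .C ⟨0, zero_mem_C (δ := δ)⟩) := by
    intro k' hk'
    cases k'
    · subst hk'
      have hsL : 0 < sL := by unfold sL; norm_num
      obtain ⟨a, ha, ha1⟩ := exists_reduce_symm hsL (u 0)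
      obtain ⟨b, hb, hb1⟩ := exists_reduce_symm hsL (u 1)
      have hv : ∀ k l : ℤ, 2 ^ 2 < (a - sL * k) ^ 2 + (b - sL * l) ^ 2 := by
        intro k l
        have := plane_translate ha hb hu' k l
        rwa [add_sub_cancel, add_sub_cancel] at this
      have h00 := hv 0 0
      simp only [Int.cast_zero, mul_zero, sub_zero] at h00
      obtain ⟨r, θ, hr, -, hx, hy⟩ := exists_polar h00
      subst hx hy
      let v : E3 := !₂[r * Real.cos θ, r * Real.sin θ, u 2]
      let v' : E3 := !₂[3 * Real.cos θ, 3 * Real.sin θ, u 2]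
      have hseg : segment ℝ v v' ⊆ Om δ .L := by
        rintro w ⟨s, t, hs, ht, hst, rfl⟩ k l
        have := radial_segment (r := r) (r' := 3) (θ := θ) (c := sL) (t := t) two_pos
          (by unfold sL; norm_num) hr (by norm_num) ha1 hb1 ht (by linarith) k l
        have e0 : (s • v + t • v') 0
            = (1 - t) * (r * Real.cos θ) + t * (3 * Real.cos θ) := by
          have : s = 1 - t := by linarith
          subst this
          simp [v, v']
        have e1 : (s • v + t • v') 1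
            = (1 - t) * (r * Real.sin θ) + t * (3 * Real.sin θ) := by
          have : s = 1 - t := by linarith
          subst this
          simp [v, v']
        rw [e0, e1]
        exact this
      have hvm : v ∈ Om δ .L := hseg (left_mem_segment ℝ v v')
      have hvm' : v' ∈ Om δ .L := hseg (right_mem_segment ℝ v v')
      have j1 : (Sd δ hδ).proj .L ⟨u, hu⟩ = (Sd δ hδ).proj .L ⟨v, hvm⟩ := by
        refine proj_eq_of_rel hδ _ _ ?_
        refine ⟨ha, hb, ?_⟩
        show Mult (per δ) (u 2 - u 2)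
        rw [sub_self]
        exact mult_zero _
      have j2 := (Sd δ hδ).joined_of_segment (k := Kind.L) ⟨v, hvm⟩ ⟨v', hvm'⟩ hseg
      let w : E3 := !₂[-2, u 2, θ]
      have hw : w ∈ Om δ .C := by
        show (-3 : ℝ) < -2 ∧ (-2 : ℝ) < 4
        constructor <;> norm_num
      have j3 : (Sd δ hδ).proj .L ⟨v', hvm'⟩ = (Sd δ hδ).proj .C ⟨w, hw⟩ := by
        refine proj_eq_of_rel hδ _ _ ?_
        have hφ : phi (w 0) = 3 := by
          show phi (-2) = 3
          rw [phi_of_le (by norm_num)]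
          norm_num
        refine ⟨?_, ?_, ?_⟩
        · rw [hφ]
          show Mult sL (3 * Real.cos θ - 3 * Real.cos θ)
          rw [sub_self]
          exact mult_zero _
        · rw [hφ]
          show Mult sL (3 * Real.sin θ - 3 * Real.sin θ)
          rw [sub_self]
          exact mult_zero _
        · show Mult (per δ) (u 2 - u 2)
          rw [sub_self]
          exact mult_zero _
      rw [j1]
      refine j2.trans ?_
      rw [j3]
      exact joined_C hδ _ _ _ _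
    · subst hk'
      exact joined_C hδ _ _ _ _
    · subst hk'
      obtain ⟨a, ha, ha1⟩ := exists_reduce_symm (sR_pos hδ) (u 0)
      obtain ⟨b, hb, hb1⟩ := exists_reduce_symm (sR_pos hδ) (u 1)
      have hv : ∀ k l : ℤ, (1 / δ + 1) ^ 2 < (a - sR δ * k) ^ 2 + (b - sR δ * l) ^ 2 := by
        intro k l
        have := plane_translate ha hb hu' k l
        rwa [add_sub_cancel, add_sub_cancel] at this
      have h00 := hv 0 0
      simp only [Int.cast_zero, mul_zero, sub_zero] at h00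
      obtain ⟨r, θ, hr, -, hx, hy⟩ := exists_polar h00
      subst hx hy
      have hδ' : 0 < 1 / δ := by positivity
      let v : E3 := !₂[r * Real.cos θ, r * Real.sin θ, u 2]
      let v' : E3 := !₂[(1 / δ + 2) * Real.cos θ, (1 / δ + 2) * Real.sin θ, u 2]
      have hseg : segment ℝ v v' ⊆ Om δ .R := by
        rintro w ⟨s, t, hs, ht, hst, rfl⟩ k l
        have := radial_segment (r := r) (r' := 1 / δ + 2) (θ := θ) (c := sR δ) (t := t)
          (ρ := 1 / δ + 1) (by positivity)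
          (by
            unfold sR
            have e : 2 / δ = 1 / δ + 1 / δ := by ring
            linarith only [e]) hr (by linarith only []) ha1 hb1 ht (by linarith only [hst, hs]) k l
        have e0 : (s • v + t • v') 0
            = (1 - t) * (r * Real.cos θ) + t * ((1 / δ + 2) * Real.cos θ) := by
          have : s = 1 - t := by linarith
          subst this
          simp [v, v']
        have e1 : (s • v + t • v') 1
            = (1 - t) * (r * Real.sin θ) + t * ((1 / δ + 2) * Real.sin θ) := by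
          have : s = 1 - t := by linarith
          subst this
          simp [v, v']
        rw [e0, e1]
        exact this
      have hvm : v ∈ Om δ .R := hseg (left_mem_segment ℝ v v')
      have hvm' : v' ∈ Om δ .R := hseg (right_mem_segment ℝ v v')
      have j1 : (Sd δ hδ).proj .R ⟨u, hu⟩ = (Sd δ hδ).proj .R ⟨v, hvm⟩ := by
        refine proj_eq_of_rel hδ _ _ ?_
        refine ⟨ha, hb, ?_⟩
        show Mult (2 * Real.pi) (u 2 - u 2)
        rw [sub_self]
        exact mult_zero _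
      have j2 := (Sd δ hδ).joined_of_segment (k := Kind.R) ⟨v, hvm⟩ ⟨v', hvm'⟩ hseg
      let w : E3 := !₂[3, θ / δ, u 2 - θ]
      have hw : w ∈ Om δ .C := by
        show (-3 : ℝ) < 3 ∧ (3 : ℝ) < 4
        constructor <;> norm_num
      have j3 : (Sd δ hδ).proj .R ⟨v', hvm'⟩ = (Sd δ hδ).proj .C ⟨w, hw⟩ := by
        refine proj_eq_of_rel hδ _ _ ?_
        have hφ : chi δ (w 0) / δ = 1 / δ + 2 := by
          show chi δ 3 / δ = 1 / δ + 2
          rw [chi_div_of_ge hδ (by norm_num)]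
          ring
        have hθ : δ * w 1 = θ := by
          show δ * (θ / δ) = θ
          field_simp
        refine ⟨?_, ?_, ?_⟩
        · rw [hφ, hθ]
          show Mult (sR δ) ((1 / δ + 2) * Real.cos θ - (1 / δ + 2) * Real.cos θ)
          rw [sub_self]
          exact mult_zero _
        · rw [hφ, hθ]
          show Mult (sR δ) ((1 / δ + 2) * Real.sin θ - (1 / δ + 2) * Real.sin θ)
          rw [sub_self]
          exact mult_zero _
        · rw [hθ]
          show Mult (2 * Real.pi) (u 2 - (u 2 - θ + θ))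
          rw [sub_add_cancel, sub_self]
          exact mult_zero _
      rw [j1]
      refine j2.trans ?_
      rw [j3]
      exact joined_C hδ _ _ _ _
  exact hk k rfl

instance (δ : ℝ) (hδ : 0 < δ) : PathConnectedSpace (Sd δ hδ).Space where
  nonempty := ⟨(Sd δ hδ).proj .C ⟨0, zero_mem_C (δ := δ)⟩⟩
  joined x y := (joined_base hδ x).trans (joined_base hδ y).symm

end Vale.Agent.P255
end
end
end

section

section

/-!
# P255: the monotone quantity in the collar
-/

open Set Filter Topology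

namespace Vale.Agent.P255

/-- The sum-of-squares identity behind the monotone quantity. -/
theorem sos_identity (E F H E1 F1 H1 D2 x y u w ξ ρ σ n m ζ : ℝ)
    (hz : n * (E * x + F * y) + m * (F * x + H * y) ≠ 0)
    (hN : n ^ 2 * E + 2 * n * m * F + m ^ 2 * H ≠ 0) :
    let z := n * (E * x + F * y) + m * (F * x + H * y)
    let N := n ^ 2 * E + 2 * n * m * F + m ^ 2 * H
    let D := E1 * x ^ 2 + 2 * F1 * x * y + H1 * y ^ 2
    let χ := ξ - σ * ζ
    let zp := n * (E1 * x + F1 * y) + m * (F1 * x + H1 * y)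
    let q := n * (E * u + F * w) + m * (F * u + H * w)
    let ζ' := (zp * χ + q) / z
    ρ ^ 2 + ξ * (-(1 / 2) * D2 * ξ - (E1 * x * u + F1 * (x * w + y * u) + H1 * y * w))
      + u * ((E1 * x + F1 * y) * ξ + E * u + F * w)
      + w * ((F1 * x + H1 * y) * ξ + F * u + H * w)
      + (D2 * σ * (ξ * ζ - 1 / 2 * σ * ζ ^ 2)
      + D * (ρ * ζ + ξ * ζ' - (1 / 2 * (-(1 / 2) * D) * ζ ^ 2 + 1 / 2 * σ * (2 * ζ * ζ'))))
    = (ρ + 1 / 2 * D * ζ) ^ 2 + (E * H - F ^ 2) * (n * w - m * u) ^ 2 / N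
      + (1 / N) * (q + D * N * χ / (2 * z)) ^ 2
      + 1 / 2 * ((-D2 * z ^ 2 - 1 / 2 * N * D ^ 2 + 2 * z * zp * D) / z ^ 2) * χ ^ 2 := by
  intro z N D χ zp q ζ'
  have hz' : z ≠ 0 := hz
  have hN' : N ≠ 0 := hN
  have hq : E * u ^ 2 + 2 * F * u * w + H * w ^ 2
      = (E * H - F ^ 2) * (n * w - m * u) ^ 2 / N + q ^ 2 / N := by
    rw [← add_div, eq_div_iff hN']
    simp only [q, N]
    ring
  have h1 : ζ' = (zp * χ + q) / z := rfl
  have h2 : (1 / N) * (q + D * N * χ / (2 * z)) ^ 2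
      = q ^ 2 / N + q * D * χ / z + D ^ 2 * N * χ ^ 2 / (4 * z ^ 2) := by
    field_simp
    ring
  have h3 : 1 / 2 * ((-D2 * z ^ 2 - 1 / 2 * N * D ^ 2 + 2 * z * zp * D) / z ^ 2) * χ ^ 2
      = - (1 / 2) * D2 * χ ^ 2 - D ^ 2 * N * χ ^ 2 / (4 * z ^ 2) + zp * D * χ ^ 2 / z := by
    field_simp
    ring
  rw [h2, h3]
  have h4 : D * (ρ * ζ + ξ * ζ' - (1 / 2 * (-(1 / 2) * D) * ζ ^ 2 + 1 / 2 * σ * (2 * ζ * ζ')))
      = D * ρ * ζ + 1 / 4 * D ^ 2 * ζ ^ 2 + D * χ * ζ' := by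
    simp only [χ]; ring
  have h5 : D * χ * ζ' = q * D * χ / z + zp * D * χ ^ 2 / z := by
    rw [h1]; field_simp; ring
  rw [h4, h5]
  have h6 : (E * H - F ^ 2) * (n * w - m * u) ^ 2 / N
      = E * u ^ 2 + 2 * F * u * w + H * w ^ 2 - q ^ 2 / N := by
    rw [hq]; ring
  rw [h6]
  simp only [χ]
  ring

/-- Coefficients `E, F, H` of the inverse metric on the torus fibres, as functions of the
distance coordinate, with first and second derivatives. -/
structure Profile where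
  (E F H E1 F1 H1 E2 F2 H2 : ℝ → ℝ)
  δ : ℝ
  dE : ∀ s, HasDerivAt E (E1 s) s
  dF : ∀ s, HasDerivAt F (F1 s) s
  dH : ∀ s, HasDerivAt H (H1 s) s
  dE1 : ∀ s, HasDerivAt E1 (E2 s) s
  dF1 : ∀ s, HasDerivAt F1 (F2 s) s
  dH1 : ∀ s, HasDerivAt H1 (H2 s) s
  cE2 : Continuous E2
  cF2 : Continuous F2
  cH2 : Continuous H2
  posE : ∀ s, 0 < E s
  posH : ∀ s, 0 < H s
  det : ∀ s, 0 < E s * H s - F s ^ 2
  left : ∀ s ≤ 0, E s = 1 ∧ F s = 0 ∧ E1 s = 0 ∧ F1 s = 0 ∧ E2 s = 0 ∧ F2 s = 0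
  leftH1 : ∀ s ≤ 0, 0 < H1 s
  leftConv : ∀ s ≤ 0, 0 ≤ -H2 s * H s + 3 / 2 * H1 s ^ 2
  right : ∀ s, 1 ≤ s → F s = -δ * E s ∧ H s = δ ^ 2 * E s + 1 ∧ F1 s = -δ * E1 s ∧
    H1 s = δ ^ 2 * E1 s ∧ F2 s = -δ * E2 s ∧ H2 s = δ ^ 2 * E2 s
  rightE1 : ∀ s, 1 ≤ s → E1 s < 0
  rightConv : ∀ s, 1 ≤ s → 0 ≤ -E2 s * E s + 3 / 2 * E1 s ^ 2
  K1 : ∀ s, 0 ≤ s → s ≤ 1 → ∀ p q, E2 s * p ^ 2 + 2 * F2 s * p * q + H2 s * q ^ 2 ≤ 0
  zL : ∀ s, 0 < s → s ≤ 1 → ∀ p q, 0 ≤ E1 s * p ^ 2 + 2 * F1 s * p * q + H1 s * q ^ 2 →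
    (p ≠ 0 ∨ q ≠ 0) → F s * p + H s * q ≠ 0
  zR : ∀ s, 0 ≤ s → s < 1 → ∀ p q, E1 s * p ^ 2 + 2 * F1 s * p * q + H1 s * q ^ 2 ≤ 0 →
    (p ≠ 0 ∨ q ≠ 0) → E s * p + F s * q ≠ 0
  K2 : ∀ s, 0 ≤ s → s ≤ 1 → ∀ p q, 0 ≤ E1 s * p ^ 2 + 2 * F1 s * p * q + H1 s * q ^ 2 →
    0 ≤ -(E2 s * p ^ 2 + 2 * F2 s * p * q + H2 s * q ^ 2) * (F s * p + H s * q) ^ 2
      - 1 / 2 * H s * (E1 s * p ^ 2 + 2 * F1 s * p * q + H1 s * q ^ 2) ^ 2
      + 2 * (F s * p + H s * q) * (F1 s * p + H1 s * q)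
        * (E1 s * p ^ 2 + 2 * F1 s * p * q + H1 s * q ^ 2)
  K3 : ∀ s, 0 ≤ s → s ≤ 1 → ∀ p q, E1 s * p ^ 2 + 2 * F1 s * p * q + H1 s * q ^ 2 ≤ 0 →
    0 ≤ -(E2 s * p ^ 2 + 2 * F2 s * p * q + H2 s * q ^ 2) * (E s * p + F s * q) ^ 2
      - 1 / 2 * E s * (E1 s * p ^ 2 + 2 * F1 s * p * q + H1 s * q ^ 2) ^ 2
      + 2 * (E s * p + F s * q) * (E1 s * p + F1 s * q)
        * (E1 s * p ^ 2 + 2 * F1 s * p * q + H1 s * q ^ 2)

namespace Profile

variable (P : Profile)

/-- `g_s^{-1}{}'(p,p)` -/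
def D (p q s : ℝ) : ℝ := P.E1 s * p ^ 2 + 2 * P.F1 s * p * q + P.H1 s * q ^ 2

/-- `g_s^{-1}{}''(p,p)` -/
def D2 (p q s : ℝ) : ℝ := P.E2 s * p ^ 2 + 2 * P.F2 s * p * q + P.H2 s * q ^ 2

/-- `ν(g_s^{-1} p)` for `ν = (n,m)` -/
def Z (n m p q s : ℝ) : ℝ := n * (P.E s * p + P.F s * q) + m * (P.F s * p + P.H s * q)

/-- derivative of `Z` in `s` -/
def Z1 (n m p q s : ℝ) : ℝ := n * (P.E1 s * p + P.F1 s * q) + m * (P.F1 s * p + P.H1 s * q)

theorem hasDerivAt_D (p q s : ℝ) : HasDerivAt (P.D p q) (P.D2 p q s) s := by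
  unfold D D2
  exact (((P.dE1 s).mul_const _).add ((((P.dF1 s).const_mul 2).mul_const p).mul_const q)).add
    ((P.dH1 s).mul_const _)

theorem hasDerivAt_Z (n m p q s : ℝ) : HasDerivAt (P.Z n m p q) (P.Z1 n m p q s) s := by
  unfold Z Z1
  exact ((((P.dE s).mul_const p).add ((P.dF s).mul_const q)).const_mul n).add
    ((((P.dF s).mul_const p).add ((P.dH s).mul_const q)).const_mul m)

theorem continuous_D2 (p q : ℝ) : Continuous (P.D2 p q) := by
  unfold D2
  have := P.cE2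
  have := P.cF2
  have := P.cH2
  fun_prop

end Profile

/-- Geodesic and Jacobi field in collar coordinates, in Hamiltonian form. -/
structure Sol (P : Profile) (p q u w : ℝ) (s σ ξ ρ h₁ h₂ : ℝ → ℝ) (t : ℝ) : Prop where
  ds : HasDerivAt s (σ t) t
  dσ : HasDerivAt σ (-(1 / 2) * P.D p q (s t)) t
  dξ : HasDerivAt ξ (ρ t) t
  dρ : HasDerivAt ρ (-(1 / 2) * P.D2 p q (s t) * ξ t
    - (P.E1 (s t) * p * u + P.F1 (s t) * (p * w + q * u) + P.H1 (s t) * q * w)) t
  dh₁ : HasDerivAt h₁ ((P.E1 (s t) * p + P.F1 (s t) * q) * ξ t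
    + P.E (s t) * u + P.F (s t) * w) t
  dh₂ : HasDerivAt h₂ ((P.F1 (s t) * p + P.H1 (s t) * q) * ξ t
    + P.F (s t) * u + P.H (s t) * w) t

/-- the basic quantity `ξ ξ' + π·η` -/
def PA (ξ ρ h₁ h₂ u w : ℝ) : ℝ := ξ * ρ + u * h₁ + w * h₂

/-- the quantity attached to the covector `ν = (n,m)` -/
noncomputable def PN (P : Profile) (n m p q s σ ξ ρ h₁ h₂ u w : ℝ) : ℝ :=
  PA ξ ρ h₁ h₂ u w + P.D p q s *
    (ξ * ((n * h₁ + m * h₂) / P.Z n m p q s)
      - 1 / 2 * σ * ((n * h₁ + m * h₂) / P.Z n m p q s) ^ 2)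

theorem Sol.hasDerivAt_PN {P : Profile} {p q u w : ℝ} {s σ ξ ρ h₁ h₂ : ℝ → ℝ} {t : ℝ}
    (h : Sol P p q u w s σ ξ ρ h₁ h₂ t) {n m : ℝ} (hz : P.Z n m p q (s t) ≠ 0)
    (hN : 0 < n ^ 2 * P.E (s t) + 2 * n * m * P.F (s t) + m ^ 2 * P.H (s t)) :
    HasDerivAt (fun v => PN P n m p q (s v) (σ v) (ξ v) (ρ v) (h₁ v) (h₂ v) u w)
      ((ρ t + 1 / 2 * P.D p q (s t) * ((n * h₁ t + m * h₂ t) / P.Z n m p q (s t))) ^ 2
      + (P.E (s t) * P.H (s t) - P.F (s t) ^ 2) * (n * w - m * u) ^ 2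
          / (n ^ 2 * P.E (s t) + 2 * n * m * P.F (s t) + m ^ 2 * P.H (s t))
      + (1 / (n ^ 2 * P.E (s t) + 2 * n * m * P.F (s t) + m ^ 2 * P.H (s t)))
        * ((n * (P.E (s t) * u + P.F (s t) * w) + m * (P.F (s t) * u + P.H (s t) * w))
          + P.D p q (s t) * (n ^ 2 * P.E (s t) + 2 * n * m * P.F (s t) + m ^ 2 * P.H (s t))
            * (ξ t - σ t * ((n * h₁ t + m * h₂ t) / P.Z n m p q (s t)))
            / (2 * P.Z n m p q (s t))) ^ 2
      + 1 / 2 * ((-P.D2 p q (s t) * P.Z n m p q (s t) ^ 2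
          - 1 / 2 * (n ^ 2 * P.E (s t) + 2 * n * m * P.F (s t) + m ^ 2 * P.H (s t))
              * P.D p q (s t) ^ 2
          + 2 * P.Z n m p q (s t) * P.Z1 n m p q (s t) * P.D p q (s t))
            / P.Z n m p q (s t) ^ 2)
        * (ξ t - σ t * ((n * h₁ t + m * h₂ t) / P.Z n m p q (s t))) ^ 2) t := by
  have hD : HasDerivAt (fun v => P.D p q (s v)) (P.D2 p q (s t) * σ t) t :=
    (P.hasDerivAt_D p q (s t)).comp t h.ds
  have hZ : HasDerivAt (fun v => P.Z n m p q (s v)) (P.Z1 n m p q (s t) * σ t) t :=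
    (P.hasDerivAt_Z n m p q (s t)).comp t h.ds
  have hζ' : ((n * ((P.E1 (s t) * p + P.F1 (s t) * q) * ξ t + P.E (s t) * u + P.F (s t) * w)
      + m * ((P.F1 (s t) * p + P.H1 (s t) * q) * ξ t + P.F (s t) * u + P.H (s t) * w))
        * P.Z n m p q (s t) - (n * h₁ t + m * h₂ t) * (P.Z1 n m p q (s t) * σ t))
          / P.Z n m p q (s t) ^ 2
      = (P.Z1 n m p q (s t) * (ξ t - σ t * ((n * h₁ t + m * h₂ t) / P.Z n m p q (s t)))
        + (n * (P.E (s t) * u + P.F (s t) * w) + m * (P.F (s t) * u + P.H (s t) * w)))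
          / P.Z n m p q (s t) := by
    simp only [Profile.Z1]
    field_simp
    ring
  have hnum : HasDerivAt (fun v => n * h₁ v + m * h₂ v) _ t :=
    (h.dh₁.const_mul n).add (h.dh₂.const_mul m)
  have hζ : HasDerivAt (fun v => (n * h₁ v + m * h₂ v) / P.Z n m p q (s v)) _ t :=
    (hnum.div hZ hz).congr_deriv hζ'
  have hζ2 : HasDerivAt (fun v => ((n * h₁ v + m * h₂ v) / P.Z n m p q (s v)) ^ 2) _ t :=
    hζ.pow 2
  have hA : HasDerivAt (fun v => ξ v * ρ v + u * h₁ v + w * h₂ v) _ t :=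
    ((h.dξ.mul h.dρ).add (h.dh₁.const_mul u)).add (h.dh₂.const_mul w)
  have hB : HasDerivAt (fun v => ξ v * ((n * h₁ v + m * h₂ v) / P.Z n m p q (s v))
      - 1 / 2 * σ v * ((n * h₁ v + m * h₂ v) / P.Z n m p q (s v)) ^ 2) _ t :=
    (h.dξ.mul hζ).sub ((h.dσ.const_mul (1 / 2)).mul hζ2)
  have htot : HasDerivAt (fun v => PN P n m p q (s v) (σ v) (ξ v) (ρ v) (h₁ v) (h₂ v) u w) _ t :=
    hA.add (hD.mul hB)
  refine (htot.congr_deriv ?_)
  have key := sos_identity (P.E (s t)) (P.F (s t)) (P.H (s t)) (P.E1 (s t)) (P.F1 (s t))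
    (P.H1 (s t)) (P.D2 p q (s t)) p q u w (ξ t) (ρ t) (σ t) n m
    ((n * h₁ t + m * h₂ t) / P.Z n m p q (s t)) hz hN.ne'
  have e1 : P.D p q (s t) = P.E1 (s t) * p ^ 2 + 2 * P.F1 (s t) * p * q + P.H1 (s t) * q ^ 2 := rfl
  have e2 : P.Z n m p q (s t) = n * (P.E (s t) * p + P.F (s t) * q)
    + m * (P.F (s t) * p + P.H (s t) * q) := rfl
  have e3 : P.Z1 n m p q (s t) = n * (P.E1 (s t) * p + P.F1 (s t) * q)
    + m * (P.F1 (s t) * p + P.H1 (s t) * q) := rfl
  rw [← e1, ← e2, ← e3] at key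
  rw [← key]
  simp only [Nat.cast_ofNat, Nat.reduceSub, pow_one]
  ring

end Vale.Agent.P255
end
end

section

section

/-!
# P255: local monotonicity of the monotone quantity in the collar
-/

open Set Filter Topology

namespace Vale.Agent.P255

theorem right_lt_of_deriv_pos {s : ℝ → ℝ} {c t : ℝ} (h : HasDerivAt s c t) (hc : 0 < c) :
    ∀ᶠ v in 𝓝[>] t, s t < s v := by
  have h1 := h.tendsto_slope.eventually (eventually_gt_nhds hc)
  have h2 : ∀ᶠ v in 𝓝[>] t, 0 < slope s t v :=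
    h1.filter_mono (nhdsWithin_mono _ (fun x hx => ne_of_gt hx))
  filter_upwards [h2, self_mem_nhdsWithin] with v hv hv'
  rw [slope_def_field] at hv
  have hvt : 0 < v - t := sub_pos.2 hv'
  have := (div_pos_iff_of_pos_right hvt).1 hv
  linarith

theorem right_gt_of_deriv_neg {s : ℝ → ℝ} {c t : ℝ} (h : HasDerivAt s c t) (hc : c < 0) :
    ∀ᶠ v in 𝓝[>] t, s v < s t := by
  have := right_lt_of_deriv_pos h.neg (neg_pos.2 hc)
  filter_upwards [this] with v hv
  simp only [Pi.neg_apply] at hv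
  linarith

namespace Profile

variable (P : Profile)

theorem D_right {p q s : ℝ} (hs : 1 ≤ s) : P.D p q s = P.E1 s * (p - P.δ * q) ^ 2 := by
  obtain ⟨-, -, h3, h4, -, -⟩ := P.right s hs
  rw [D, h3, h4]; ring

theorem D2_right {p q s : ℝ} (hs : 1 ≤ s) : P.D2 p q s = P.E2 s * (p - P.δ * q) ^ 2 := by
  obtain ⟨-, -, -, -, h5, h6⟩ := P.right s hs
  rw [D2, h5, h6]; ring

theorem D_left {p q s : ℝ} (hs : s ≤ 0) : P.D p q s = P.H1 s * q ^ 2 := by
  obtain ⟨-, -, h3, h4, -, -⟩ := P.left s hs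
  rw [D, h3, h4]; ring

theorem D2_left {p q s : ℝ} (hs : s ≤ 0) : P.D2 p q s = P.H2 s * q ^ 2 := by
  obtain ⟨-, -, -, -, h5, h6⟩ := P.left s hs
  rw [D2, h5, h6]; ring

/-- condition for the left form -/
theorem thL {p q s : ℝ} (hs : s ≤ 1) (hD : 0 ≤ P.D p q s) :
    0 ≤ -P.D2 p q s * P.Z 0 1 p q s ^ 2
      - 1 / 2 * ((0 : ℝ) ^ 2 * P.E s + 2 * 0 * 1 * P.F s + (1 : ℝ) ^ 2 * P.H s) * P.D p q s ^ 2
      + 2 * P.Z 0 1 p q s * P.Z1 0 1 p q s * P.D p q s := by
  rcases le_or_gt 0 s with h0 | h0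
  · have := P.K2 s h0 hs p q hD
    simp only [D, D2, Z, Z1] at *
    refine this.trans_eq ?_
    ring
  · have hs0 := h0.le
    obtain ⟨l1, l2, l3, l4, l5, l6⟩ := P.left s hs0
    have hc := P.leftConv s hs0
    have hH := P.posH s
    have : -P.D2 p q s * P.Z 0 1 p q s ^ 2
      - 1 / 2 * ((0 : ℝ) ^ 2 * P.E s + 2 * 0 * 1 * P.F s + (1 : ℝ) ^ 2 * P.H s) * P.D p q s ^ 2
      + 2 * P.Z 0 1 p q s * P.Z1 0 1 p q s * P.D p q s
      = q ^ 4 * P.H s * (-P.H2 s * P.H s + 3 / 2 * P.H1 s ^ 2) := by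
      simp only [D, D2, Z, Z1]
      rw [l2, l3, l4, l5, l6]
      ring
    rw [this]
    exact mul_nonneg (mul_nonneg (by positivity) hH.le) hc

/-- condition for the right form -/
theorem thR {p q s : ℝ} (hs : 0 ≤ s) (hD : P.D p q s ≤ 0) :
    0 ≤ -P.D2 p q s * P.Z 1 0 p q s ^ 2
      - 1 / 2 * ((1 : ℝ) ^ 2 * P.E s + 2 * 1 * 0 * P.F s + (0 : ℝ) ^ 2 * P.H s) * P.D p q s ^ 2
      + 2 * P.Z 1 0 p q s * P.Z1 1 0 p q s * P.D p q s := by
  rcases le_or_gt s 1 with h0 | h0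
  · have := P.K3 s hs h0 p q hD
    simp only [D, D2, Z, Z1] at *
    refine this.trans_eq ?_
    ring
  · have hs0 := h0.le
    obtain ⟨l1, l2, l3, l4, l5, l6⟩ := P.right s hs0
    have hc := P.rightConv s hs0
    have hE := P.posE s
    have : -P.D2 p q s * P.Z 1 0 p q s ^ 2
      - 1 / 2 * ((1 : ℝ) ^ 2 * P.E s + 2 * 1 * 0 * P.F s + (0 : ℝ) ^ 2 * P.H s) * P.D p q s ^ 2
      + 2 * P.Z 1 0 p q s * P.Z1 1 0 p q s * P.D p q s
      = (p - P.δ * q) ^ 4 * P.E s * (-P.E2 s * P.E s + 3 / 2 * P.E1 s ^ 2) := by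
      simp only [D, D2, Z, Z1]
      rw [l1, l3, l4, l5, l6]
      ring
    rw [this]
    exact mul_nonneg (mul_nonneg (by positivity) hE.le) hc

/-- `D` is antitone in `s` on `[0,1]` -/
theorem D_anti {p q s s' : ℝ} (h0 : 0 ≤ s) (h : s ≤ s') (h1 : s' ≤ 1) :
    P.D p q s' ≤ P.D p q s := by
  have : AntitoneOn (P.D p q) (Icc 0 1) := by
    apply antitoneOn_of_deriv_nonpos (convex_Icc 0 1)
    · intro x hx
      exact (P.hasDerivAt_D p q x).continuousAt.continuousWithinAt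
    · intro x hx
      exact (P.hasDerivAt_D p q x).differentiableAt.differentiableWithinAt
    · intro x hx
      rw [interior_Icc] at hx
      rw [(P.hasDerivAt_D p q x).deriv]
      exact P.K1 x hx.1.le hx.2.le p q
  exact this ⟨h0, h.trans h1⟩ ⟨h0.trans h, h1⟩ h

theorem contDiff_D (p q : ℝ) : ContDiff ℝ 1 (P.D p q) := by
  rw [contDiff_one_iff_deriv]
  refine ⟨fun x => (P.hasDerivAt_D p q x).differentiableAt, ?_⟩
  have : deriv (P.D p q) = P.D2 p q := by
    funext x; exact (P.hasDerivAt_D p q x).deriv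
  rw [this]
  exact P.continuous_D2 p q

/-- `g^{-1}(π,π)` -/
def GG (u w s : ℝ) : ℝ := P.E s * u ^ 2 + 2 * P.F s * u * w + P.H s * w ^ 2

theorem GG_nonneg (u w s : ℝ) : 0 ≤ P.GG u w s := by
  have h1 := P.posE s
  have h2 := P.det s
  have h3 : 0 ≤ P.E s * P.GG u w s := by
    have : P.E s * P.GG u w s = (P.E s * u + P.F s * w) ^ 2
      + (P.E s * P.H s - P.F s ^ 2) * w ^ 2 := by rw [GG]; ring
    rw [this]
    positivity
  by_contra hneg
  push Not at hneg
  nlinarith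

theorem GG_eq_zero {u w s : ℝ} (h : P.GG u w s = 0) : u = 0 ∧ w = 0 := by
  have h1 := P.posE s
  have h2 := P.det s
  have h3 : (P.E s * u + P.F s * w) ^ 2 + (P.E s * P.H s - P.F s ^ 2) * w ^ 2 = 0 := by
    have : P.E s * P.GG u w s = (P.E s * u + P.F s * w) ^ 2
      + (P.E s * P.H s - P.F s ^ 2) * w ^ 2 := by rw [GG]; ring
    rw [← this, h, mul_zero]
  have h4 : 0 ≤ (P.E s * u + P.F s * w) ^ 2 := sq_nonneg _
  have h5 : 0 ≤ (P.E s * P.H s - P.F s ^ 2) * w ^ 2 := by positivity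
  have h6 : (P.E s * P.H s - P.F s ^ 2) * w ^ 2 = 0 := by linarith
  have hw : w = 0 := by
    rcases mul_eq_zero.1 h6 with h7 | h7
    · exact absurd h7 h2.ne'
    · exact pow_eq_zero_iff (two_ne_zero) |>.1 h7
  subst hw
  have h7 : (P.E s * u + P.F s * 0) ^ 2 = 0 := by linarith
  have h8 := pow_eq_zero_iff (two_ne_zero) |>.1 h7
  rw [mul_zero, add_zero] at h8
  rcases mul_eq_zero.1 h8 with h9 | h9
  · exact absurd h9 h1.ne'
  · exact ⟨h9, rfl⟩

end Profile

/-- the warped product computation -/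
theorem warp_deriv {k k1 k2 : ℝ → ℝ} {a b : ℝ} {s σ ξ ρ h : ℝ → ℝ} {t : ℝ}
    (hk : HasDerivAt k (k1 (s t)) (s t)) (hk1 : HasDerivAt k1 (k2 (s t)) (s t))
    (hpos : 0 < k (s t))
    (ds : HasDerivAt s (σ t) t) (dσ : HasDerivAt σ (-(1 / 2) * (k1 (s t) * a ^ 2)) t)
    (dξ : HasDerivAt ξ (ρ t) t)
    (dρ : HasDerivAt ρ (-(1 / 2) * (k2 (s t) * a ^ 2) * ξ t - k1 (s t) * a * b) t)
    (dh : HasDerivAt h (k1 (s t) * a * ξ t + k (s t) * b) t) :
    HasDerivAt (fun v => ξ v * ρ v + b * h v + k1 (s v) / k (s v) * a * ξ v * h v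
      - 1 / 2 * (k1 (s v) / k (s v) ^ 2) * σ v * h v ^ 2)
      ((ρ t + 1 / 2 * (k1 (s t) / k (s t)) * a * h t) ^ 2
        + (1 / k (s t)) * (1 / 2 * k1 (s t) * a * ξ t + k (s t) * b
            - 1 / 2 * (k1 (s t) / k (s t)) * σ t * h t) ^ 2
        + 1 / (2 * k (s t) ^ 3) * (-k2 (s t) * k (s t) + 3 / 2 * k1 (s t) ^ 2)
            * (k (s t) * a * ξ t - σ t * h t) ^ 2) t := by
  have hks : HasDerivAt (fun v => k (s v)) (k1 (s t) * σ t) t := hk.comp t ds
  have hk1s : HasDerivAt (fun v => k1 (s v)) (k2 (s t) * σ t) t := hk1.comp t ds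
  have hne : k (s t) ≠ 0 := hpos.ne'
  have h1 : HasDerivAt (fun v => ξ v * ρ v) _ t := dξ.mul dρ
  have h2 : HasDerivAt (fun v => b * h v) _ t := dh.const_mul b
  have h3 : HasDerivAt (fun v => k1 (s v) / k (s v)) _ t := hk1s.div hks hne
  have h4 : HasDerivAt (fun v => k1 (s v) / k (s v) * a * ξ v * h v) _ t :=
    ((h3.mul_const a).mul dξ).mul dh
  have h5 : HasDerivAt (fun v => k (s v) ^ 2) _ t := hks.pow 2
  have h6 : HasDerivAt (fun v => k1 (s v) / k (s v) ^ 2) _ t := hk1s.div h5 (pow_ne_zero 2 hne)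
  have h7 : HasDerivAt (fun v => h v ^ 2) _ t := dh.pow 2
  have h8 : HasDerivAt (fun v => 1 / 2 * (k1 (s v) / k (s v) ^ 2) * σ v * h v ^ 2) _ t :=
    ((h6.const_mul (1 / 2)).mul dσ).mul h7
  have htot := ((h1.add h2).add h4).sub h8
  refine htot.congr_deriv ?_
  simp only [Nat.cast_ofNat, Nat.reduceSub, pow_one, Pi.mul_apply]
  field_simp
  ring

end Vale.Agent.P255
end
end

section

section

/-!
# P255: local monotonicity of the monotone quantity in the collar
-/

open Set Filter Topology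

namespace Vale.Agent.P255

/-- left product form of the monotone quantity -/
noncomputable def PL (P : Profile) (q s σ ξ ρ h₁ h₂ u w : ℝ) : ℝ :=
  (ξ * ρ + w * h₂ + P.H1 s / P.H s * q * ξ * h₂ - 1 / 2 * (P.H1 s / P.H s ^ 2) * σ * h₂ ^ 2)
    + u * h₁

/-- right product form of the monotone quantity -/
noncomputable def PR (P : Profile) (p q s σ ξ ρ h₁ h₂ u w : ℝ) : ℝ :=
  (ξ * ρ + (u - P.δ * w) * h₁ + P.E1 s / P.E s * (p - P.δ * q) * ξ * h₁
      - 1 / 2 * (P.E1 s / P.E s ^ 2) * σ * h₁ ^ 2)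
    + w * (h₂ + P.δ * h₁)

/-- the monotone quantity -/
noncomputable def PhiFun (P : Profile) (p q s σ ξ ρ h₁ h₂ u w : ℝ) : ℝ :=
  if s < 0 then PL P q s σ ξ ρ h₁ h₂ u w
  else if 1 < s then PR P p q s σ ξ ρ h₁ h₂ u w
  else if 0 < P.D p q s then PN P 0 1 p q s σ ξ ρ h₁ h₂ u w
  else if P.D p q s < 0 then PN P 1 0 p q s σ ξ ρ h₁ h₂ u w
  else PA ξ ρ h₁ h₂ u w

section

variable {P : Profile} {p q u w : ℝ} {s σ ξ ρ h₁ h₂ : ℝ → ℝ} {t : ℝ}

theorem Sol.hasDerivAt_PA (h : Sol P p q u w s σ ξ ρ h₁ h₂ t) :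
    HasDerivAt (fun v => PA (ξ v) (ρ v) (h₁ v) (h₂ v) u w)
      (ρ t ^ 2 - 1 / 2 * P.D2 p q (s t) * ξ t ^ 2 + P.GG u w (s t)) t := by
  have hA : HasDerivAt (fun v => ξ v * ρ v + u * h₁ v + w * h₂ v) _ t :=
    ((h.dξ.mul h.dρ).add (h.dh₁.const_mul u)).add (h.dh₂.const_mul w)
  refine hA.congr_deriv ?_
  simp only [Profile.GG]
  ring

theorem Sol.hasDerivAt_PL (h : Sol P p q u w s σ ξ ρ h₁ h₂ t) (hs : s t ≤ 0) :
    HasDerivAt (fun v => PL P q (s v) (σ v) (ξ v) (ρ v) (h₁ v) (h₂ v) u w)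
      (((ρ t + 1 / 2 * (P.H1 (s t) / P.H (s t)) * q * h₂ t) ^ 2
        + (1 / P.H (s t)) * (1 / 2 * P.H1 (s t) * q * ξ t + P.H (s t) * w
            - 1 / 2 * (P.H1 (s t) / P.H (s t)) * σ t * h₂ t) ^ 2
        + 1 / (2 * P.H (s t) ^ 3) * (-P.H2 (s t) * P.H (s t) + 3 / 2 * P.H1 (s t) ^ 2)
            * (P.H (s t) * q * ξ t - σ t * h₂ t) ^ 2) + u ^ 2) t := by
  obtain ⟨l1, l2, l3, l4, l5, l6⟩ := P.left (s t) hs
  have e1 := h.dσ
  rw [P.D_left hs] at e1
  have e2 := h.dρ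
  rw [P.D2_left hs, l3, l4] at e2
  have e3 := h.dh₂
  rw [l4, l2] at e3
  have e4 := h.dh₁
  rw [l3, l4, l1, l2] at e4
  have e2' : HasDerivAt ρ (-(1 / 2) * (P.H2 (s t) * q ^ 2) * ξ t - P.H1 (s t) * q * w) t :=
    e2.congr_deriv (by ring)
  have e3' : HasDerivAt h₂ (P.H1 (s t) * q * ξ t + P.H (s t) * w) t :=
    e3.congr_deriv (by ring)
  have e4' : HasDerivAt h₁ u t := e4.congr_deriv (by ring)
  have := warp_deriv (P.dH (s t)) (P.dH1 (s t)) (P.posH (s t)) h.ds e1 h.dξ e2' e3'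
  have h2 := this.add (e4'.const_mul u)
  exact h2.congr_deriv (by ring)

theorem Sol.hasDerivAt_PR (h : Sol P p q u w s σ ξ ρ h₁ h₂ t) (hs : 1 ≤ s t) :
    HasDerivAt (fun v => PR P p q (s v) (σ v) (ξ v) (ρ v) (h₁ v) (h₂ v) u w)
      (((ρ t + 1 / 2 * (P.E1 (s t) / P.E (s t)) * (p - P.δ * q) * h₁ t) ^ 2
        + (1 / P.E (s t)) * (1 / 2 * P.E1 (s t) * (p - P.δ * q) * ξ t + P.E (s t) * (u - P.δ * w)
            - 1 / 2 * (P.E1 (s t) / P.E (s t)) * σ t * h₁ t) ^ 2
        + 1 / (2 * P.E (s t) ^ 3) * (-P.E2 (s t) * P.E (s t) + 3 / 2 * P.E1 (s t) ^ 2)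
            * (P.E (s t) * (p - P.δ * q) * ξ t - σ t * h₁ t) ^ 2) + w ^ 2) t := by
  obtain ⟨l1, l2, l3, l4, l5, l6⟩ := P.right (s t) hs
  have e1 := h.dσ
  rw [P.D_right hs] at e1
  have e2 := h.dρ
  rw [P.D2_right hs, l3, l4] at e2
  have e3 := h.dh₁
  rw [l3, l1] at e3
  have e4 := h.dh₂
  rw [l3, l4, l1, l2] at e4
  have e2' : HasDerivAt ρ (-(1 / 2) * (P.E2 (s t) * (p - P.δ * q) ^ 2) * ξ t
      - P.E1 (s t) * (p - P.δ * q) * (u - P.δ * w)) t :=
    e2.congr_deriv (by ring)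
  have e3' : HasDerivAt h₁ (P.E1 (s t) * (p - P.δ * q) * ξ t + P.E (s t) * (u - P.δ * w)) t :=
    e3.congr_deriv (by ring)
  have e4' : HasDerivAt (fun v => h₂ v + P.δ * h₁ v) w t :=
    (e4.add (e3.const_mul P.δ)).congr_deriv (by ring)
  have := warp_deriv (P.dE (s t)) (P.dE1 (s t)) (P.posE (s t)) h.ds e1 h.dξ e2' e3'
  have h2 := this.add (e4'.const_mul w)
  exact h2.congr_deriv (by ring)

/-- Outcome of the analysis to the right of the time `t`. -/
structure RightRes (Φ : ℝ → ℝ) (t : ℝ) (J0 : Prop) (c : ℝ) (Ψ : ℝ → ℝ) : Prop where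
  eq : ∀ᶠ v in 𝓝[>] t, Φ v = Ψ v
  le : Φ t ≤ Ψ t
  mono : ∀ᶠ v in 𝓝[>] t, Ψ t ≤ Ψ v
  zero : J0 → Ψ t = 0
  der : J0 → HasDerivAt Ψ c t

theorem RightRes.right {Φ : ℝ → ℝ} {t : ℝ} {J0 : Prop} {c : ℝ} {Ψ : ℝ → ℝ}
    (h : RightRes Φ t J0 c Ψ) : ∀ᶠ v in 𝓝[>] t, Φ t ≤ Φ v := by
  filter_upwards [h.eq, h.mono] with v h1 h2
  rw [h1]; exact h.le.trans h2

theorem RightRes.deriv_zero {Φ : ℝ → ℝ} {t : ℝ} {J0 : Prop} {c : ℝ} {Ψ : ℝ → ℝ}
    (h : RightRes Φ t J0 c Ψ) (hJ : J0) (hΦ : ∀ᶠ v in 𝓝[>] t, Φ v = 0) : c = 0 := by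
  have h1 : HasDerivWithinAt Ψ c (Ioi t) t := (h.der hJ).hasDerivWithinAt
  have h2 : HasDerivWithinAt Ψ 0 (Ioi t) t := by
    have h3 : HasDerivWithinAt (fun _ : ℝ => (0 : ℝ)) 0 (Ioi t) t := hasDerivWithinAt_const ..
    refine h3.congr_of_eventuallyEq ?_ (h.zero hJ)
    filter_upwards [h.eq, hΦ] with v e1 e2
    rw [← e1, e2]
  exact (uniqueDiffWithinAt_Ioi t).eq_deriv _ h1 h2

/-- Positivity facts about the derivative of `PN` -/
theorem Sol.PN_deriv_nonneg (h : Sol P p q u w s σ ξ ρ h₁ h₂ t) {n m : ℝ}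
    (hz : P.Z n m p q (s t) ≠ 0)
    (hN : 0 < n ^ 2 * P.E (s t) + 2 * n * m * P.F (s t) + m ^ 2 * P.H (s t))
    (hth : 0 ≤ -P.D2 p q (s t) * P.Z n m p q (s t) ^ 2
      - 1 / 2 * (n ^ 2 * P.E (s t) + 2 * n * m * P.F (s t) + m ^ 2 * P.H (s t))
        * P.D p q (s t) ^ 2
      + 2 * P.Z n m p q (s t) * P.Z1 n m p q (s t) * P.D p q (s t)) :
    ∃ d, 0 ≤ d ∧
      HasDerivAt (fun v => PN P n m p q (s v) (σ v) (ξ v) (ρ v) (h₁ v) (h₂ v) u w) d t := by
  refine ⟨_, ?_, h.hasDerivAt_PN hz hN⟩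
  have h1 := P.det (s t)
  have h2 : 0 ≤ (-P.D2 p q (s t) * P.Z n m p q (s t) ^ 2
      - 1 / 2 * (n ^ 2 * P.E (s t) + 2 * n * m * P.F (s t) + m ^ 2 * P.H (s t))
        * P.D p q (s t) ^ 2
      + 2 * P.Z n m p q (s t) * P.Z1 n m p q (s t) * P.D p q (s t)) / P.Z n m p q (s t) ^ 2 :=
    div_nonneg hth (sq_nonneg _)
  positivity

theorem Sol.PN_deriv_zero (h : Sol P p q u w s σ ξ ρ h₁ h₂ t) {n m : ℝ}
    (hz : P.Z n m p q (s t) ≠ 0)
    (hN : 0 < n ^ 2 * P.E (s t) + 2 * n * m * P.F (s t) + m ^ 2 * P.H (s t))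
    (e1 : ξ t = 0) (e2 : h₁ t = 0) (e3 : h₂ t = 0) :
    HasDerivAt (fun v => PN P n m p q (s v) (σ v) (ξ v) (ρ v) (h₁ v) (h₂ v) u w)
      (ρ t ^ 2 + P.GG u w (s t)) t := by
  refine (h.hasDerivAt_PN hz hN).congr_deriv ?_
  rw [e1, e2, e3]
  have key : (P.E (s t) * P.H (s t) - P.F (s t) ^ 2) * (n * w - m * u) ^ 2
      + (n * (P.E (s t) * u + P.F (s t) * w) + m * (P.F (s t) * u + P.H (s t) * w)) ^ 2
      = P.GG u w (s t)
        * (n ^ 2 * P.E (s t) + 2 * n * m * P.F (s t) + m ^ 2 * P.H (s t)) := by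
    simp only [Profile.GG]; ring
  generalize n ^ 2 * P.E (s t) + 2 * n * m * P.F (s t) + m ^ 2 * P.H (s t) = N at hN key ⊢
  generalize (P.E (s t) * P.H (s t) - P.F (s t) ^ 2) * (n * w - m * u) ^ 2 = a at key ⊢
  generalize n * (P.E (s t) * u + P.F (s t) * w) + m * (P.F (s t) * u + P.H (s t) * w) = b
    at key ⊢
  have h1 : P.GG u w (s t) = (a + b ^ 2) / N := by
    rw [eq_div_iff hN.ne', key]
  rw [h1]
  simp only [mul_zero, add_zero, zero_div, sub_zero, ne_eq, OfNat.ofNat_ne_zero,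
    not_false_eq_true, zero_pow]
  ring

end

end Vale.Agent.P255
end
end

section

section

/-!
# P255: local monotonicity of the monotone quantity in the collar
-/

open Set Filter Topology

namespace Vale.Agent.P255

section

variable {P : Profile} {p q u w : ℝ} {s σ ξ ρ h₁ h₂ : ℝ → ℝ} {t : ℝ}

/-- stationary solutions -/
theorem stationary (hS : ∀ᶠ v in 𝓝 t, Sol P p q u w s σ ξ ρ h₁ h₂ v) (hσ : σ t = 0)
    (hD : P.D p q (s t) = 0) : ∀ᶠ v in 𝓝 t, s v = s t := by
  set v : ℝ × ℝ → ℝ × ℝ := fun x => (x.2, -(1 / 2) * P.D p q x.1) with hv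
  have hvc : ContDiff ℝ 1 v := by
    have := P.contDiff_D p q
    fun_prop
  obtain ⟨K, A, hA, hK⟩ := (hvc.contDiffAt (x := (s t, (0 : ℝ)))).exists_lipschitzOnWith
  have hst : ContinuousAt (fun x => (s x, σ x)) t :=
    (hS.self_of_nhds.ds.continuousAt).prodMk (hS.self_of_nhds.dσ.continuousAt)
  have h1 : ∀ᶠ x in 𝓝 t, (s x, σ x) ∈ A := by
    have h2 : A ∈ 𝓝 (s t, σ t) := by rw [hσ]; exact hA
    exact hst.eventually h2
  have key : (fun x => (s x, σ x)) =ᶠ[𝓝 t] fun _ => (s t, (0 : ℝ)) := by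
    apply ODE_solution_unique_of_eventually (v := fun _ => v) (s := fun _ => A) (K := K)
    · exact Eventually.of_forall fun _ => hK
    · filter_upwards [hS, h1] with x hx hx'
      exact ⟨hx.ds.prodMk hx.dσ, hx'⟩
    · refine Eventually.of_forall fun x => ⟨?_, mem_of_mem_nhds hA⟩
      have : v (s t, 0) = 0 := by
        simp only [hv, hD, mul_zero]; rfl
      rw [this]
      exact hasDerivAt_const _ _
    · rw [hσ]
  filter_upwards [key] with x hx
  exact congrArg Prod.fst hx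

theorem phi_of_neg {ξ' ρ' h₁' h₂' s' σ' : ℝ} (hs : s' < 0) :
    PhiFun P p q s' σ' ξ' ρ' h₁' h₂' u w = PL P q s' σ' ξ' ρ' h₁' h₂' u w := by
  rw [PhiFun, if_pos hs]

theorem phi_of_gt {ξ' ρ' h₁' h₂' s' σ' : ℝ} (hs : 1 < s') :
    PhiFun P p q s' σ' ξ' ρ' h₁' h₂' u w = PR P p q s' σ' ξ' ρ' h₁' h₂' u w := by
  rw [PhiFun, if_neg (by linarith), if_pos hs]

theorem phi_of_pos {ξ' ρ' h₁' h₂' s' σ' : ℝ} (hs : s' ≤ 1) (hD : 0 < P.D p q s') :
    PhiFun P p q s' σ' ξ' ρ' h₁' h₂' u w = PN P 0 1 p q s' σ' ξ' ρ' h₁' h₂' u w := by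
  rw [PhiFun]
  split_ifs with h1 h2
  · -- left product region
    obtain ⟨l1, l2, l3, l4, l5, l6⟩ := P.left s' h1.le
    have hH := P.posH s'
    have hq : q ≠ 0 := by
      rintro rfl
      rw [P.D_left h1.le] at hD
      simp at hD
    rw [PN, PL, PA, P.D_left h1.le, Profile.Z, l2]
    field_simp
    ring
  · linarith
  · rfl

theorem phi_of_neg' {ξ' ρ' h₁' h₂' s' σ' : ℝ} (hs : 0 ≤ s') (hD : P.D p q s' < 0) :
    PhiFun P p q s' σ' ξ' ρ' h₁' h₂' u w = PN P 1 0 p q s' σ' ξ' ρ' h₁' h₂' u w := by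
  rw [PhiFun, if_neg (not_lt.2 hs)]
  split_ifs with h1 h2
  · obtain ⟨l1, l2, l3, l4, l5, l6⟩ := P.right s' h1.le
    have hE := P.posE s'
    have hq : p - P.δ * q ≠ 0 := by
      intro h0
      rw [P.D_right h1.le, h0] at hD
      simp at hD
    have hZ : P.Z 1 0 p q s' = P.E s' * (p - P.δ * q) := by
      rw [Profile.Z, l1]; ring
    rw [PN, PR, PA, P.D_right h1.le, hZ]
    field_simp
    ring
  · linarith
  · rfl

theorem phi_of_zero {ξ' ρ' h₁' h₂' s' σ' : ℝ} (hs : 0 ≤ s') (hs' : s' ≤ 1)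
    (hD : P.D p q s' = 0) :
    PhiFun P p q s' σ' ξ' ρ' h₁' h₂' u w = PA ξ' ρ' h₁' h₂' u w := by
  rw [PhiFun, if_neg (not_lt.2 hs), if_neg (not_lt.2 hs'), if_neg (by rw [hD]; exact lt_irrefl _),
    if_neg (by rw [hD]; exact lt_irrefl _)]

theorem PN_of_zero {n m ξ' ρ' h₁' h₂' s' σ' : ℝ} (hD : P.D p q s' = 0) :
    PN P n m p q s' σ' ξ' ρ' h₁' h₂' u w = PA ξ' ρ' h₁' h₂' u w := by
  rw [PN, hD, zero_mul, add_zero]

theorem D_zero_zero {s' : ℝ} : P.D 0 0 s' = 0 := by
  rw [Profile.D]; ring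

theorem PA_zero {ξ' ρ' h₁' h₂' : ℝ} (h : ξ' = 0 ∧ h₁' = 0 ∧ h₂' = 0) :
    PA ξ' ρ' h₁' h₂' u w = 0 := by
  obtain ⟨h1, h2, h3⟩ := h
  rw [PA, h1, h2, h3]; ring

theorem continuous_D (p q : ℝ) : Continuous (P.D p q) := (P.contDiff_D p q).continuous

theorem cont_Z (n m p q : ℝ) : Continuous (P.Z n m p q) :=
  continuous_iff_continuousAt.2 fun x => (P.hasDerivAt_Z n m p q x).continuousAt

theorem mono_right {Ψ : ℝ → ℝ} {t : ℝ} (h0 : ContinuousAt Ψ t)
    (h2 : ∀ᶠ v in 𝓝[>] t, ∃ d, 0 ≤ d ∧ HasDerivAt Ψ d v) :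
    ∀ᶠ v in 𝓝[>] t, Ψ t ≤ Ψ v := by
  obtain ⟨c, hc, hc'⟩ := (mem_nhdsGT_iff_exists_Ioo_subset).1 h2
  filter_upwards [Ioo_mem_nhdsGT hc] with v hv
  have hd : ∀ x ∈ Ioc t v, ∃ d, 0 ≤ d ∧ HasDerivAt Ψ d x := fun x hx =>
    hc' ⟨hx.1, lt_of_le_of_lt hx.2 hv.2⟩
  have hmono : MonotoneOn Ψ (Icc t v) := by
    apply monotoneOn_of_deriv_nonneg (convex_Icc t v)
    · intro x hx
      rcases hx.1.eq_or_lt with h | h
      · rw [← h]; exact h0.continuousWithinAt
      · obtain ⟨d, -, hd⟩ := hd x ⟨h, hx.2⟩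
        exact hd.continuousAt.continuousWithinAt
    · intro x hx
      rw [interior_Icc] at hx
      obtain ⟨d, -, hd⟩ := hd x ⟨hx.1, hx.2.le⟩
      exact hd.differentiableAt.differentiableWithinAt
    · intro x hx
      rw [interior_Icc] at hx
      obtain ⟨d, h3, hd⟩ := hd x ⟨hx.1, hx.2.le⟩
      rw [hd.deriv]
      exact h3
  exact hmono (left_mem_Icc.2 hv.1.le) (right_mem_Icc.2 hv.1.le) hv.1.le

/-- case where `Φ` is given by `PA` to the right of `t` -/
theorem res_A (hS : ∀ᶠ v in 𝓝 t, Sol P p q u w s σ ξ ρ h₁ h₂ v)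
    (h0 : 0 ≤ s t) (h1 : s t ≤ 1) (hD : P.D p q (s t) = 0)
    (he : ∀ᶠ v in 𝓝[>] t, 0 ≤ s v ∧ s v ≤ 1 ∧ P.D p q (s v) = 0) :
    ∃ Ψ, RightRes (fun v => PhiFun P p q (s v) (σ v) (ξ v) (ρ v) (h₁ v) (h₂ v) u w) t
      (ξ t = 0 ∧ h₁ t = 0 ∧ h₂ t = 0) (ρ t ^ 2 + P.GG u w (s t)) Ψ := by
  refine ⟨fun v => PA (ξ v) (ρ v) (h₁ v) (h₂ v) u w, ?_, ?_, ?_, ?_, ?_⟩
  · filter_upwards [he] with v ⟨a, b, c⟩
    exact phi_of_zero a b c
  · exact (phi_of_zero h0 h1 hD).le
  · apply mono_right hS.self_of_nhds.hasDerivAt_PA.continuousAt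
    filter_upwards [hS.filter_mono nhdsWithin_le_nhds, he] with v hv ⟨a, b, c⟩
    refine ⟨_, ?_, hv.hasDerivAt_PA⟩
    have h2 : P.D2 p q (s v) ≤ 0 := P.K1 (s v) a b p q
    have h3 := P.GG_nonneg u w (s v)
    linarith only [mul_nonneg (neg_nonneg.2 h2) (sq_nonneg (ξ v)), sq_nonneg (ρ v), h3]
  · intro hJ
    exact PA_zero hJ
  · intro hJ
    refine (hS.self_of_nhds.hasDerivAt_PA).congr_deriv ?_
    rw [hJ.1]; ring

theorem res_PL (hS : ∀ᶠ v in 𝓝 t, Sol P p q u w s σ ξ ρ h₁ h₂ v)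
    (h0 : s t ≤ 0) (he : ∀ᶠ v in 𝓝[>] t, s v < 0)
    (hle : PhiFun P p q (s t) (σ t) (ξ t) (ρ t) (h₁ t) (h₂ t) u w
      ≤ PL P q (s t) (σ t) (ξ t) (ρ t) (h₁ t) (h₂ t) u w) :
    ∃ Ψ, RightRes (fun v => PhiFun P p q (s v) (σ v) (ξ v) (ρ v) (h₁ v) (h₂ v) u w) t
      (ξ t = 0 ∧ h₁ t = 0 ∧ h₂ t = 0) (ρ t ^ 2 + P.GG u w (s t)) Ψ := by
  refine ⟨fun v => PL P q (s v) (σ v) (ξ v) (ρ v) (h₁ v) (h₂ v) u w, ?_, hle, ?_, ?_, ?_⟩
  · filter_upwards [he] with v hv
    exact phi_of_neg hv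
  · apply mono_right (hS.self_of_nhds.hasDerivAt_PL h0).continuousAt
    filter_upwards [hS.filter_mono nhdsWithin_le_nhds, he] with v hv hs
    refine ⟨_, ?_, hv.hasDerivAt_PL hs.le⟩
    have h1 := P.posH (s v)
    have h2 := P.leftConv (s v) hs.le
    (clear * - h1 h2; positivity)
  · rintro ⟨e1, e2, e3⟩
    simp only [PL, e1, e2, e3]; ring
  · rintro ⟨e1, e2, e3⟩
    refine (hS.self_of_nhds.hasDerivAt_PL h0).congr_deriv ?_
    obtain ⟨l1, l2, l3, l4, l5, l6⟩ := P.left (s t) h0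
    have h1 := (P.posH (s t)).ne'
    rw [e1, e3, Profile.GG, l1, l2]
    field_simp
    ring

theorem res_PR (hS : ∀ᶠ v in 𝓝 t, Sol P p q u w s σ ξ ρ h₁ h₂ v)
    (h0 : 1 ≤ s t) (he : ∀ᶠ v in 𝓝[>] t, 1 < s v)
    (hle : PhiFun P p q (s t) (σ t) (ξ t) (ρ t) (h₁ t) (h₂ t) u w
      ≤ PR P p q (s t) (σ t) (ξ t) (ρ t) (h₁ t) (h₂ t) u w) :
    ∃ Ψ, RightRes (fun v => PhiFun P p q (s v) (σ v) (ξ v) (ρ v) (h₁ v) (h₂ v) u w) t
      (ξ t = 0 ∧ h₁ t = 0 ∧ h₂ t = 0) (ρ t ^ 2 + P.GG u w (s t)) Ψ := by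
  refine ⟨fun v => PR P p q (s v) (σ v) (ξ v) (ρ v) (h₁ v) (h₂ v) u w, ?_, hle, ?_, ?_, ?_⟩
  · filter_upwards [he] with v hv
    exact phi_of_gt hv
  · apply mono_right (hS.self_of_nhds.hasDerivAt_PR h0).continuousAt
    filter_upwards [hS.filter_mono nhdsWithin_le_nhds, he] with v hv hs
    refine ⟨_, ?_, hv.hasDerivAt_PR hs.le⟩
    have h1 := P.posE (s v)
    have h2 := P.rightConv (s v) hs.le
    (clear * - h1 h2; positivity)
  · rintro ⟨e1, e2, e3⟩
    simp only [PR, e1, e2, e3]; ring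
  · rintro ⟨e1, e2, e3⟩
    refine (hS.self_of_nhds.hasDerivAt_PR h0).congr_deriv ?_
    obtain ⟨l1, l2, l3, l4, l5, l6⟩ := P.right (s t) h0
    have h1 := (P.posE (s t)).ne'
    rw [e1, e2, Profile.GG, l1, l2]
    field_simp
    ring

/-- case where `Φ` is given by `PN 0 1` to the right of `t` -/
theorem res_L (hS : ∀ᶠ v in 𝓝 t, Sol P p q u w s σ ξ ρ h₁ h₂ v)
    (hz : P.Z 0 1 p q (s t) ≠ 0)
    (h0 : PhiFun P p q (s t) (σ t) (ξ t) (ρ t) (h₁ t) (h₂ t) u w
      = PN P 0 1 p q (s t) (σ t) (ξ t) (ρ t) (h₁ t) (h₂ t) u w)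
    (he : ∀ᶠ v in 𝓝[>] t, s v ≤ 1 ∧ 0 ≤ P.D p q (s v) ∧
      (P.D p q (s v) = 0 → 0 ≤ s v)) :
    ∃ Ψ, RightRes (fun v => PhiFun P p q (s v) (σ v) (ξ v) (ρ v) (h₁ v) (h₂ v) u w) t
      (ξ t = 0 ∧ h₁ t = 0 ∧ h₂ t = 0) (ρ t ^ 2 + P.GG u w (s t)) Ψ := by
  have hz' : ∀ᶠ v in 𝓝 t, P.Z 0 1 p q (s v) ≠ 0 :=
    (((cont_Z 0 1 p q).continuousAt).comp hS.self_of_nhds.ds.continuousAt).eventually_ne hz
  have hN : ∀ x, 0 < (0 : ℝ) ^ 2 * P.E x + 2 * 0 * 1 * P.F x + (1 : ℝ) ^ 2 * P.H x := by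
    intro x; have := P.posH x; linarith
  refine ⟨fun v => PN P 0 1 p q (s v) (σ v) (ξ v) (ρ v) (h₁ v) (h₂ v) u w, ?_, h0.le, ?_, ?_, ?_⟩
  · filter_upwards [he] with v ⟨a, b, c⟩
    rcases b.eq_or_lt with h | h
    · rw [phi_of_zero (c h.symm) a h.symm, PN_of_zero h.symm]
    · exact phi_of_pos a h
  · apply mono_right (hS.self_of_nhds.hasDerivAt_PN hz (hN _)).continuousAt
    filter_upwards [hS.filter_mono nhdsWithin_le_nhds, he, hz'.filter_mono nhdsWithin_le_nhds]
      with v hv ⟨a, b, c⟩ hzv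
    exact hv.PN_deriv_nonneg hzv (hN _) (P.thL a b)
  · rintro ⟨e1, e2, e3⟩
    simp only [PN, PA, e1, e2, e3]; ring
  · rintro ⟨e1, e2, e3⟩
    exact hS.self_of_nhds.PN_deriv_zero hz (hN _) e1 e2 e3

/-- case where `Φ` is given by `PN 1 0` to the right of `t` -/
theorem res_R (hS : ∀ᶠ v in 𝓝 t, Sol P p q u w s σ ξ ρ h₁ h₂ v)
    (hz : P.Z 1 0 p q (s t) ≠ 0)
    (h0 : PhiFun P p q (s t) (σ t) (ξ t) (ρ t) (h₁ t) (h₂ t) u w
      = PN P 1 0 p q (s t) (σ t) (ξ t) (ρ t) (h₁ t) (h₂ t) u w)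
    (he : ∀ᶠ v in 𝓝[>] t, 0 ≤ s v ∧ P.D p q (s v) ≤ 0 ∧
      (P.D p q (s v) = 0 → s v ≤ 1)) :
    ∃ Ψ, RightRes (fun v => PhiFun P p q (s v) (σ v) (ξ v) (ρ v) (h₁ v) (h₂ v) u w) t
      (ξ t = 0 ∧ h₁ t = 0 ∧ h₂ t = 0) (ρ t ^ 2 + P.GG u w (s t)) Ψ := by
  have hz' : ∀ᶠ v in 𝓝 t, P.Z 1 0 p q (s v) ≠ 0 :=
    (((cont_Z 1 0 p q).continuousAt).comp hS.self_of_nhds.ds.continuousAt).eventually_ne hz
  have hN : ∀ x, 0 < (1 : ℝ) ^ 2 * P.E x + 2 * 1 * 0 * P.F x + (0 : ℝ) ^ 2 * P.H x := by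
    intro x; have := P.posE x; linarith
  refine ⟨fun v => PN P 1 0 p q (s v) (σ v) (ξ v) (ρ v) (h₁ v) (h₂ v) u w, ?_, h0.le, ?_, ?_, ?_⟩
  · filter_upwards [he] with v ⟨a, b, c⟩
    rcases b.eq_or_lt with h | h
    · rw [phi_of_zero a (c h) h, PN_of_zero h]
    · exact phi_of_neg' a h
  · apply mono_right (hS.self_of_nhds.hasDerivAt_PN hz (hN _)).continuousAt
    filter_upwards [hS.filter_mono nhdsWithin_le_nhds, he, hz'.filter_mono nhdsWithin_le_nhds]
      with v hv ⟨a, b, c⟩ hzv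
    exact hv.PN_deriv_nonneg hzv (hN _) (P.thR a b)
  · rintro ⟨e1, e2, e3⟩
    simp only [PN, PA, e1, e2, e3]; ring
  · rintro ⟨e1, e2, e3⟩
    exact hS.self_of_nhds.PN_deriv_zero hz (hN _) e1 e2 e3

theorem right_res (hS : ∀ᶠ v in 𝓝 t, Sol P p q u w s σ ξ ρ h₁ h₂ v) :
    ∃ Ψ, RightRes (fun v => PhiFun P p q (s v) (σ v) (ξ v) (ρ v) (h₁ v) (h₂ v) u w) t
      (ξ t = 0 ∧ h₁ t = 0 ∧ h₂ t = 0) (ρ t ^ 2 + P.GG u w (s t)) Ψ := by
  have hSt := hS.self_of_nhds
  have hsc : ContinuousAt s t := hSt.ds.continuousAt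
  have hDc : ContinuousAt (fun v => P.D p q (s v)) t :=
    ((continuous_D p q).continuousAt).comp hsc
  rcases lt_or_ge (s t) 0 with hs0 | hs0
  · exact res_PL hS hs0.le ((hsc.eventually_lt continuousAt_const hs0).filter_mono
      nhdsWithin_le_nhds) (phi_of_neg hs0).le
  rcases lt_or_ge 1 (s t) with hs1 | hs1
  · exact res_PR hS hs1.le ((continuousAt_const.eventually_lt hsc hs1).filter_mono
      nhdsWithin_le_nhds) (phi_of_gt hs1).le
  rcases lt_trichotomy (P.D p q (s t)) 0 with hD | hD | hD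
  · -- D < 0
    have hspos : 0 < s t := by
      rcases hs0.eq_or_lt with h | h
      · exfalso
        rw [P.D_left h.ge] at hD
        have := P.leftH1 (s t) h.ge
        linarith only [mul_nonneg this.le (sq_nonneg q), hD]
      · exact h
    have hz : P.Z 1 0 p q (s t) ≠ 0 := by
      have hpq : p ≠ 0 ∨ q ≠ 0 := by
        by_contra hcon
        push Not at hcon
        rw [hcon.1, hcon.2, D_zero_zero] at hD
        exact lt_irrefl _ hD
      rcases hs1.lt_or_eq with h | h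
      · have := P.zR (s t) hs0 h p q hD.le hpq
        rw [Profile.Z]
        intro h2; apply this; linarith
      · rw [P.D_right h.ge] at hD
        obtain ⟨l1, l2, l3, l4, l5, l6⟩ := P.right (s t) h.ge
        rw [Profile.Z, l1]
        intro h2
        have h3 : P.E (s t) * (p - P.δ * q) = 0 := by linarith
        rcases mul_eq_zero.1 h3 with h4 | h4
        · exact (P.posE (s t)).ne' h4
        · rw [h4] at hD; simp at hD
    apply res_R hS hz (phi_of_neg' hs0 hD)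
    have e1 : ∀ᶠ v in 𝓝 t, 0 < s v := continuousAt_const.eventually_lt hsc hspos
    have e2 : ∀ᶠ v in 𝓝 t, P.D p q (s v) < 0 := hDc.eventually_lt continuousAt_const hD
    filter_upwards [e1.filter_mono nhdsWithin_le_nhds, e2.filter_mono nhdsWithin_le_nhds]
      with v h1 h2
    exact ⟨h1.le, h2.le, fun h => absurd h h2.ne⟩
  · -- D = 0
    by_cases hpq : p = 0 ∧ q = 0
    · obtain ⟨rfl, rfl⟩ := hpq
      rcases lt_trichotomy (σ t) 0 with hσ | hσ | hσ
      · have e1 := right_gt_of_deriv_neg hSt.ds hσ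
        rcases hs0.lt_or_eq with h | h
        · have e2 : ∀ᶠ v in 𝓝 t, 0 < s v := continuousAt_const.eventually_lt hsc h
          apply res_A hS hs0 hs1 hD
          filter_upwards [e1, e2.filter_mono nhdsWithin_le_nhds] with v h1 h2
          exact ⟨h2.le, h1.le.trans hs1, D_zero_zero⟩
        · apply res_PL hS h.ge
          · filter_upwards [e1] with v h1
            rw [← h] at h1; exact h1
          · rw [phi_of_zero hs0 hs1 hD, PL, PA]
            have h1 := P.leftH1 (s t) h.ge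
            have h2 := P.posH (s t)
            have h3 : 0 ≤ P.H1 (s t) / P.H (s t) ^ 2 := by positivity
            have h4 : 0 ≤ P.H1 (s t) / P.H (s t) ^ 2 * (-σ t) * h₂ t ^ 2 := by
              have : 0 ≤ -σ t := by linarith
              positivity
            linarith only [h4]
      · have e1 := (stationary hS hσ hD).filter_mono (nhdsWithin_le_nhds (s := Ioi t))
        apply res_A hS hs0 hs1 hD
        filter_upwards [e1] with v h1
        rw [h1]; exact ⟨hs0, hs1, hD⟩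
      · have e1 := right_lt_of_deriv_pos hSt.ds hσ
        rcases hs1.lt_or_eq with h | h
        · have e2 : ∀ᶠ v in 𝓝 t, s v < 1 := hsc.eventually_lt continuousAt_const h
          apply res_A hS hs0 hs1 hD
          filter_upwards [e1, e2.filter_mono nhdsWithin_le_nhds] with v h1 h2
          exact ⟨hs0.trans h1.le, h2.le, D_zero_zero⟩
        · apply res_PR hS h.ge
          · filter_upwards [e1] with v h1
            rw [h] at h1; exact h1
          · rw [phi_of_zero hs0 hs1 hD, PR, PA]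
            have h1 := P.rightE1 (s t) h.ge
            have h2 := P.posE (s t)
            have h3 : 0 ≤ (-P.E1 (s t)) / P.E (s t) ^ 2 := div_nonneg (by linarith) (by positivity)
            have h4 : 0 ≤ (-P.E1 (s t)) / P.E (s t) ^ 2 * σ t * h₁ t ^ 2 := by positivity
            have h5 : (-P.E1 (s t)) / P.E (s t) ^ 2 = -(P.E1 (s t) / P.E (s t) ^ 2) := by ring
            rw [h5] at h4
            linarith
    · have hpq' : p ≠ 0 ∨ q ≠ 0 := by
        by_contra hcon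
        push Not at hcon
        exact hpq hcon
      rcases lt_trichotomy (σ t) 0 with hσ | hσ | hσ
      · have e1 := right_gt_of_deriv_neg hSt.ds hσ
        rcases hs0.lt_or_eq with h | h
        · have e2 : ∀ᶠ v in 𝓝 t, 0 < s v := continuousAt_const.eventually_lt hsc h
          have hz : P.Z 0 1 p q (s t) ≠ 0 := by
            have := P.zL (s t) h hs1 p q hD.ge hpq'
            rw [Profile.Z]
            intro h2; apply this; linarith
          apply res_L hS hz (by rw [phi_of_zero hs0 hs1 hD, PN_of_zero hD])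
          filter_upwards [e1, e2.filter_mono nhdsWithin_le_nhds] with v h1 h2
          refine ⟨h1.le.trans hs1, ?_, fun _ => h2.le⟩
          have := P.D_anti (p := p) (q := q) h2.le h1.le hs1
          rw [hD] at this
          exact this
        · apply res_PL hS h.ge
          · filter_upwards [e1] with v h1
            rw [← h] at h1; exact h1
          · rw [phi_of_zero hs0 hs1 hD, PL, PA]
            have h1 := P.leftH1 (s t) h.ge
            have h2 := P.posH (s t)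
            have hq : q = 0 := by
              rw [P.D_left h.ge] at hD
              rcases mul_eq_zero.1 hD with h3 | h3
              · exact absurd h3 h1.ne'
              · exact (pow_eq_zero_iff two_ne_zero).1 h3
            have h3 : 0 ≤ P.H1 (s t) / P.H (s t) ^ 2 := by positivity
            have h4 : 0 ≤ P.H1 (s t) / P.H (s t) ^ 2 * (-σ t) * h₂ t ^ 2 := by
              have : 0 ≤ -σ t := by linarith
              positivity
            rw [hq]
            linarith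
      · have e1 := (stationary hS hσ hD).filter_mono (nhdsWithin_le_nhds (s := Ioi t))
        apply res_A hS hs0 hs1 hD
        filter_upwards [e1] with v h1
        rw [h1]; exact ⟨hs0, hs1, hD⟩
      · have e1 := right_lt_of_deriv_pos hSt.ds hσ
        rcases hs1.lt_or_eq with h | h
        · have e2 : ∀ᶠ v in 𝓝 t, s v < 1 := hsc.eventually_lt continuousAt_const h
          have hz : P.Z 1 0 p q (s t) ≠ 0 := by
            have := P.zR (s t) hs0 h p q hD.le hpq'
            rw [Profile.Z]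
            intro h2; apply this; linarith
          apply res_R hS hz (by rw [phi_of_zero hs0 hs1 hD, PN_of_zero hD])
          filter_upwards [e1, e2.filter_mono nhdsWithin_le_nhds] with v h1 h2
          refine ⟨hs0.trans h1.le, ?_, fun _ => h2.le⟩
          have := P.D_anti (p := p) (q := q) hs0 h1.le h2.le
          rw [hD] at this
          exact this
        · apply res_PR hS h.ge
          · filter_upwards [e1] with v h1
            rw [h] at h1; exact h1
          · rw [phi_of_zero hs0 hs1 hD, PR, PA]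
            have h1 := P.rightE1 (s t) h.ge
            have h2 := P.posE (s t)
            have ha : p - P.δ * q = 0 := by
              rw [P.D_right h.ge] at hD
              rcases mul_eq_zero.1 hD with h3 | h3
              · exact absurd h3 h1.ne
              · exact (pow_eq_zero_iff two_ne_zero).1 h3
            have h3 : 0 ≤ (-P.E1 (s t)) / P.E (s t) ^ 2 := div_nonneg (by linarith) (by positivity)
            have h4 : 0 ≤ (-P.E1 (s t)) / P.E (s t) ^ 2 * σ t * h₁ t ^ 2 := by positivity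
            have h5 : (-P.E1 (s t)) / P.E (s t) ^ 2 = -(P.E1 (s t) / P.E (s t) ^ 2) := by ring
            rw [h5] at h4
            rw [ha]
            linarith
  · -- D > 0
    have hs1' : s t < 1 := by
      rcases hs1.lt_or_eq with h | h
      · exact h
      · exfalso
        rw [P.D_right h.ge] at hD
        have := P.rightE1 (s t) h.ge
        linarith only [mul_nonneg (neg_nonneg.2 this.le) (sq_nonneg (p - P.δ * q)), hD]
    have hz : P.Z 0 1 p q (s t) ≠ 0 := by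
      have hpq : p ≠ 0 ∨ q ≠ 0 := by
        by_contra hcon
        push Not at hcon
        rw [hcon.1, hcon.2, D_zero_zero] at hD
        exact lt_irrefl _ hD
      rcases hs0.lt_or_eq with h | h
      · have := P.zL (s t) h hs1 p q hD.le hpq
        rw [Profile.Z]
        intro h2; apply this; linarith
      · rw [P.D_left h.ge] at hD
        obtain ⟨l1, l2, l3, l4, l5, l6⟩ := P.left (s t) h.ge
        rw [Profile.Z, l2]
        intro h2
        have h3 : P.H (s t) * q = 0 := by linarith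
        rcases mul_eq_zero.1 h3 with h4 | h4
        · exact (P.posH (s t)).ne' h4
        · rw [h4] at hD; simp at hD
    apply res_L hS hz (phi_of_pos hs1 hD)
    have e1 : ∀ᶠ v in 𝓝 t, s v < 1 := hsc.eventually_lt continuousAt_const hs1'
    have e2 : ∀ᶠ v in 𝓝 t, 0 < P.D p q (s v) := continuousAt_const.eventually_lt hDc hD
    filter_upwards [e1.filter_mono nhdsWithin_le_nhds, e2.filter_mono nhdsWithin_le_nhds]
      with v h1 h2
    exact ⟨h1.le, h2.le, fun h => absurd h h2.ne'⟩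

end

end Vale.Agent.P255
end
end

section

section

/-!
# P255: time reversal and the two-sided local monotonicity
-/

open Set Filter Topology

namespace Vale.Agent.P255

section

variable {P : Profile} {p q u w : ℝ} {s σ ξ ρ h₁ h₂ : ℝ → ℝ} {t : ℝ}

theorem tendsto_neg_nhds (t : ℝ) : Tendsto (fun x : ℝ => -x) (𝓝 (-t)) (𝓝 t) := by
  have := (continuous_neg (G := ℝ)).tendsto (-t)
  rwa [neg_neg] at this

theorem hasDerivAt_comp_neg {f : ℝ → ℝ} {f' t : ℝ} (h : HasDerivAt f f' (-t)) :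
    HasDerivAt (fun x => f (-x)) (-f') t := by
  have := HasDerivAt.comp t h (hasDerivAt_neg t)
  rw [mul_neg, mul_one] at this
  exact this

theorem Sol.reverse (h : Sol P p q u w s σ ξ ρ h₁ h₂ (-t)) :
    Sol P (-p) (-q) (-u) (-w) (fun x => s (-x)) (fun x => -σ (-x)) (fun x => ξ (-x))
      (fun x => -ρ (-x)) (fun x => h₁ (-x)) (fun x => h₂ (-x)) t where
  ds := hasDerivAt_comp_neg h.ds
  dσ := by
    refine (hasDerivAt_comp_neg h.dσ).neg.congr_deriv ?_
    simp only [Profile.D]; ring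
  dξ := hasDerivAt_comp_neg h.dξ
  dρ := by
    refine (hasDerivAt_comp_neg h.dρ).neg.congr_deriv ?_
    simp only [Profile.D2]; ring
  dh₁ := by
    refine (hasDerivAt_comp_neg h.dh₁).congr_deriv ?_
    ring
  dh₂ := by
    refine (hasDerivAt_comp_neg h.dh₂).congr_deriv ?_
    ring

theorem D_neg {s' : ℝ} : P.D (-p) (-q) s' = P.D p q s' := by
  simp only [Profile.D]; ring

theorem Z_neg {n m s' : ℝ} : P.Z n m (-p) (-q) s' = - P.Z n m p q s' := by
  simp only [Profile.Z]; ring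

theorem PhiFun_reverse (s' σ' ξ' ρ' h₁' h₂' : ℝ) :
    PhiFun P (-p) (-q) s' (-σ') ξ' (-ρ') h₁' h₂' (-u) (-w)
      = - PhiFun P p q s' σ' ξ' ρ' h₁' h₂' u w := by
  unfold PhiFun
  rw [D_neg]
  split_ifs
  · unfold PL; ring
  · unfold PR; ring
  · unfold PN PA
    rw [D_neg, Z_neg, div_neg]; ring
  · unfold PN PA
    rw [D_neg, Z_neg, div_neg]; ring
  · unfold PA; ring

theorem eventually_nhdsGT_neg {p : ℝ → Prop} {t : ℝ} (h : ∀ᶠ v in 𝓝[>] (-t), p v) :
    ∀ᶠ v in 𝓝[<] t, p (-v) := by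
  have h1 : Tendsto (fun x : ℝ => -x) (𝓝[<] t) (𝓝[>] (-t)) := tendsto_neg_nhdsLT
  exact h1.eventually h

theorem local_mono (hS : ∀ᶠ v in 𝓝 t, Sol P p q u w s σ ξ ρ h₁ h₂ v) :
    (∀ᶠ v in 𝓝[>] t, PhiFun P p q (s t) (σ t) (ξ t) (ρ t) (h₁ t) (h₂ t) u w
      ≤ PhiFun P p q (s v) (σ v) (ξ v) (ρ v) (h₁ v) (h₂ v) u w) ∧
    (∀ᶠ v in 𝓝[<] t, PhiFun P p q (s v) (σ v) (ξ v) (ρ v) (h₁ v) (h₂ v) u w
      ≤ PhiFun P p q (s t) (σ t) (ξ t) (ρ t) (h₁ t) (h₂ t) u w) ∧
    (ξ t = 0 → h₁ t = 0 → h₂ t = 0 →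
      (∀ᶠ v in 𝓝[>] t, PhiFun P p q (s v) (σ v) (ξ v) (ρ v) (h₁ v) (h₂ v) u w = 0) →
      ρ t = 0 ∧ u = 0 ∧ w = 0) := by
  refine ⟨?_, ?_, ?_⟩
  · obtain ⟨Ψ, hΨ⟩ := right_res hS
    exact hΨ.right
  · have h1 : ∀ᶠ v in 𝓝 (-t), Sol P (-p) (-q) (-u) (-w) (fun x => s (-x)) (fun x => -σ (-x))
        (fun x => ξ (-x)) (fun x => -ρ (-x)) (fun x => h₁ (-x)) (fun x => h₂ (-x)) v := by
      filter_upwards [(tendsto_neg_nhds t).eventually hS] with v hv
      exact hv.reverse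
    obtain ⟨Ψ, hΨ⟩ := right_res h1
    have h2 := eventually_nhdsGT_neg hΨ.right
    filter_upwards [h2] with v hv
    simp only [neg_neg] at hv
    rw [PhiFun_reverse, PhiFun_reverse] at hv
    linarith
  · intro e1 e2 e3 h0
    obtain ⟨Ψ, hΨ⟩ := right_res hS
    have := hΨ.deriv_zero ⟨e1, e2, e3⟩ h0
    have h1 := P.GG_nonneg u w (s t)
    have h2 : ρ t ^ 2 = 0 := by nlinarith [sq_nonneg (ρ t)]
    have h3 : P.GG u w (s t) = 0 := by nlinarith [sq_nonneg (ρ t)]
    exact ⟨(pow_eq_zero_iff two_ne_zero).1 h2, P.GG_eq_zero h3⟩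

theorem PhiFun_zero {s' σ' ξ' ρ' h₁' h₂' : ℝ} (e1 : ξ' = 0) (e2 : h₁' = 0) (e3 : h₂' = 0) :
    PhiFun P p q s' σ' ξ' ρ' h₁' h₂' u w = 0 := by
  unfold PhiFun PL PR PN PA
  rw [e1, e2, e3]
  split_ifs <;> ring

end

/-- A function which is locally monotone to the right and to the left of every point is
monotone. -/
theorem monotone_of_local {Φ : ℝ → ℝ} {a b : ℝ} (hab : a ≤ b)
    (h1 : ∀ t ∈ Icc a b, ∀ᶠ v in 𝓝[>] t, Φ t ≤ Φ v)
    (h2 : ∀ t ∈ Icc a b, ∀ᶠ v in 𝓝[<] t, Φ v ≤ Φ t) : Φ a ≤ Φ b := by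
  set A : Set ℝ := {x | x ∈ Icc a b ∧ ∀ y ∈ Icc a x, Φ a ≤ Φ y} with hA
  have haA : a ∈ A := ⟨left_mem_Icc.2 hab, fun y hy => by
    rw [le_antisymm hy.2 hy.1]⟩
  have hbd : BddAbove A := ⟨b, fun x hx => hx.1.2⟩
  set c := sSup A with hc
  have hac : a ≤ c := le_csSup hbd haA
  have hcb : c ≤ b := csSup_le ⟨a, haA⟩ fun x hx => hx.1.2
  have hcI : c ∈ Icc a b := ⟨hac, hcb⟩
  -- everything below c is fine
  have hlt : ∀ y, a ≤ y → y < c → Φ a ≤ Φ y := by
    intro y hay hyc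
    obtain ⟨x, hx, hyx⟩ := exists_lt_of_lt_csSup ⟨a, haA⟩ hyc
    exact hx.2 y ⟨hay, hyx.le⟩
  have hcc : Φ a ≤ Φ c := by
    rcases hac.eq_or_lt with h | h
    · rw [← h]
    · have h3 : ∀ᶠ v in 𝓝[<] c, v ∈ Ioo a c := Ioo_mem_nhdsLT h
      obtain ⟨v, hv1, hv2⟩ := ((h2 c hcI).and h3).exists
      exact (hlt v hv2.1.le hv2.2).trans hv1
  have hcA : c ∈ A := by
    refine ⟨hcI, fun y hy => ?_⟩
    rcases hy.2.eq_or_lt with h | h
    · rw [h]; exact hcc
    · exact hlt y hy.1 h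
  rcases hcb.eq_or_lt with h | h
  · rw [← h]; exact hcc
  · exfalso
    obtain ⟨d, hd, hd'⟩ := (mem_nhdsGT_iff_exists_Ioo_subset).1 (h1 c hcI)
    have hd0 : c < d := hd
    have hcm : c < min b d := lt_min h hd0
    set x := (c + min b d) / 2 with hx
    have hx1 : c < x := by linarith
    have hx2 : x < min b d := by linarith
    have hxA : x ∈ A := by
      refine ⟨⟨by linarith, (hx2.trans_le (min_le_left _ _)).le⟩, fun y hy => ?_⟩
      rcases lt_or_ge c y with h3 | h3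
      · have : y ∈ Ioo c d := ⟨h3, lt_of_le_of_lt hy.2 (hx2.trans_le (min_le_right _ _))⟩
        exact hcc.trans (hd' this)
      · exact hcA.2 y ⟨hy.1, h3⟩
    have := le_csSup hbd hxA
    linarith

end Vale.Agent.P255
end
end

section

section

/-!
# P255: interface between collar coordinates and the Hamiltonian form
-/

open scoped Manifold ContDiff Topology
open Set Filter

noncomputable section

namespace Vale.Agent.P255

/-- `c` satisfies the geodesic equation and `J` the Jacobi equation at time `v`, for the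
coordinate metric `G`. -/
structure GJ (G : E3 → E3 →L[ℝ] E3 →L[ℝ] ℝ) (c J : ℝ → E3) (v : ℝ) : Prop where
  dc : DifferentiableAt ℝ c v
  dc' : DifferentiableAt ℝ (deriv c) v
  geo : deriv (deriv c) v = - chris G (c v) (deriv c v) (deriv c v)
  dJ : DifferentiableAt ℝ J v
  dJ' : DifferentiableAt ℝ (covD G c J) v
  jac : covD G c (covD G c J) v + curv G (c v) (J v) (deriv c v) (deriv c v) = 0

/-- momentum of `c` in the direction of the coordinate `i` -/
def momP (G : E3 → E3 →L[ℝ] E3 →L[ℝ] ℝ) (c : ℝ → E3) (i : Fin 3) (v : ℝ) : ℝ :=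
  G (c v) (deriv c v) (EuclideanSpace.single i 1)

/-- linearized momentum of `J` -/
def momU (G : E3 → E3 →L[ℝ] E3 →L[ℝ] ℝ) (c J : ℝ → E3) (i : Fin 3) (v : ℝ) : ℝ :=
  G (c v) (deriv J v) (EuclideanSpace.single i 1)
    + fderiv ℝ G (c v) (J v) (deriv c v) (EuclideanSpace.single i 1)

/-- the profile `Q` is the one of the collar metric `GC δ` -/
structure IsProf (δ : ℝ) (Q : Profile) : Prop where
  hδ : Q.δ = δ
  hE : ∀ s, Q.E s = 1 / chi δ s ^ 2
  hF : ∀ s, Q.F s = -(δ * sig s) / chi δ s ^ 2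
  hH : ∀ s, Q.H s = (δ * sig s) ^ 2 / chi δ s ^ 2 + 1 / phi s ^ 2

/-- the monotone quantity in collar coordinates -/
def PhiC (δ : ℝ) (Q : Profile) (c J : ℝ → E3) (v : ℝ) : ℝ :=
  PhiFun Q (momP (GC δ) c 1 v) (momP (GC δ) c 2 v) (c v 0) (deriv c v 0) (J v 0) (deriv J v 0)
    (J v 1) (J v 2) (momU (GC δ) c J 1 v) (momU (GC δ) c J 2 v)

end Vale.Agent.P255
end
end
end

section

section

/-!
# P255: charts of the glued space near the core of the collar
-/

open scoped Manifold ContDiff Topology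
open Set Filter

set_option maxSynthPendingDepth 3

noncomputable section

namespace Vale.Agent.P255

variable {δ : ℝ} {hδ : 0 < δ}

/-- kind of the chart at `a` -/
def knd (a : (Sd δ hδ).Space) : Kind := (Sd δ hδ).kind a

theorem coef_g0 (a : (Sd δ hδ).Space) : (g0 δ hδ).coef a = Gk δ (knd a) := rfl

theorem target_sub (a : (Sd δ hδ).Space) : (chartAt E3 a).target ⊆ Om δ (knd a) :=
  (Sd δ hδ).chart_target_subset a

theorem rel_trans_chart (a b : (Sd δ hδ).Space) {u : E3} (hu : u ∈ (chartAt E3 a).target)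
    (hb : (chartAt E3 a).symm u ∈ (chartAt E3 b).source) :
    rel δ (knd a, u) (knd b, trans E3 a b u) :=
  ((Sd δ hδ).rel_of_trans a b u hu hb).2

theorem rel_charts {a b m : (Sd δ hδ).Space} (ha : m ∈ (chartAt E3 a).source)
    (hb : m ∈ (chartAt E3 b).source) :
    rel δ (knd a, chartAt E3 a m) (knd b, chartAt E3 b m) := by
  have h1 : (chartAt E3 a).symm (chartAt E3 a m) = m := (chartAt E3 a).left_inv ha
  have h := rel_trans_chart a b ((chartAt E3 a).map_source ha) (by rw [h1]; exact hb)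
  unfold trans at h
  rw [h1] at h
  exact h

/-- the core of the collar -/
def core (m : (Sd δ hδ).Space) : Prop :=
  knd m = Kind.C ∧ 0 ≤ (chartAt E3 m m) 0 ∧ (chartAt E3 m m) 0 ≤ 1

theorem core_iff {a m : (Sd δ hδ).Space} (ha : m ∈ (chartAt E3 a).source) (hk : knd a = Kind.C) :
    core m ↔ 0 ≤ (chartAt E3 a m) 0 ∧ (chartAt E3 a m) 0 ≤ 1 := by
  have hm := mem_chart_source E3 m
  have hr := rel_charts ha hm
  have hO : chartAt E3 m m ∈ Om δ (knd m) := target_sub m ((chartAt E3 m).map_source hm)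
  unfold core
  rw [hk] at hr
  rcases hkm : knd m with _ | _ | _
  · rw [hkm] at hr hO
    have h1 : (chartAt E3 a m) 0 < -1 := relCL_lt hO hr
    constructor
    · rintro ⟨h, -⟩; exact absurd h (by simp)
    · rintro ⟨h2, -⟩; linarith
  · rw [hkm] at hr
    have h1 : (chartAt E3 m m) 0 = (chartAt E3 a m) 0 := hr.1
    rw [h1]
    simp
  · rw [hkm] at hr hO
    have h1 : 2 < (chartAt E3 a m) 0 := relCR_lt hδ hO hr
    constructor
    · rintro ⟨h, -⟩; exact absurd h (by simp)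
    · rintro ⟨-, h2⟩; linarith

theorem not_core {a m : (Sd δ hδ).Space} (ha : m ∈ (chartAt E3 a).source) (hk : knd a ≠ Kind.C) :
    ¬ core m := by
  rintro ⟨h0, h1, h2⟩
  have hm := mem_chart_source E3 m
  have hr := rel_charts hm ha
  have hO : chartAt E3 a m ∈ Om δ (knd a) := target_sub a ((chartAt E3 a).map_source ha)
  rw [h0] at hr
  rcases hka : knd a with _ | _ | _
  · rw [hka] at hr hO
    have h1 : (chartAt E3 m m) 0 < -1 := relCL_lt hO hr
    linarith
  · exact hk hka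
  · rw [hka] at hr hO
    have h1 : 2 < (chartAt E3 m m) 0 := relCR_lt hδ hO hr
    linarith

/-- Coordinate changes between collar charts are local translations. -/
theorem trans_translate (a b : (Sd δ hδ).Space) {u : E3} (hu : u ∈ (chartAt E3 a).target)
    (hb : (chartAt E3 a).symm u ∈ (chartAt E3 b).source) (hka : knd a = Kind.C)
    (hkb : knd b = Kind.C) :
    ∃ k : E3, k 0 = 0 ∧ ∀ᶠ v in 𝓝 u, trans E3 a b v = v + k := by
  have hrel : ∀ v, v ∈ (chartAt E3 a).target → (chartAt E3 a).symm v ∈ (chartAt E3 b).source →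
      (trans E3 a b v) 0 = v 0 ∧ Mult (per δ) ((trans E3 a b v) 1 - v 1) ∧
        Mult (2 * Real.pi) ((trans E3 a b v) 2 - v 2) := by
    intro v hv hv'
    have := rel_trans_chart a b hv hv'
    rw [hka, hkb] at this
    exact this
  have hcont : ContinuousAt (trans E3 a b) u :=
    (contDiffAt_trans a b hu hb).continuousAt
  refine ⟨trans E3 a b u - u, ?_, ?_⟩
  · have := (hrel u hu hb).1
    simp [this]
  · have e1 : ∀ᶠ v in 𝓝 u, v ∈ (chartAt E3 a).target := (chartAt E3 a).open_target.mem_nhds hu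
    have e2 : ∀ᶠ v in 𝓝 u, (chartAt E3 a).symm v ∈ (chartAt E3 b).source :=
      ((chartAt E3 a).symm.continuousAt hu).eventually_mem
        ((chartAt E3 b).open_source.mem_nhds hb)
    have hd : ContinuousAt (fun v => trans E3 a b v - v - (trans E3 a b u - u)) u :=
      (hcont.sub continuousAt_id).sub continuousAt_const
    have hd1 : ContinuousAt (fun v => (trans E3 a b v - v - (trans E3 a b u - u)) 1) u :=
      (EuclideanSpace.proj (𝕜 := ℝ) (1 : Fin 3)).continuous.continuousAt.comp hd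
    have hd2 : ContinuousAt (fun v => (trans E3 a b v - v - (trans E3 a b u - u)) 2) u :=
      (EuclideanSpace.proj (𝕜 := ℝ) (2 : Fin 3)).continuous.continuousAt.comp hd
    have e3 : ∀ᶠ v in 𝓝 u, |(trans E3 a b v - v - (trans E3 a b u - u)) 1| < per δ := by
      have := hd1.abs.eventually_lt (continuousAt_const (y := per δ)) (by simp [per_pos hδ])
      exact this
    have e4 : ∀ᶠ v in 𝓝 u, |(trans E3 a b v - v - (trans E3 a b u - u)) 2| < 2 * Real.pi := by
      have := hd2.abs.eventually_lt (continuousAt_const (y := 2 * Real.pi))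
        (by simp [Real.pi_pos])
      exact this
    filter_upwards [e1, e2, e3, e4] with v h1 h2 h3 h4
    obtain ⟨r0, r1, r2⟩ := hrel v h1 h2
    obtain ⟨s0, s1, s2⟩ := hrel u hu hb
    have k1 : Mult (per δ) ((trans E3 a b v - v - (trans E3 a b u - u)) 1) := r1.sub s1
    have k2 : Mult (2 * Real.pi) ((trans E3 a b v - v - (trans E3 a b u - u)) 2) := r2.sub s2
    have z1 := k1.eq_zero h3
    have z2 := k2.eq_zero h4
    have z0 : (trans E3 a b v - v - (trans E3 a b u - u)) 0 = 0 := by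
      simp [r0, s0]
    have hz : trans E3 a b v - v - (trans E3 a b u - u) = 0 := by
      ext i
      fin_cases i
      · exact z0
      · exact z1
      · exact z2
    rw [sub_eq_zero, sub_eq_iff_eq_add] at hz
    rw [hz]; abel

end Vale.Agent.P255
end
end
end

section

section

/-!
# P255: the monotone quantity on the glued space
-/

open scoped Manifold ContDiff Topology
open Set Filter

set_option maxSynthPendingDepth 3

noncomputable section

namespace Vale.Agent.P255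

/-- statement of the collar computation: momenta are conserved and the Hamiltonian form holds -/
def CollarSol (δ : ℝ) (Q : Profile) : Prop :=
  ∀ (c J : ℝ → E3) (t : ℝ), (∀ᶠ v in 𝓝 t, GJ (GC δ) c J v) →
    ∀ᶠ v in 𝓝 t, momP (GC δ) c 1 v = momP (GC δ) c 1 t ∧ momP (GC δ) c 2 v = momP (GC δ) c 2 t ∧
      momU (GC δ) c J 1 v = momU (GC δ) c J 1 t ∧ momU (GC δ) c J 2 v = momU (GC δ) c J 2 t ∧
      Sol Q (momP (GC δ) c 1 t) (momP (GC δ) c 2 t) (momU (GC δ) c J 1 t) (momU (GC δ) c J 2 t)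
        (fun v => c v 0) (fun v => deriv c v 0) (fun v => J v 0) (fun v => deriv J v 0)
        (fun v => J v 1) (fun v => J v 2) v

/-- outside the core, the monotone quantity is half the derivative of the squared norm -/
def CollarNorm (δ : ℝ) (Q : Profile) : Prop :=
  ∀ (c J : ℝ → E3) (v : ℝ), GJ (GC δ) c J v → (c v 0 < 0 ∨ 1 < c v 0) →
    1 / 2 * deriv (fun x => GC δ (c x) (J x) (J x)) v = PhiC δ Q c J v

/-- vanishing of the initial data -/
def CollarZero (δ : ℝ) : Prop :=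
  ∀ (c J : ℝ → E3) (v : ℝ), GJ (GC δ) c J v → J v = 0 → deriv J v 0 = 0 →
    momU (GC δ) c J 1 v = 0 → momU (GC δ) c J 2 v = 0 → deriv J v = 0

variable {δ : ℝ} {hδ : 0 < δ}

theorem fderiv_GC_add {k : E3} (hk : k 0 = 0) (u : E3) :
    fderiv ℝ (GC δ) (u + k) = fderiv ℝ (GC δ) u := by
  have h : (fun x => GC δ (x + k)) = GC δ := by
    funext x
    exact GC_congr (by simp [hk])
  rw [← fderiv_comp_add_right, h]

theorem PhiC_congr {Q : Profile} {c c' J J' : ℝ → E3} {k : E3} (hk : k 0 = 0) {v : ℝ}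
    (hc : c' =ᶠ[𝓝 v] fun x => c x + k) (hJ : J' =ᶠ[𝓝 v] J) :
    PhiC δ Q c' J' v = PhiC δ Q c J v := by
  have h1 : deriv c' v = deriv c v := by
    rw [hc.deriv_eq]; simp
  have h2 : deriv J' v = deriv J v := hJ.deriv_eq
  have h3 : c' v = c v + k := hc.self_of_nhds
  have h4 : J' v = J v := hJ.self_of_nhds
  have h5 : GC δ (c' v) = GC δ (c v) := GC_congr (by rw [h3]; simp [hk])
  have h6 : fderiv ℝ (GC δ) (c' v) = fderiv ℝ (GC δ) (c v) := by rw [h3, fderiv_GC_add hk]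
  have h7 : (c' v) 0 = (c v) 0 := by rw [h3]; simp [hk]
  unfold PhiC momP momU
  rw [h1, h2, h4, h5, h6, h7]

/-- the monotone quantity on the glued space -/
def PhiM (Q : Profile) (γ : ℝ → (Sd δ hδ).Space) (J : (Sd δ hδ).Space → ℝ → E3) (t : ℝ) : ℝ :=
  open Classical in
  if core (γ t) then PhiC δ Q (cc γ (γ t)) (J (γ t)) t
  else 1 / 2 * deriv (prodF (g0 δ hδ) γ J J) t

section

variable {γ : ℝ → (Sd δ hδ).Space} {J : (Sd δ hδ).Space → ℝ → E3}

theorem gj_of_mem (hγ : IsGeodesic (g0 δ hδ) γ) (hJ : IsJacobi (g0 δ hδ) γ J)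
    {a : (Sd δ hδ).Space} {t : ℝ} (ha : γ t ∈ (chartAt E3 a).source) :
    GJ (Gk δ (knd a)) (cc γ a) (J a) t where
  dc := (hγ.eqn a t (mem_univ _) ha).1
  dc' := (hγ.eqn a t (mem_univ _) ha).2.1
  geo := (hγ.eqn a t (mem_univ _) ha).2.2
  dJ := (hJ.eqn a t ha).1
  dJ' := (hJ.eqn a t ha).2.1
  jac := (hJ.eqn a t ha).2.2

/-- change of collar charts along a curve -/
theorem change_chart (hγ : Continuous γ) (hJ : Compat γ J) {a b : (Sd δ hδ).Space} {t : ℝ}
    (ha : γ t ∈ (chartAt E3 a).source) (hb : γ t ∈ (chartAt E3 b).source)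
    (hka : knd a = Kind.C) (hkb : knd b = Kind.C) :
    ∃ k : E3, k 0 = 0 ∧ (cc (E := E3) γ b =ᶠ[𝓝 t] fun v => cc γ a v + k) ∧ J b =ᶠ[𝓝 t] J a := by
  have h1 : (chartAt E3 a).symm (cc γ a t) = γ t := symm_cc ha
  obtain ⟨k, hk, hev⟩ := trans_translate a b (cc_mem ha) (by rw [h1]; exact hb) hka hkb
  have hc : ContinuousAt (cc (E := E3) γ a) t :=
    ((chartAt E3 a).continuousAt ha).comp hγ.continuousAt
  have hev2 : ∀ᶠ v in 𝓝 t, ∀ᶠ x in 𝓝 (cc (E := E3) γ a v), trans E3 a b x = x + k :=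
    hc.eventually (eventually_eventually_nhds.2 hev)
  have e1 := eventually_mem_source (E := E3) hγ.continuousAt ha
  have e2 := eventually_mem_source (E := E3) hγ.continuousAt hb
  refine ⟨k, hk, ?_, ?_⟩
  · filter_upwards [hev2, e1] with v hv h1
    rw [← trans_cc h1]
    exact hv.self_of_nhds
  · filter_upwards [hev2, e1, e2] with v hv h1 h2
    rw [hJ a b v h1 h2]
    have : fderiv ℝ (trans E3 a b) (cc γ a v) = ContinuousLinearMap.id ℝ E3 := by
      have h3 : trans E3 a b =ᶠ[𝓝 (cc (E := E3) γ a v)] fun x => x + k := hv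
      rw [h3.fderiv_eq, fderiv_add_const]
      exact fderiv_id
    rw [this]; rfl

theorem PhiM_eq_collar {Q : Profile} (hN : CollarNorm δ Q) (hγ : IsGeodesic (g0 δ hδ) γ)
    (hJ : IsJacobi (g0 δ hδ) γ J) {a : (Sd δ hδ).Space} {v : ℝ}
    (ha : γ v ∈ (chartAt E3 a).source) (hka : knd a = Kind.C) :
    PhiM Q γ J v = PhiC δ Q (cc γ a) (J a) v := by
  unfold PhiM
  have hcont := hγ.continuous
  split_ifs with hcore
  · obtain ⟨k, hk, h1, h2⟩ := change_chart hcont hJ.compat' ha (mem_chart_source E3 (γ v)) hka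
      hcore.1
    exact PhiC_congr hk h1 h2
  · have h0 : ¬ (0 ≤ (cc (E := E3) γ a v) 0 ∧ (cc (E := E3) γ a v) 0 ≤ 1) := by
      intro h
      exact hcore ((core_iff ha hka).2 h)
    have h1 : (cc (E := E3) γ a v) 0 < 0 ∨ 1 < (cc (E := E3) γ a v) 0 := by
      by_contra hcon
      push Not at hcon
      exact h0 hcon
    have hgj := gj_of_mem hγ hJ ha
    rw [hka] at hgj
    rw [← hN _ _ _ hgj h1]
    congr 1
    apply Filter.EventuallyEq.deriv_eq
    filter_upwards [eventually_mem_source (E := E3) hcont.continuousAt ha] with x hx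
    rw [prodF_eq (g0 δ hδ) hJ.compat' hJ.compat' hx, coef_g0, hka]
    rfl

/-! ### flat charts -/

theorem chris_GF (u v w : E3) : chris (fun _ => GF) u v w = 0 := by
  unfold chris
  simp

theorem curv_GF (u x y z : E3) : curv (fun _ => GF) u x y z = 0 := by
  unfold curv
  simp [chris_GF]

theorem covD_GF (c Y : ℝ → E3) (t : ℝ) : covD (fun _ => GF) c Y t = deriv Y t := by
  unfold covD
  rw [chris_GF, add_zero]

theorem Gk_flat {k : Kind} (hk : k ≠ Kind.C) : Gk δ k = fun _ => GF := by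
  cases k
  · rfl
  · exact absurd rfl hk
  · rfl

theorem flat_J (hγ : IsGeodesic (g0 δ hδ) γ)
    (hJ : IsJacobi (g0 δ hδ) γ J) {a : (Sd δ hδ).Space} {t : ℝ}
    (ha : γ t ∈ (chartAt E3 a).source) (hka : knd a ≠ Kind.C) :
    ∀ᶠ v in 𝓝 t, HasDerivAt (J a) (deriv (J a) v) v ∧ HasDerivAt (deriv (J a)) 0 v := by
  filter_upwards [eventually_mem_source (E := E3) hγ.continuous.continuousAt ha] with v hv
  have hgj := gj_of_mem hγ hJ hv
  rw [Gk_flat hka] at hgj
  have h0 : covD (fun _ => GF) (cc (E := E3) γ a) (J a) = deriv (J a) := by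
    funext x; exact covD_GF _ _ _
  refine ⟨hgj.dJ.hasDerivAt, ?_⟩
  have h1 := hgj.dJ'
  have h2 := hgj.jac
  rw [h0] at h1 h2
  rw [covD_GF, curv_GF, add_zero] at h2
  have := h1.hasDerivAt
  rw [h2] at this
  exact this

theorem PhiM_flat {Q : Profile} (hγ : IsGeodesic (g0 δ hδ) γ)
    (hJ : IsJacobi (g0 δ hδ) γ J) {a : (Sd δ hδ).Space} {v : ℝ}
    (ha : γ v ∈ (chartAt E3 a).source) (hka : knd a ≠ Kind.C) :
    PhiM Q γ J v = inner ℝ (J a v) (deriv (J a) v) := by
  unfold PhiM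
  rw [if_neg (not_core ha hka)]
  have h1 : prodF (g0 δ hδ) γ J J =ᶠ[𝓝 v] fun x => inner ℝ (J a x) (J a x) := by
    filter_upwards [eventually_mem_source (E := E3) hγ.continuous.continuousAt ha] with x hx
    rw [prodF_eq (g0 δ hδ) hJ.compat' hJ.compat' hx, coef_g0, Gk_flat hka]
    rfl
  rw [h1.deriv_eq]
  have h2 := (flat_J hγ hJ ha hka).self_of_nhds.1
  have h3 := h2.inner ℝ h2
  rw [h3.deriv, real_inner_comm]
  ring

end

end Vale.Agent.P255
end
end
end

section

section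

/-!
# P255: derivative facts on the smooth transition function
-/

open Set Filter Topology

noncomputable section

namespace Vale.Agent.P255

/-- first derivative of the transition function -/
def stD1 (x : ℝ) : ℝ := deriv Real.smoothTransition x

/-- second derivative of the transition function -/
def stD2 (x : ℝ) : ℝ := deriv stD1 x

theorem hasDerivAt_S (x : ℝ) : HasDerivAt Real.smoothTransition (stD1 x) x :=
  (((Real.smoothTransition.contDiff (n := 1)).differentiable (by norm_num)) x).hasDerivAt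

theorem contDiff_stD1 : ContDiff ℝ 1 stD1 := by
  have h : ContDiff ℝ (1 + 1) Real.smoothTransition := by
    have h2 : ContDiff ℝ 2 Real.smoothTransition := Real.smoothTransition.contDiff (n := 2)
    have e : (1 + 1 : WithTop ℕ∞) = 2 := by norm_num
    rw [e]
    exact h2
  exact (contDiff_succ_iff_deriv.1 h).2.2

theorem hasDerivAt_stD1 (x : ℝ) : HasDerivAt stD1 (stD2 x) x :=
  ((contDiff_stD1.differentiable (by norm_num)) x).hasDerivAt

theorem continuous_stD1 : Continuous stD1 := contDiff_stD1.continuous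

theorem continuous_stD2 : Continuous stD2 := contDiff_stD1.continuous_deriv (by norm_num)

theorem hasDerivAt_glue (x : ℝ) :
    HasDerivAt expNegInvGlue ((x⁻¹) ^ 2 * expNegInvGlue x) x := by
  have h := expNegInvGlue.hasDerivAt_polynomial_eval_inv_mul (1 : Polynomial ℝ) x
  simpa using h

theorem stD1_eq (x : ℝ) : stD1 x = Real.smoothTransition x * (1 - Real.smoothTransition x)
    * ((x⁻¹) ^ 2 + ((1 - x)⁻¹) ^ 2) := by
  have h1 := hasDerivAt_glue x
  have h2 : HasDerivAt (fun y => expNegInvGlue (1 - y))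
      ((((1 - x)⁻¹) ^ 2 * expNegInvGlue (1 - x)) * (-1)) x := by
    have h3 := hasDerivAt_glue (1 - x)
    have h4 : HasDerivAt (fun y : ℝ => 1 - y) (-1) x := by
      simpa using (hasDerivAt_id x).const_sub 1
    exact h3.comp x h4
  have hpos := Real.smoothTransition.pos_denom x
  have h5 : HasDerivAt Real.smoothTransition _ x := h1.div (h1.add h2) hpos.ne'
  have h6 : stD1 x = _ := h5.deriv
  rw [h6]
  unfold Real.smoothTransition
  field_simp
  ring

theorem stD1_nonneg (x : ℝ) : 0 ≤ stD1 x := by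
  rw [stD1_eq]
  have h1 := Real.smoothTransition.nonneg x
  have h2 := Real.smoothTransition.le_one x
  have h3 : 0 ≤ 1 - Real.smoothTransition x := by linarith
  positivity

theorem stD1_of_nonpos {x : ℝ} (hx : x ≤ 0) : stD1 x = 0 := by
  rw [stD1_eq, Real.smoothTransition.zero_of_nonpos hx]
  simp

theorem stD1_of_one_le {x : ℝ} (hx : 1 ≤ x) : stD1 x = 0 := by
  rw [stD1_eq, Real.smoothTransition.one_of_one_le hx]
  simp

theorem stD2_of_zero {x : ℝ} (hx : stD1 x = 0) : stD2 x = 0 := by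
  have h : IsLocalMin stD1 x := by
    refine Filter.Eventually.of_forall fun y => ?_
    rw [hx]
    exact stD1_nonneg y
  exact h.deriv_eq_zero

theorem S_le_half {x : ℝ} (hx : x ≤ 1 / 2) : Real.smoothTransition x ≤ 1 / 2 := by
  have h1 := smoothTransition_add_symm x
  have h2 := Real.smoothTransition.monotone (show x ≤ 1 - x by linarith)
  linarith

theorem four_S_le {x : ℝ} (hx : x ≤ 1 / 2) : 4 * Real.smoothTransition x ≤ stD1 x := by
  rcases le_or_gt x 0 with h0 | h0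
  · rw [stD1_of_nonpos h0, Real.smoothTransition.zero_of_nonpos h0]
    simp
  · rw [stD1_eq]
    have h1 := Real.smoothTransition.nonneg x
    have h2 := S_le_half hx
    have h3 : 0 < 1 - x := by linarith
    have h4 : (8 : ℝ) ≤ (x⁻¹) ^ 2 + ((1 - x)⁻¹) ^ 2 := by
      have e1 : 1 / x + 1 / (1 - x) ≥ 4 := by
        rw [ge_iff_le, div_add_div _ _ h0.ne' h3.ne', le_div_iff₀ (mul_pos h0 h3)]
        linarith only [sq_nonneg (x - 1 / 2)]
      have e2 : x⁻¹ + (1 - x)⁻¹ ≥ 4 := by simpa using e1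
      linarith only [sq_nonneg (x⁻¹ + (1 - x)⁻¹ - 4), sq_nonneg (x⁻¹ - (1 - x)⁻¹), e2]
    have h5 : Real.smoothTransition x * (1 / 2)
        ≤ Real.smoothTransition x * (1 - Real.smoothTransition x) :=
      mul_le_mul_of_nonneg_left (by linarith) h1
    have h6 : 0 ≤ Real.smoothTransition x * (1 - Real.smoothTransition x) :=
      mul_nonneg h1 (by linarith)
    nlinarith

/-- bounds for the derivatives -/
theorem exists_bounds : ∃ M : ℝ, 0 ≤ M ∧ (∀ x, |stD1 x| ≤ M) ∧ ∀ x, |stD2 x| ≤ M := by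
  obtain ⟨M1, hM1⟩ := (isCompact_Icc (a := (0 : ℝ)) (b := 1)).exists_bound_of_continuousOn
    continuous_stD1.continuousOn
  obtain ⟨M2, hM2⟩ := (isCompact_Icc (a := (0 : ℝ)) (b := 1)).exists_bound_of_continuousOn
    continuous_stD2.continuousOn
  have h0 : 0 ≤ max (max M1 M2) 0 := le_max_right _ _
  refine ⟨max (max M1 M2) 0, h0, ?_, ?_⟩
  · intro x
    rcases lt_or_ge x 0 with h | h
    · rw [stD1_of_nonpos h.le]; simp
    · rcases le_or_gt x 1 with h' | h'
      · exact (hM1 x ⟨h, h'⟩).trans ((le_max_left _ _).trans (le_max_left _ _))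
      · rw [stD1_of_one_le h'.le]; simp
  · intro x
    rcases lt_or_ge x 0 with h | h
    · rw [stD2_of_zero (stD1_of_nonpos h.le)]; simp
    · rcases le_or_gt x 1 with h' | h'
      · exact (hM2 x ⟨h, h'⟩).trans ((le_max_right _ _).trans (le_max_left _ _))
      · rw [stD2_of_zero (stD1_of_one_le h'.le)]; simp

end Vale.Agent.P255
end
end
end

section

section

namespace Vale.Agent.P255

/-! Pure algebra for the Hamiltonian form of the collar geodesics and Jacobi fields. -/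

theorem colalg_sigma {χ φ b a τ τ1 X Y : ℝ} (hχ : χ ≠ 0) (hφ : φ ≠ 0) :
    1 / 2 * (2 * χ * b * (X * X) - 2 * φ * a * ((Y + τ * X) * (Y + τ * X))
      + φ ^ 2 * (τ1 * X * (Y + τ * X) + (Y + τ * X) * (τ1 * X)))
    = -(1 / 2) * (-(2 * b * χ⁻¹ ^ 3) * (χ ^ 2 * X + φ ^ 2 * ((Y + τ * X) * τ)) ^ 2
      + 2 * -(τ1 * χ⁻¹ ^ 2 + τ * -(2 * b * χ⁻¹ ^ 3)) * (χ ^ 2 * X + φ ^ 2 * ((Y + τ * X) * τ))
        * (φ ^ 2 * (Y + τ * X))
      + (2 * τ * τ1 * χ⁻¹ ^ 2 + τ ^ 2 * -(2 * b * χ⁻¹ ^ 3) + 2 * a * φ⁻¹ ^ 3)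
        * (φ ^ 2 * (Y + τ * X)) ^ 2) := by
  field_simp
  ring

theorem colalg_h1 {χ φ b a τ τ1 X Y X' Y' ξ : ℝ} (hχ : χ ≠ 0) :
    X' = (-(2 * b * χ⁻¹ ^ 3) * (χ ^ 2 * X + φ ^ 2 * ((Y + τ * X) * τ))
        + -(τ1 * χ⁻¹ ^ 2 + τ * -(2 * b * χ⁻¹ ^ 3)) * (φ ^ 2 * (Y + τ * X))) * ξ
      + χ⁻¹ ^ 2 * (χ ^ 2 * X' + φ ^ 2 * ((Y' + τ * X') * τ)
          + (2 * χ * b * X - 2 * φ * a * ((Y + τ * X) * τ)
            + φ ^ 2 * (τ1 * X * τ + (Y + τ * X) * τ1)) * ξ)
      + -(τ * χ⁻¹ ^ 2) * (φ ^ 2 * (Y' + τ * X')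
          + (-2 * φ * a * (Y + τ * X) + φ ^ 2 * (τ1 * X)) * ξ) := by
  field_simp
  ring

theorem colalg_h2 {χ φ b a τ τ1 X Y X' Y' ξ : ℝ} (hχ : χ ≠ 0) (hφ : φ ≠ 0) :
    Y' = (-(τ1 * χ⁻¹ ^ 2 + τ * -(2 * b * χ⁻¹ ^ 3)) * (χ ^ 2 * X + φ ^ 2 * ((Y + τ * X) * τ))
        + (2 * τ * τ1 * χ⁻¹ ^ 2 + τ ^ 2 * -(2 * b * χ⁻¹ ^ 3) + 2 * a * φ⁻¹ ^ 3)
          * (φ ^ 2 * (Y + τ * X))) * ξ
      + -(τ * χ⁻¹ ^ 2) * (χ ^ 2 * X' + φ ^ 2 * ((Y' + τ * X') * τ)
          + (2 * χ * b * X - 2 * φ * a * ((Y + τ * X) * τ)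
            + φ ^ 2 * (τ1 * X * τ + (Y + τ * X) * τ1)) * ξ)
      + (τ ^ 2 * χ⁻¹ ^ 2 + φ⁻¹ ^ 2) * (φ ^ 2 * (Y' + τ * X')
          + (-2 * φ * a * (Y + τ * X) + φ ^ 2 * (τ1 * X)) * ξ) := by
  field_simp
  ring

theorem colalg_rho {χ φ b b2 a a2 τ τ1 τ2 X Y X' Y' ξ : ℝ} (hχ : χ ≠ 0) (hφ : φ ≠ 0) :
    1 / 2 * ((2 * (b ^ 2 + χ * b2) * (X * X)
        + 2 * (a ^ 2 + φ * a2) * ((Y + τ * X) * (Y + τ * X))
        - 4 * φ * a * (τ1 * X * (Y + τ * X) + (Y + τ * X) * (τ1 * X))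
        + φ ^ 2 * (τ2 * X * (Y + τ * X) + 2 * (τ1 * X) * (τ1 * X)
          + (Y + τ * X) * (τ2 * X))) * ξ)
      + (2 * χ * b * (X * X') - 2 * φ * a * ((Y + τ * X) * (Y' + τ * X'))
        + φ ^ 2 * (τ1 * X * (Y' + τ * X') + (Y + τ * X) * (τ1 * X')))
    = -(1 / 2) * ((6 * b ^ 2 * χ⁻¹ ^ 4 - 2 * b2 * χ⁻¹ ^ 3)
          * (χ ^ 2 * X + φ ^ 2 * ((Y + τ * X) * τ)) ^ 2
        + 2 * -(τ2 * χ⁻¹ ^ 2 + 2 * τ1 * -(2 * b * χ⁻¹ ^ 3)
            + τ * (6 * b ^ 2 * χ⁻¹ ^ 4 - 2 * b2 * χ⁻¹ ^ 3))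
          * (χ ^ 2 * X + φ ^ 2 * ((Y + τ * X) * τ)) * (φ ^ 2 * (Y + τ * X))
        + (2 * τ1 ^ 2 * χ⁻¹ ^ 2 + 2 * τ * τ2 * χ⁻¹ ^ 2 + 4 * τ * τ1 * -(2 * b * χ⁻¹ ^ 3)
            + τ ^ 2 * (6 * b ^ 2 * χ⁻¹ ^ 4 - 2 * b2 * χ⁻¹ ^ 3)
            + (6 * a ^ 2 * φ⁻¹ ^ 4 - 2 * a2 * φ⁻¹ ^ 3)) * (φ ^ 2 * (Y + τ * X)) ^ 2) * ξ
      - (-(2 * b * χ⁻¹ ^ 3) * (χ ^ 2 * X + φ ^ 2 * ((Y + τ * X) * τ))
          * (χ ^ 2 * X' + φ ^ 2 * ((Y' + τ * X') * τ)
            + (2 * χ * b * X - 2 * φ * a * ((Y + τ * X) * τ)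
              + φ ^ 2 * (τ1 * X * τ + (Y + τ * X) * τ1)) * ξ)
        + -(τ1 * χ⁻¹ ^ 2 + τ * -(2 * b * χ⁻¹ ^ 3))
          * ((χ ^ 2 * X + φ ^ 2 * ((Y + τ * X) * τ))
              * (φ ^ 2 * (Y' + τ * X') + (-2 * φ * a * (Y + τ * X) + φ ^ 2 * (τ1 * X)) * ξ)
            + (φ ^ 2 * (Y + τ * X))
              * (χ ^ 2 * X' + φ ^ 2 * ((Y' + τ * X') * τ)
                + (2 * χ * b * X - 2 * φ * a * ((Y + τ * X) * τ)
                  + φ ^ 2 * (τ1 * X * τ + (Y + τ * X) * τ1)) * ξ))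
        + (2 * τ * τ1 * χ⁻¹ ^ 2 + τ ^ 2 * -(2 * b * χ⁻¹ ^ 3) + 2 * a * φ⁻¹ ^ 3)
          * (φ ^ 2 * (Y + τ * X))
          * (φ ^ 2 * (Y' + τ * X') + (-2 * φ * a * (Y + τ * X) + φ ^ 2 * (τ1 * X)) * ξ)) := by
  field_simp
  ring

end Vale.Agent.P255
end
end

section

section

/-!
# P255: the metric `g0` has no conjugate points
-/

open scoped Manifold ContDiff Topology
open Set Filter

set_option maxSynthPendingDepth 3

noncomputable section

namespace Vale.Agent.P255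

variable {δ : ℝ} {hδ : 0 < δ} {γ : ℝ → (Sd δ hδ).Space} {J : (Sd δ hδ).Space → ℝ → E3}

theorem PhiM_local {Q : Profile} (hS : CollarSol δ Q) (hN : CollarNorm δ Q) (hZ : CollarZero δ)
    (hγ : IsGeodesic (g0 δ hδ) γ) (hJ : IsJacobi (g0 δ hδ) γ J) (t : ℝ) :
    (∀ᶠ v in 𝓝[>] t, PhiM Q γ J t ≤ PhiM Q γ J v) ∧
    (∀ᶠ v in 𝓝[<] t, PhiM Q γ J v ≤ PhiM Q γ J t) ∧
    (J (γ t) t = 0 → PhiM Q γ J t = 0) ∧
    (J (γ t) t = 0 → (∀ᶠ v in 𝓝[>] t, PhiM Q γ J v = 0) → deriv (J (γ t)) t = 0) := by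
  have hcont := hγ.continuous
  have ha : γ t ∈ (chartAt E3 (γ t)).source := mem_chart_source E3 (γ t)
  set a := γ t with haeq
  have hsrc : ∀ᶠ v in 𝓝 t, γ v ∈ (chartAt E3 a).source :=
    eventually_mem_source (E := E3) hcont.continuousAt (by rw [← haeq]; exact ha)
  have hat : γ t ∈ (chartAt E3 a).source := hsrc.self_of_nhds
  by_cases hka : knd a = Kind.C
  · -- collar chart
    have hgj : ∀ᶠ v in 𝓝 t, GJ (GC δ) (cc γ a) (J a) v := by
      filter_upwards [hsrc] with v hv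
      have := gj_of_mem hγ hJ hv
      rw [hka] at this
      exact this
    have hsol := hS _ _ t hgj
    have hsol' : ∀ᶠ v in 𝓝 t, Sol Q (momP (GC δ) (cc γ a) 1 t) (momP (GC δ) (cc γ a) 2 t)
        (momU (GC δ) (cc γ a) (J a) 1 t) (momU (GC δ) (cc γ a) (J a) 2 t)
        (fun v => ((cc (E := E3) γ a v) 0)) (fun v => ((deriv (cc (E := E3) γ a) v) 0)) (fun v => J a v 0)
        (fun v => deriv (J a) v 0) (fun v => J a v 1) (fun v => J a v 2) v := by
      filter_upwards [hsol] with v hv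
      exact hv.2.2.2.2
    have hΦ : ∀ᶠ v in 𝓝 t, PhiM Q γ J v =
        PhiFun Q (momP (GC δ) (cc γ a) 1 t) (momP (GC δ) (cc γ a) 2 t) (((cc (E := E3) γ a v) 0))
          (((deriv (cc (E := E3) γ a) v) 0)) (J a v 0) (deriv (J a) v 0) (J a v 1) (J a v 2)
          (momU (GC δ) (cc γ a) (J a) 1 t) (momU (GC δ) (cc γ a) (J a) 2 t) := by
      filter_upwards [hsrc, hsol] with v hv hv2
      rw [PhiM_eq_collar hN hγ hJ hv hka]
      unfold PhiC
      rw [hv2.1, hv2.2.1, hv2.2.2.1, hv2.2.2.2.1]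
    obtain ⟨l1, l2, l3⟩ := local_mono hsol'
    have hΦt := hΦ.self_of_nhds
    refine ⟨?_, ?_, ?_, ?_⟩
    · filter_upwards [l1, hΦ.filter_mono nhdsWithin_le_nhds] with v h1 h2
      rw [hΦt, h2]; exact h1
    · filter_upwards [l2, hΦ.filter_mono nhdsWithin_le_nhds] with v h1 h2
      rw [hΦt, h2]; exact h1
    · intro h0
      rw [hΦt]
      exact PhiFun_zero (by rw [h0]; rfl) (by rw [h0]; rfl) (by rw [h0]; rfl)
    · intro h0 hz
      have hz' : ∀ᶠ v in 𝓝[>] t,
        PhiFun Q (momP (GC δ) (cc γ a) 1 t) (momP (GC δ) (cc γ a) 2 t) (((cc (E := E3) γ a v) 0))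
          (((deriv (cc (E := E3) γ a) v) 0)) (J a v 0) (deriv (J a) v 0) (J a v 1) (J a v 2)
          (momU (GC δ) (cc γ a) (J a) 1 t) (momU (GC δ) (cc γ a) (J a) 2 t) = 0 := by
        filter_upwards [hz, hΦ.filter_mono nhdsWithin_le_nhds] with v h1 h2
        rw [← h2]; exact h1
      obtain ⟨e1, e2, e3⟩ := l3 (by rw [h0]; rfl) (by rw [h0]; rfl) (by rw [h0]; rfl) hz'
      exact hZ _ _ t hgj.self_of_nhds h0 e1 e2 e3
  · -- flat chart
    have hfl := flat_J hγ hJ hat hka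
    have hΦ : ∀ᶠ v in 𝓝 t, PhiM Q γ J v = inner ℝ (J a v) (deriv (J a) v) := by
      filter_upwards [hsrc] with v hv
      exact PhiM_flat hγ hJ hv hka
    have hd : ∀ᶠ v in 𝓝 t, HasDerivAt (fun v => inner ℝ (J a v) (deriv (J a) v))
        (‖deriv (J a) v‖ ^ 2) v := by
      filter_upwards [hfl] with v hv
      have := hv.1.inner ℝ hv.2
      refine this.congr_deriv ?_
      rw [inner_zero_right, real_inner_self_eq_norm_sq, zero_add]
    have hΦt := hΦ.self_of_nhds
    refine ⟨?_, ?_, ?_, ?_⟩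
    · have h1 : ∀ᶠ v in 𝓝[>] t, (inner ℝ (J a t) (deriv (J a) t) : ℝ)
          ≤ inner ℝ (J a v) (deriv (J a) v) := by
        apply mono_right (Ψ := fun v => inner ℝ (J a v) (deriv (J a) v))
          hd.self_of_nhds.continuousAt
        filter_upwards [hd.filter_mono nhdsWithin_le_nhds] with v hv
        exact ⟨_, by positivity, hv⟩
      filter_upwards [h1, hΦ.filter_mono nhdsWithin_le_nhds] with v h1 h2
      rw [hΦt, h2]; exact h1
    · -- time reversal
      have hd' : ∀ᶠ v in 𝓝 (-t), HasDerivAt (fun v => -inner ℝ (J a (-v)) (deriv (J a) (-v)))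
          (‖deriv (J a) (-v)‖ ^ 2) v := by
        filter_upwards [(tendsto_neg_nhds t).eventually hd] with v hv
        have := (hasDerivAt_comp_neg hv).neg
        rw [neg_neg] at this
        exact this
      have h1 := mono_right (Ψ := fun v => -inner ℝ (J a (-v)) (deriv (J a) (-v)))
          hd'.self_of_nhds.continuousAt (by
            filter_upwards [hd'.filter_mono nhdsWithin_le_nhds] with v hv
            exact ⟨_, by positivity, hv⟩)
      have h2 := eventually_nhdsGT_neg h1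
      filter_upwards [h2, hΦ.filter_mono nhdsWithin_le_nhds] with v h1 h2
      rw [hΦt, h2]
      simp only [neg_neg] at h1
      linarith
    · intro h0
      rw [hΦt, h0, inner_zero_left]
    · intro h0 hz
      have h1 : HasDerivWithinAt (fun v => inner ℝ (J a v) (deriv (J a) v))
          (‖deriv (J a) t‖ ^ 2) (Ioi t) t := hd.self_of_nhds.hasDerivWithinAt
      have h2 : HasDerivWithinAt (fun v => (inner ℝ (J a v) (deriv (J a) v) : ℝ)) 0 (Ioi t) t := by
        have h3 : HasDerivWithinAt (fun _ : ℝ => (0 : ℝ)) 0 (Ioi t) t := hasDerivWithinAt_const ..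
        refine h3.congr_of_eventuallyEq ?_ (by simp [h0])
        filter_upwards [hz, hΦ.filter_mono nhdsWithin_le_nhds] with v e1 e2
        rw [← e2, e1]
      have h3 := (uniqueDiffWithinAt_Ioi t).eq_deriv _ h1 h2
      have h4 : ‖deriv (J a) t‖ = 0 := (pow_eq_zero_iff two_ne_zero).1 h3
      exact norm_eq_zero.1 h4

theorem noConj_of_profile {Q : Profile} (hS : CollarSol δ Q) (hN : CollarNorm δ Q)
    (hZ : CollarZero δ) : NoConj (g0 δ hδ) := by
  have key : ∀ (γ : ℝ → (Sd δ hδ).Space) (J : (Sd δ hδ).Space → ℝ → E3),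
      IsGeodesic (g0 δ hδ) γ → IsJacobi (g0 δ hδ) γ J → ∀ t₁ t₂ : ℝ, t₁ < t₂ →
      J (γ t₁) t₁ = 0 → J (γ t₂) t₂ = 0 →
      ∀ a t, γ t ∈ (chartAt E3 a).source → J a t = 0 := by
    intro γ J hγ hJ t₁ t₂ h12 hz1 hz2
    have hloc := PhiM_local hS hN hZ hγ hJ
    have hmono : ∀ x y, x ≤ y → PhiM Q γ J x ≤ PhiM Q γ J y := fun x y hxy =>
      monotone_of_local hxy (fun t _ => (hloc t).1) (fun t _ => (hloc t).2.1)
    have e1 := (hloc t₁).2.2.1 hz1
    have e2 := (hloc t₂).2.2.1 hz2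
    have hzero : ∀ᶠ v in 𝓝[>] t₁, PhiM Q γ J v = 0 := by
      filter_upwards [Ioo_mem_nhdsGT h12] with v hv
      have h3 := hmono t₁ v hv.1.le
      have h4 := hmono v t₂ hv.2.le
      rw [e1] at h3
      rw [e2] at h4
      exact le_antisymm h4 h3
    have hd := (hloc t₁).2.2.2 hz1 hzero
    apply hJ.zero_of_initial hγ (mem_chart_source E3 (γ t₁)) hz1
    unfold covD
    rw [hd, hz1, zero_add, ← chrisB_apply]
    simp
  intro γ J hγ hJ t₁ t₂ hne hz1 hz2
  rcases lt_or_gt_of_ne hne with h | h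
  · exact key γ J hγ hJ t₁ t₂ h hz1 hz2
  · exact key γ J hγ hJ t₂ t₁ h hz2 hz1

end Vale.Agent.P255
end
end
end

section

section

/-!
# P255: products of metrics (coordinate level)
-/

open scoped Manifold ContDiff Topology
open Set Filter

set_option maxSynthPendingDepth 3

noncomputable section

namespace Vale.Agent.P255

variable {E F : Type} [NormedAddCommGroup E] [NormedSpace ℝ E] [NormedAddCommGroup F]
  [NormedSpace ℝ F]

/-- `B ↦ B(fst, fst)` -/
def liftL (E F : Type) [NormedAddCommGroup E] [NormedSpace ℝ E] [NormedAddCommGroup F]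
    [NormedSpace ℝ F] : (E →L[ℝ] E →L[ℝ] ℝ) →L[ℝ] (E × F →L[ℝ] E × F →L[ℝ] ℝ) :=
  (ContinuousLinearMap.compL ℝ (E × F) (E →L[ℝ] ℝ) (E × F →L[ℝ] ℝ)
      ((ContinuousLinearMap.compL ℝ (E × F) E ℝ).flip (ContinuousLinearMap.fst ℝ E F))) ∘L
    ((ContinuousLinearMap.compL ℝ (E × F) E (E →L[ℝ] ℝ)).flip (ContinuousLinearMap.fst ℝ E F))

/-- `B ↦ B(snd, snd)` -/
def liftR (E F : Type) [NormedAddCommGroup E] [NormedSpace ℝ E] [NormedAddCommGroup F]
    [NormedSpace ℝ F] : (F →L[ℝ] F →L[ℝ] ℝ) →L[ℝ] (E × F →L[ℝ] E × F →L[ℝ] ℝ) :=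
  (ContinuousLinearMap.compL ℝ (E × F) (F →L[ℝ] ℝ) (E × F →L[ℝ] ℝ)
      ((ContinuousLinearMap.compL ℝ (E × F) F ℝ).flip (ContinuousLinearMap.snd ℝ E F))) ∘L
    ((ContinuousLinearMap.compL ℝ (E × F) F (F →L[ℝ] ℝ)).flip (ContinuousLinearMap.snd ℝ E F))

/-- product of metric coefficients -/
def prodG (G₁ : E → E →L[ℝ] E →L[ℝ] ℝ) (G₂ : F → F →L[ℝ] F →L[ℝ] ℝ) (u : E × F) :
    E × F →L[ℝ] E × F →L[ℝ] ℝ :=
  liftL E F (G₁ u.1) + liftR E F (G₂ u.2)

theorem prodG_apply (G₁ : E → E →L[ℝ] E →L[ℝ] ℝ) (G₂ : F → F →L[ℝ] F →L[ℝ] ℝ)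
    (u v w : E × F) : prodG G₁ G₂ u v w = G₁ u.1 v.1 w.1 + G₂ u.2 v.2 w.2 := rfl

section

variable {G₁ : E → E →L[ℝ] E →L[ℝ] ℝ} {G₂ : F → F →L[ℝ] F →L[ℝ] ℝ} {U : Set E} {V : Set F}

theorem IsMetricOn.prod (h₁ : IsMetricOn G₁ U) (h₂ : IsMetricOn G₂ V) :
    IsMetricOn (prodG G₁ G₂) (U ×ˢ V) where
  isOpen := h₁.isOpen.prod h₂.isOpen
  smooth := by
    have e1 : ContDiffOn ℝ ∞ (fun u : E × F => G₁ u.1) (U ×ˢ V) :=
      h₁.smooth.comp contDiffOn_fst fun u hu => hu.1
    have e2 : ContDiffOn ℝ ∞ (fun u : E × F => G₂ u.2) (U ×ˢ V) :=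
      h₂.smooth.comp contDiffOn_snd fun u hu => hu.2
    exact ((liftL E F).contDiff.comp_contDiffOn e1).add ((liftR E F).contDiff.comp_contDiffOn e2)
  symm := by
    intro u hu v w
    rw [prodG_apply, prodG_apply, h₁.symm u.1 hu.1, h₂.symm u.2 hu.2]
  pos := by
    intro u hu v hv
    rw [prodG_apply]
    have e1 := h₁.nonneg hu.1 v.1
    have e2 := h₂.nonneg hu.2 v.2
    rcases e1.eq_or_lt with h | h
    · rcases e2.eq_or_lt with h' | h'
      · exfalso
        apply hv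
        exact Prod.ext (h₁.eq_zero hu.1 h.symm) (h₂.eq_zero hu.2 h'.symm)
      · linarith
    · linarith


theorem fderiv_prodG (h₁ : IsMetricOn G₁ U) (h₂ : IsMetricOn G₂ V) {u : E × F}
    (hu : u ∈ U ×ˢ V) (z v w : E × F) :
    fderiv ℝ (prodG G₁ G₂) u z v w
      = fderiv ℝ G₁ u.1 z.1 v.1 w.1 + fderiv ℝ G₂ u.2 z.2 v.2 w.2 := by
  have e1 : HasFDerivAt (fun u : E × F => G₁ u.1)
      ((fderiv ℝ G₁ u.1).comp (ContinuousLinearMap.fst ℝ E F)) u :=
    (h₁.differentiableAt hu.1).hasFDerivAt.comp u hasFDerivAt_fst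
  have e2 : HasFDerivAt (fun u : E × F => G₂ u.2)
      ((fderiv ℝ G₂ u.2).comp (ContinuousLinearMap.snd ℝ E F)) u :=
    (h₂.differentiableAt hu.2).hasFDerivAt.comp u hasFDerivAt_snd
  have e3 : HasFDerivAt (prodG G₁ G₂)
      ((liftL E F).comp ((fderiv ℝ G₁ u.1).comp (ContinuousLinearMap.fst ℝ E F))
        + (liftR E F).comp ((fderiv ℝ G₂ u.2).comp (ContinuousLinearMap.snd ℝ E F))) u :=
    ((liftL E F).hasFDerivAt.comp u e1).add ((liftR E F).hasFDerivAt.comp u e2)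
  rw [e3.fderiv]
  rfl

variable [FiniteDimensional ℝ E] [FiniteDimensional ℝ F]

theorem chris_prodG (h₁ : IsMetricOn G₁ U) (h₂ : IsMetricOn G₂ V) {u : E × F}
    (hu : u ∈ U ×ˢ V) (v w : E × F) :
    chris (prodG G₁ G₂) u v w = (chris G₁ u.1 v.1 w.1, chris G₂ u.2 v.2 w.2) := by
  apply (h₁.prod h₂).ext_of hu
  intro z
  rw [(h₁.prod h₂).chris_spec hu, prodG_apply, h₁.chris_spec hu.1, h₂.chris_spec hu.2,
    fderiv_prodG h₁ h₂ hu, fderiv_prodG h₁ h₂ hu, fderiv_prodG h₁ h₂ hu]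
  ring

theorem fderiv_chris_prodG (h₁ : IsMetricOn G₁ U) (h₂ : IsMetricOn G₂ V) {u : E × F}
    (hu : u ∈ U ×ˢ V) (v w z : E × F) :
    fderiv ℝ (fun p => chris (prodG G₁ G₂) p v w) u z
      = (fderiv ℝ (fun p => chris G₁ p v.1 w.1) u.1 z.1,
          fderiv ℝ (fun p => chris G₂ p v.2 w.2) u.2 z.2) := by
  have e : (fun p => chris (prodG G₁ G₂) p v w) =ᶠ[𝓝 u]
      fun p => (chris G₁ p.1 v.1 w.1, chris G₂ p.2 v.2 w.2) := by
    filter_upwards [(h₁.prod h₂).isOpen.mem_nhds hu] with p hp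
    exact chris_prodG h₁ h₂ hp v w
  have d1 : DifferentiableAt ℝ (fun p => chris G₁ p v.1 w.1) u.1 :=
    (h₁.contDiffAt_chris hu.1 _ _).differentiableAt (by simp)
  have d2 : DifferentiableAt ℝ (fun p => chris G₂ p v.2 w.2) u.2 :=
    (h₂.contDiffAt_chris hu.2 _ _).differentiableAt (by simp)
  have e1 : HasFDerivAt (fun u : E × F => chris G₁ u.1 v.1 w.1)
      ((fderiv ℝ (fun p => chris G₁ p v.1 w.1) u.1).comp (ContinuousLinearMap.fst ℝ E F)) u :=
    d1.hasFDerivAt.comp u hasFDerivAt_fst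
  have e2 : HasFDerivAt (fun u : E × F => chris G₂ u.2 v.2 w.2)
      ((fderiv ℝ (fun p => chris G₂ p v.2 w.2) u.2).comp (ContinuousLinearMap.snd ℝ E F)) u :=
    d2.hasFDerivAt.comp u hasFDerivAt_snd
  rw [e.fderiv_eq, (e1.prodMk e2).fderiv]
  rfl

theorem curv_prodG (h₁ : IsMetricOn G₁ U) (h₂ : IsMetricOn G₂ V) {u : E × F}
    (hu : u ∈ U ×ˢ V) (x y z : E × F) :
    curv (prodG G₁ G₂) u x y z
      = (curv G₁ u.1 x.1 y.1 z.1, curv G₂ u.2 x.2 y.2 z.2) := by
  unfold curv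
  rw [fderiv_chris_prodG h₁ h₂ hu, fderiv_chris_prodG h₁ h₂ hu, chris_prodG h₁ h₂ hu,
    chris_prodG h₁ h₂ hu, chris_prodG h₁ h₂ hu, chris_prodG h₁ h₂ hu]
  rfl

end

end Vale.Agent.P255
end
end
end
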