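import Vale.Agent.P255.MathlibUsed
import Vale.Agent.P255.Bdl.B1
import Vale.Agent.P255.FinalDefs

set_option linter.all false

section

section

/-!
# P255: Riemannian geometry in one coordinate domain (continued)
-/

open scoped Manifold ContDiff Topology
open Set

set_option maxSynthPendingDepth 3

noncomputable section

namespace Vale.Agent.P255

variable {E : Type} [NormedAddCommGroup E] [NormedSpace ℝ E]

theorem Metric.isMetricOn {M : Type} [TopologicalSpace M] [ChartedSpace E M] (g : Metric E M)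
    (a : M) : IsMetricOn (g.coef a) (chartAt E a).target where
  isOpen := (chartAt E a).open_target
  smooth := g.smooth a
  symm := g.symm a
  pos := g.pos a

theorem chris_smul_left (G : E → E →L[ℝ] E →L[ℝ] ℝ) (u : E) (c : ℝ) (v w : E) :
    chris G u (c • v) w = c • chris G u v w := by
  simp only [← chrisB_apply, map_smul, smul_apply]
theorem chris_smul_right (G : E → E →L[ℝ] E →L[ℝ] ℝ) (u : E) (c : ℝ) (v w : E) :
    chris G u v (c • w) = c • chris G u v w := by
  simp only [← chrisB_apply, map_smul]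
/-- the bilinear Christoffel map, name used in the interface -/
abbrev chrisL (G : E → E →L[ℝ] E →L[ℝ] ℝ) (u : E) : E →L[ℝ] E →L[ℝ] E := chrisB G u

/-- the geodesic vector field -/
def geoField (G : E → E →L[ℝ] E →L[ℝ] ℝ) (p : E × E) : E × E :=
  (p.2, - chris G p.1 p.2 p.2)

theorem two_le_infty : (2 : ℕ∞ω) ≤ ∞ := ENat.LEInfty.out

namespace IsMetricOn

variable {G : E → E →L[ℝ] E →L[ℝ] ℝ} {U : Set E}

theorem mem_nhds (h : IsMetricOn G U) {u : E} (hu : u ∈ U) : U ∈ 𝓝 u := h.isOpen.mem_nhds hu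

/-- injectivity of `G u` -/
theorem ext (h : IsMetricOn G U) {u : E} (hu : u ∈ U) {v w : E} (hvw : ∀ z, G u v z = G u w z) :
    v = w := h.ext_of hu hvw

theorem fderiv_apply_apply (h : IsMetricOn G U) {u : E} (hu : u ∈ U) (z v w : E) :
    fderiv ℝ (fun x => G x v w) u z = fderiv ℝ G u z v w := by
  have hd := (h.differentiableAt hu).hasFDerivAt
  have h2 := (hd.clm_apply (hasFDerivAt_const v u)).clm_apply (hasFDerivAt_const w u)
  rw [h2.fderiv]
  simp

theorem hasDerivAt_coef (h : IsMetricOn G U) {c : ℝ → E} {t : ℝ} (ht : c t ∈ U)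
    (hc : DifferentiableAt ℝ c t) :
    HasDerivAt (fun s => G (c s)) (fderiv ℝ G (c t) (deriv c t)) t :=
  (h.differentiableAt ht).hasFDerivAt.comp_hasDerivAt t hc.hasDerivAt

section
variable [FiniteDimensional ℝ E] (h : IsMetricOn G U)
include h

/-- Euler-Lagrange form of the geodesic equation -/
theorem hasDerivAt_momentum {c : ℝ → E} {t : ℝ} (ht : c t ∈ U) (hc : DifferentiableAt ℝ c t)
    (hc' : DifferentiableAt ℝ (deriv c) t)
    (hgeo : deriv (deriv c) t = - chris G (c t) (deriv c t) (deriv c t)) (z : E) :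
    HasDerivAt (fun s => G (c s) (deriv c s) z)
      ((1 / 2 : ℝ) * fderiv ℝ G (c t) z (deriv c t) (deriv c t)) t := by
  have h1 := h.hasDerivAt_coef ht hc
  have h2 := (h1.clm_apply hc'.hasDerivAt).clm_apply (hasDerivAt_const t z)
  refine h2.congr_deriv ?_
  rw [hgeo]
  simp only [map_neg, add_apply, neg_apply, map_zero, h.chris_spec ht, add_zero]
  ring

/-- conversely, the Euler-Lagrange equations imply the geodesic equation -/
theorem geodesic_of_momentum {c : ℝ → E} {t : ℝ} (ht : c t ∈ U) (hc : DifferentiableAt ℝ c t)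
    (hc' : DifferentiableAt ℝ (deriv c) t)
    (hm : ∀ z, HasDerivAt (fun s => G (c s) (deriv c s) z)
      ((1 / 2 : ℝ) * fderiv ℝ G (c t) z (deriv c t) (deriv c t)) t) :
    deriv (deriv c) t = - chris G (c t) (deriv c t) (deriv c t) := by
  apply h.ext ht
  intro z
  have h1 := h.hasDerivAt_coef ht hc
  have h2 := (h1.clm_apply hc'.hasDerivAt).clm_apply (hasDerivAt_const t z)
  have h3 := h2.unique (hm z)
  simp only [add_apply, map_zero, add_zero] at h3
  simp only [map_neg, neg_apply, h.chris_spec ht]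
  linarith

theorem contDiffAt_geoField {p : E × E} (hp : p.1 ∈ U) : ContDiffAt ℝ ∞ (geoField G) p := by
  have h1 : ContDiffAt ℝ ∞ (fun x : E × E => chrisB G x.1) p :=
    ContDiffAt.comp p (h.contDiffAt_chrisB hp) contDiffAt_fst
  have h2 : ContDiffAt ℝ ∞ (fun x : E × E => chrisB G x.1 x.2 x.2) p :=
    (h1.clm_apply contDiffAt_snd).clm_apply contDiffAt_snd
  have h3 : ContDiffAt ℝ ∞ (fun x : E × E => chris G x.1 x.2 x.2) p := by
    simpa only [chrisB_apply] using h2
  exact contDiffAt_snd.prodMk h3.neg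

theorem contDiffOn_geoField : ContDiffOn ℝ ∞ (geoField G) (U ×ˢ univ) :=
  fun _ hp => (h.contDiffAt_geoField hp.1).contDiffWithinAt

theorem fderiv_geoField {u v : E} (hu : u ∈ U) (x y : E) :
    fderiv ℝ (geoField G) (u, v) (x, y) =
      (y, - (fderiv ℝ (fun p => chris G p v v) u x + (2 : ℝ) • chris G u v y)) := by
  have h1 : HasFDerivAt (fun x : E × E => chrisB G x.1) ((fderiv ℝ (chrisB G) u).comp
      (ContinuousLinearMap.fst ℝ E E)) (u, v) :=
    HasFDerivAt.comp (f := Prod.fst) (g := chrisB G) (u, v)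
      (h.differentiableAt_chrisB hu).hasFDerivAt
      (hasFDerivAt_fst (𝕜 := ℝ) (E := E) (F := E) (p := (u, v)))
  have h2 := (h1.clm_apply (hasFDerivAt_snd (𝕜 := ℝ) (E := E) (F := E) (p := (u, v)))).clm_apply
    (hasFDerivAt_snd (𝕜 := ℝ) (E := E) (F := E) (p := (u, v)))
  have h3 := (hasFDerivAt_snd (𝕜 := ℝ) (E := E) (F := E) (p := (u, v))).prodMk h2.neg
  have e : geoField G = fun p : E × E => (p.2, - chrisB G p.1 p.2 p.2) := by
    funext p; simp only [geoField, chrisB_apply]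
  have h4 := h3.congr_of_eventuallyEq (f₁ := geoField G) (Filter.Eventually.of_forall
    (fun p => by rw [e]; rfl))
  rw [h4.fderiv, h.fderiv_chris hu]
  simp only [ContinuousLinearMap.flip_add, add_apply, neg_add_rev, ContinuousLinearMap.prod_apply, ContinuousLinearMap.coe_snd', neg_apply, ContinuousLinearMap.flip_apply, ContinuousLinearMap.comp_apply, ContinuousLinearMap.coe_fst', chrisB_apply, h.chris_symm hu y v, two_smul, Prod.mk.injEq, true_and]
  abel

/-- a solution of the linearised geodesic equation is a Jacobi field -/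
theorem jacobi_of_linearized {c J : ℝ → E} {t : ℝ}
    (ht : c t ∈ U) (hc : ∀ᶠ s in 𝓝 t, DifferentiableAt ℝ c s ∧ DifferentiableAt ℝ (deriv c) s ∧
      deriv (deriv c) s = - chris G (c s) (deriv c s) (deriv c s))
    (_hJ : ∀ᶠ s in 𝓝 t, DifferentiableAt ℝ J s)
    (hJ' : HasDerivAt (deriv J) (- (fderiv ℝ (fun p => chris G p (deriv c t) (deriv c t)) (c t) (J t)
      + (2 : ℝ) • chris G (c t) (deriv c t) (deriv J t))) t) :
    DifferentiableAt ℝ (covD G c J) t ∧
    covD G c (covD G c J) t + curv G (c t) (J t) (deriv c t) (deriv c t) = 0 := by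
  obtain ⟨hc0, hc1, hc2⟩ := hc.self_of_nhds
  have hJ0 := _hJ.self_of_nhds
  have hB : HasDerivAt (fun s => chrisB G (c s)) (fderiv ℝ (chrisB G) (c t) (deriv c t)) t :=
    (h.differentiableAt_chrisB ht).hasFDerivAt.comp_hasDerivAt t hc0.hasDerivAt
  have hA := hJ'.add ((hB.clm_apply hc1.hasDerivAt).clm_apply hJ0.hasDerivAt)
  have e : covD G c J = (deriv J + fun s => chrisB G (c s) (deriv c s) (J s)) := by
    funext s; simp only [covD, Pi.add_apply, chrisB_apply]
  rw [← e] at hA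
  refine ⟨hA.differentiableAt, ?_⟩
  have e2 : covD G c (covD G c J) t = deriv (covD G c J) t
      + chrisB G (c t) (deriv c t) (covD G c J t) := by
    simp only [covD, chrisB_apply]
  rw [e2, hA.deriv, h.curv_eq ht, h.fderiv_chris ht, hc2]
  simp only [covD, map_add, map_neg, neg_apply, add_apply, chrisB_apply]
  have s1 : fderiv ℝ (chrisB G) (c t) (deriv c t) (J t) (deriv c t)
      = fderiv ℝ (chrisB G) (c t) (deriv c t) (deriv c t) (J t) := by
    rw [← h.fderiv_chris ht, ← h.fderiv_chris ht]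
    have : (fun p => chris G p (J t) (deriv c t)) =ᶠ[𝓝 (c t)]
        fun p => chris G p (deriv c t) (J t) := by
      filter_upwards [h.mem_nhds ht] with p hp using h.chris_symm hp _ _
    rw [this.fderiv_eq]
  rw [s1, h.chris_symm ht (J t) (chris G (c t) (deriv c t) (deriv c t)),
    h.chris_symm ht (J t) (deriv c t), two_smul]
  abel


/-- an isometric change of coordinates transforms the Christoffel symbols in the usual way -/
theorem chris_trans {G₂ : E → E →L[ℝ] E →L[ℝ] ℝ} {U₂ : Set E} (h₂ : IsMetricOn G₂ U₂)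
    {τ : E → E} {u : E} (hu : u ∈ U) (hu₂ : τ u ∈ U₂) (hτ : ContDiffAt ℝ ∞ τ u)
    (hiso : ∀ᶠ x in 𝓝 u, ∀ v w, G₂ (τ x) (fderiv ℝ τ x v) (fderiv ℝ τ x w) = G x v w)
    (v w : E) :
    fderiv ℝ τ u (chris G u v w)
      = chris G₂ (τ u) (fderiv ℝ τ u v) (fderiv ℝ τ u w) + fderiv ℝ (fderiv ℝ τ) u v w := by
  have hτ' : DifferentiableAt ℝ (fderiv ℝ τ) u :=
    (hτ.fderiv_right (m := ∞) (by simp)).differentiableAt (by simp)
  have hτ0 : DifferentiableAt ℝ τ u := hτ.differentiableAt (by simp)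
  have hsym : ∀ a b, fderiv ℝ (fderiv ℝ τ) u a b = fderiv ℝ (fderiv ℝ τ) u b a := fun a b =>
    (hτ.isSymmSndFDerivAt (by simpa only [minSmoothness_of_isRCLikeNormedField] using two_le_infty)) a b
  have hiso0 := hiso.self_of_nhds
  -- derivative of the isometry identity
  have key : ∀ z v w, fderiv ℝ G u z v w =
      fderiv ℝ G₂ (τ u) (fderiv ℝ τ u z) (fderiv ℝ τ u v) (fderiv ℝ τ u w)
      + G₂ (τ u) (fderiv ℝ (fderiv ℝ τ) u z v) (fderiv ℝ τ u w)
      + G₂ (τ u) (fderiv ℝ τ u v) (fderiv ℝ (fderiv ℝ τ) u z w) := by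
    intro z v w
    rw [← h.fderiv_apply_apply hu]
    have e1 : (fun x => G x v w) =ᶠ[𝓝 u]
        fun x => G₂ (τ x) (fderiv ℝ τ x v) (fderiv ℝ τ x w) := by
      filter_upwards [hiso] with x hx using (hx v w).symm
    rw [e1.fderiv_eq]
    have d1 : HasFDerivAt (fun x => G₂ (τ x)) ((fderiv ℝ G₂ (τ u)).comp (fderiv ℝ τ u)) u :=
      HasFDerivAt.comp (f := τ) (g := G₂) u (h₂.differentiableAt hu₂).hasFDerivAt hτ0.hasFDerivAt
    have d2 : ∀ a, HasFDerivAt (fun x => fderiv ℝ τ x a) _ u := fun a =>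
      hτ'.hasFDerivAt.clm_apply (hasFDerivAt_const a u)
    rw [((d1.clm_apply (d2 v)).clm_apply (d2 w)).fderiv]
    simp only [ContinuousLinearMap.comp_zero, zero_add, ContinuousLinearMap.flip_add, add_apply, ContinuousLinearMap.comp_apply, ContinuousLinearMap.flip_apply]
    ring
  -- injectivity and surjectivity of the derivative
  have hinj : Function.Injective (fderiv ℝ τ u : E →ₗ[ℝ] E) := by
    rw [injective_iff_map_eq_zero]
    intro a ha
    apply h.eq_zero hu
    rw [← hiso0 a a]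
    have : fderiv ℝ τ u a = 0 := ha
    rw [this]; simp
  have hsurj : Function.Surjective (fderiv ℝ τ u : E →ₗ[ℝ] E) :=
    LinearMap.injective_iff_surjective.mp hinj
  apply h₂.ext hu₂
  intro z'
  obtain ⟨z, hz⟩ := hsurj z'
  have hz' : z' = fderiv ℝ τ u z := hz.symm
  subst hz'
  rw [hiso0, h.chris_spec hu, map_add, add_apply, h₂.chris_spec hu₂, key v w z, key w v z,
    key z v w, hsym w v, hsym z v, hsym z w]
  have s1 := h₂.symm _ hu₂ (fderiv ℝ τ u v) (fderiv ℝ (fderiv ℝ τ) u w z)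
  have s2 := h₂.symm _ hu₂ (fderiv ℝ τ u w) (fderiv ℝ (fderiv ℝ τ) u v z)
  linarith

/-- the geodesic equation is invariant under isometric changes of coordinates -/
theorem geodesic_trans {G₂ : E → E →L[ℝ] E →L[ℝ] ℝ} {U₂ : Set E} (h₂ : IsMetricOn G₂ U₂)
    {τ : E → E} {c : ℝ → E} {t : ℝ} (hu : c t ∈ U) (hu₂ : τ (c t) ∈ U₂)
    (hτ : ContDiffAt ℝ ∞ τ (c t))
    (hiso : ∀ᶠ x in 𝓝 (c t), ∀ v w, G₂ (τ x) (fderiv ℝ τ x v) (fderiv ℝ τ x w) = G x v w)
    (hc : ∀ᶠ s in 𝓝 t, DifferentiableAt ℝ c s) (hc' : DifferentiableAt ℝ (deriv c) t)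
    (hgeo : deriv (deriv c) t = - chris G (c t) (deriv c t) (deriv c t)) :
    DifferentiableAt ℝ (τ ∘ c) t ∧ DifferentiableAt ℝ (deriv (τ ∘ c)) t ∧
    deriv (deriv (τ ∘ c)) t = - chris G₂ (τ (c t)) (deriv (τ ∘ c) t) (deriv (τ ∘ c) t) := by
  have hc0 := hc.self_of_nhds
  have hτ0 : DifferentiableAt ℝ τ (c t) := hτ.differentiableAt (by simp)
  have hτ' : DifferentiableAt ℝ (fderiv ℝ τ) (c t) :=
    (hτ.fderiv_right (m := ∞) (by simp)).differentiableAt (by simp)
  have hev : ∀ᶠ x in 𝓝 (c t), DifferentiableAt ℝ τ x := by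
    have h1 : ContDiffAt ℝ 1 τ (c t) := hτ.of_le (by exact_mod_cast le_top)
    filter_upwards [h1.eventually (by simp)] with x hx
    exact hx.differentiableAt (by simp)
  have hd : ∀ᶠ s in 𝓝 t, deriv (τ ∘ c) s = fderiv ℝ τ (c s) (deriv c s) := by
    filter_upwards [hc0.continuousAt.eventually hev, hc] with s h1 h2
    exact (h1.hasFDerivAt.comp_hasDerivAt s h2.hasDerivAt).deriv
  have h1 : HasDerivAt (fun s => fderiv ℝ τ (c s)) (fderiv ℝ (fderiv ℝ τ) (c t) (deriv c t)) t :=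
    hτ'.hasFDerivAt.comp_hasDerivAt t hc0.hasDerivAt
  have h2 := h1.clm_apply hc'.hasDerivAt
  have h3 : HasDerivAt (deriv (τ ∘ c)) _ t := h2.congr_of_eventuallyEq hd
  refine ⟨hτ0.comp t hc0, h3.differentiableAt, ?_⟩
  rw [h3.deriv, hd.self_of_nhds, hgeo, map_neg, h.chris_trans h₂ hu hu₂ hτ hiso]
  abel

end
end IsMetricOn

end Vale.Agent.P255
end
end
end

section

section

/-!
# P255: the circle `t = 3/2, x = 0` of the collar is a closed geodesic of `g0`
-/

open scoped Manifold ContDiff Topology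
open Set

set_option maxSynthPendingDepth 3

noncomputable section

namespace Vale.Agent.P255

variable {δ : ℝ}

/-- points of the circle -/
def circPt (s : ℝ) : E3 := !₂[3 / 2, 0, 2 * Real.pi * s]

theorem circPt_mem (δ s : ℝ) : circPt s ∈ Om δ .C := by
  show -3 < circPt s 0 ∧ circPt s 0 < 4
  have h : circPt s 0 = 3 / 2 := by simp [circPt]
  rw [h]; constructor <;> norm_num

/-- the closed geodesic -/
def circ (δ : ℝ) (hδ : 0 < δ) (s : ℝ) : (Sd δ hδ).Space :=
  (Sd δ hδ).proj .C ⟨circPt s, circPt_mem δ s⟩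

theorem continuous_circ (hδ : 0 < δ) : Continuous (circ δ hδ) := by
  refine ((Sd δ hδ).continuous_proj .C).comp (Continuous.subtype_mk ?_ _)
  unfold circPt
  fun_prop

/-- near every time, the circle read in a chart is an affine curve -/
theorem circ_chart (hδ : 0 < δ) (a : (Sd δ hδ).Space) (t : ℝ)
    (ht : circ δ hδ t ∈ (chartAt E3 a).source) :
    (Sd δ hδ).kind a = .C ∧ (chartAt E3 a (circ δ hδ t)) 0 = 3 / 2 ∧
    ∀ᶠ s in 𝓝 t, cc (E := E3) (circ δ hδ) a s =
      chartAt E3 a (circ δ hδ t) + (s - t) • (!₂[0, 0, 2 * Real.pi] : E3) := by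
  set u := chartAt E3 a (circ δ hδ t) with hu
  have hut : u ∈ (chartAt E3 a).target := (chartAt E3 a).map_source ht
  have h1 : (chartAt E3 a).symm u = circ δ hδ t := (chartAt E3 a).left_inv ht
  have h2 := (Sd δ hδ).chart_symm_apply a u hut
  have hrel : rel δ (.C, circPt t) ((Sd δ hδ).kind a, u) := by
    rw [h1] at h2
    exact ((Sd δ hδ).proj_eq_proj _ _).1 h2
  have huO : u ∈ Om δ ((Sd δ hδ).kind a) := (Sd δ hδ).chart_target_subset a hut
  have hk : (Sd δ hδ).kind a = .C := by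
    rcases hka : (Sd δ hδ).kind a with _ | _ | _
    · exfalso
      rw [hka] at hrel huO
      obtain ⟨⟨k, hk⟩, ⟨l, hl⟩, -⟩ := hrel
      have h3 := huO k l
      have h4 : phi (circPt t 0) = 1 := phi_of_ge (by simp only [circPt, Fin.isValue, Matrix.cons_val_zero]; norm_num)
      rw [h4] at hk hl
      have h5 : u 0 - sL * k = 1 * Real.cos (circPt t 2) := by linarith only [hk]
      have h6 : u 1 - sL * l = 1 * Real.sin (circPt t 2) := by linarith only [hl]
      rw [h5, h6] at h3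
      have := Real.sin_sq_add_cos_sq (circPt t 2)
      linarith
    · rfl
    · exfalso
      rw [hka] at hrel huO
      obtain ⟨⟨k, hk⟩, ⟨l, hl⟩, -⟩ := hrel
      have h3 := huO k l
      have h5 : u 0 - sR δ * k = chi δ (circPt t 0) / δ * Real.cos (δ * circPt t 1) := by linarith only [hk]
      have h6 : u 1 - sR δ * l = chi δ (circPt t 0) / δ * Real.sin (δ * circPt t 1) := by linarith only [hl]
      rw [h5, h6] at h3
      have h7 := Real.sin_sq_add_cos_sq (δ * circPt t 1)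
      have h8 : chi δ (circPt t 0) / δ ≤ 1 / δ + 1 := by
        have h9 : P (circPt t 0) ≤ 1 := by
          rw [← P_two]
          exact monotone_P (by simp only [circPt, Fin.isValue, Matrix.cons_val_zero]; norm_num)
        unfold chi
        rw [div_add_one hδ.ne']
        gcongr
        linarith only [mul_nonneg (le_of_lt (sub_pos.2 hδ)) (sub_nonneg.2 h9)]
      have h10 : 0 ≤ chi δ (circPt t 0) / δ := div_nonneg (chi_pos hδ _).le hδ.le
      have h11 : (chi δ (circPt t 0) / δ) ^ 2 ≤ (1 / δ + 1) ^ 2 := by (clear * - h10 h8; gcongr)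
      have h12 : (chi δ (circPt t 0) / δ * Real.cos (δ * circPt t 1)) ^ 2
          + (chi δ (circPt t 0) / δ * Real.sin (δ * circPt t 1)) ^ 2
          = (chi δ (circPt t 0) / δ) ^ 2 := by
        rw [mul_pow, mul_pow, ← mul_add, add_comm (Real.cos _ ^ 2), h7, mul_one]
      rw [h12] at h3
      linarith only [h11, h3]
  rw [hk] at hrel huO
  obtain ⟨h3, h4, h5⟩ := hrel
  simp only at h3 h4 h5
  have hu0 : u 0 = 3 / 2 := by rw [h3]; simp [circPt]
  refine ⟨hk, hu0, ?_⟩
  have hw : Continuous fun s : ℝ => u + (s - t) • (!₂[0, 0, 2 * Real.pi] : E3) := by fun_prop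
  have hw1 : ∀ᶠ s in 𝓝 t, u + (s - t) • (!₂[0, 0, 2 * Real.pi] : E3) ∈ (chartAt E3 a).target := by
    refine hw.continuousAt.eventually_mem ?_
    simpa only [sub_self, zero_smul, add_zero] using (chartAt E3 a).open_target.mem_nhds hut
  filter_upwards [hw1] with s hs
  have h6 := (Sd δ hδ).chart_symm_apply a _ hs
  have h7 : (chartAt E3 a).symm (u + (s - t) • (!₂[0, 0, 2 * Real.pi] : E3)) = circ δ hδ s := by
    rw [h6]
    refine (((Sd δ hδ).proj_eq_proj _ _).2 ?_).symm
    show rel δ (.C, circPt s) ((Sd δ hδ).kind a, u + (s - t) • (!₂[0, 0, 2 * Real.pi] : E3))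
    rw [hk]
    refine ⟨?_, ?_, ?_⟩
    · simp [hu0, circPt]
    · simpa [circPt] using h4
    · obtain ⟨n, hn⟩ := h5
      refine ⟨n, ?_⟩
      simp only [Fin.isValue, circPt, Matrix.cons_val, PiLp.add_apply, PiLp.smul_apply, smul_eq_mul] at hn ⊢
      linarith only [hn]
  unfold cc
  rw [← h7, (chartAt E3 a).right_inv hs]

theorem isGeodesic_circ (hδ : 0 < δ) : IsGeodesic (g0 δ hδ) (circ δ hδ) where
  cont := (continuous_circ hδ).continuousOn
  eqn := by
    intro a t _ ht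
    obtain ⟨hk, hu0, hev⟩ := circ_chart hδ a t ht
    set u := chartAt E3 a (circ δ hδ t) with hu
    set e : E3 := !₂[0, 0, 2 * Real.pi] with he
    have hev' : cc (E := E3) (circ δ hδ) a =ᶠ[𝓝 t] fun s => u + (s - t) • e := hev
    have hd : ∀ s, HasDerivAt (fun s : ℝ => u + (s - t) • e) e s := by
      intro s
      have := (((hasDerivAt_id s).sub_const t).smul_const e).const_add u
      simpa only [hasDerivAt_const_add_iff, id_eq, one_smul] using this
    have hdd : deriv (cc (E := E3) (circ δ hδ) a) =ᶠ[𝓝 t] fun _ => e := by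
      filter_upwards [hev'.eventually_nhds] with s hs
      have : (cc (E := E3) (circ δ hδ) a) =ᶠ[𝓝 s] fun s => u + (s - t) • e := hs
      rw [this.deriv_eq]
      exact (hd s).deriv
    have h1 : DifferentiableAt ℝ (cc (E := E3) (circ δ hδ) a) t :=
      (hev'.differentiableAt_iff).2 (hd t).differentiableAt
    have h2 : DifferentiableAt ℝ (deriv (cc (E := E3) (circ δ hδ) a)) t :=
      (hdd.differentiableAt_iff).2 (differentiableAt_const _)
    refine ⟨h1, h2, ?_⟩
    have hmem : cc (circ δ hδ) a t ∈ (chartAt E3 a).target := (chartAt E3 a).map_source ht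
    have hcoef : (g0 δ hδ).coef a = GC δ := by
      show Gk δ ((Sd δ hδ).kind a) = _
      rw [hk]; rfl
    refine ((g0 δ hδ).isMetricOn a).geodesic_of_momentum hmem h1 h2 ?_
    intro z
    have hd0 : deriv (cc (E := E3) (circ δ hδ) a) t = e := hdd.self_of_nhds
    rw [hd0, hcoef]
    have hz : fderiv ℝ (GC δ) (cc (circ δ hδ) a t) z e e = 0 := by
      have hm := (g0 δ hδ).isMetricOn a
      rw [hcoef] at hm
      rw [← hm.fderiv_apply_apply hmem]
      have hc : (fun x : E3 => GC δ x e e) =ᶠ[𝓝 (cc (circ δ hδ) a t)]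
          fun _ => (2 * Real.pi) ^ 2 := by
        have hcont : Continuous fun x : E3 => x 0 := by fun_prop
        have : ∀ᶠ x in 𝓝 (cc (E := E3) (circ δ hδ) a t), 1 < x 0 := by
          refine hcont.continuousAt.eventually (lt_mem_nhds ?_)
          show 1 < u 0
          rw [hu0]; norm_num
        filter_upwards [this] with x hx
        rw [GC_apply, phi_of_ge hx.le]
        simp [he]
        ring
      rw [hc.fderiv_eq]
      simp only [fderiv_fun_const, Pi.zero_apply, zero_apply]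
    rw [hz, mul_zero]
    have hconst : (fun s => GC δ (cc (circ δ hδ) a s) (deriv (cc (circ δ hδ) a) s) z)
        =ᶠ[𝓝 t] fun _ => GC δ u e z := by
      filter_upwards [hev', hdd] with s hs1 hs2
      rw [hs1, hs2]
      rw [GC_congr (u := u + (s - t) • e) (v := u) (by simp [he])]
    exact (hasDerivAt_const t _).congr_of_eventuallyEq hconst

end Vale.Agent.P255
end
end
end

section

section

/-!
# Smooth dependence of local flows on initial conditions (finite dimension)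
-/

open Set Filter Topology Metric
open scoped ContDiff unitInterval

noncomputable section

set_option linter.unusedSectionVars false
set_option linter.unusedVariables false

namespace Vale.Agent.P255

namespace Ode

section Superposition

variable {K : Type} [TopologicalSpace K] [CompactSpace K]
variable {F : Type} [NormedAddCommGroup F] [NormedSpace ℝ F]

/-- pointwise application of a continuous family of continuous linear maps -/
def appL (K : Type) [TopologicalSpace K] [CompactSpace K]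
    (F G : Type) [NormedAddCommGroup F] [NormedSpace ℝ F]
    [NormedAddCommGroup G] [NormedSpace ℝ G] :
    C(K, F →L[ℝ] G) →L[ℝ] C(K, F) →L[ℝ] C(K, G) :=
  LinearMap.mkContinuous₂
    (LinearMap.mk₂ ℝ (fun (A : C(K, F →L[ℝ] G)) (h : C(K, F)) =>
        (⟨fun s => A s (h s), by continuity⟩ : C(K, G)))
      (by intro A B h; ext s; simp) (by intro c A h; ext s; simp)
      (by intro A h k; ext s; simp) (by intro c A h; ext s; simp)) 1
    (by
      intro A h
      rw [one_mul]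
      refine (ContinuousMap.norm_le _ (by positivity)).2 fun s => ?_
      have h1 : ‖A s‖ ≤ ‖A‖ := A.norm_coe_le_norm s
      have h2 : ‖h s‖ ≤ ‖h‖ := h.norm_coe_le_norm s
      exact ((A s).le_opNorm (h s)).trans (by gcongr))

/-- superposition operator -/
def sup {G : Type} [NormedAddCommGroup G] [NormedSpace ℝ G] (f : C(F, G)) (α : C(K, F)) :
    C(K, G) := f.comp α

lemma continuous_sup {G : Type} [NormedAddCommGroup G] [NormedSpace ℝ G] (f : C(F, G)) :
    Continuous (sup f : C(K, F) → C(K, G)) :=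
  ContinuousMap.continuous_postcomp f

/-- the derivative of `f` as a continuous map -/
def dmap {G : Type} [NormedAddCommGroup G] [NormedSpace ℝ G] (f : F → G) (hf : ContDiff ℝ 1 f) :
    C(F, F →L[ℝ] G) := ⟨fderiv ℝ f, hf.continuous_fderiv (by norm_num)⟩

lemma hasFDerivAt_sup {G : Type} [NormedAddCommGroup G] [NormedSpace ℝ G] (f : F → G)
    (hf : ContDiff ℝ 1 f) (α : C(K, F)) :
    HasFDerivAt (fun β : C(K, F) => sup ⟨f, hf.continuous⟩ β)
      (appL K F G (sup (dmap f hf) α)) α := by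
  rw [hasFDerivAt_iff_isLittleO_nhds_zero, Asymptotics.isLittleO_iff]
  intro ε hε
  have hcont : Continuous (fderiv ℝ f) := hf.continuous_fderiv (by norm_num)
  have hdiff : Differentiable ℝ f := hf.differentiable (by norm_num)
  set S : Set (K × F) := {p | ‖fderiv ℝ f (α p.1 + p.2) - fderiv ℝ f (α p.1)‖ < ε} with hS
  have hSo : IsOpen S := by
    refine isOpen_lt ?_ continuous_const
    (clear * - hf; fun_prop)
  have hsub : (univ : Set K) ×ˢ ({0} : Set F) ⊆ S := by
    rintro ⟨s, h⟩ ⟨-, hh⟩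
    simp only [mem_singleton_iff] at hh
    simp only [hS, hh, mem_ofPred_eq, add_zero, sub_self, norm_zero, hε]
  obtain ⟨u, v, hu, hv, hu', hv', huv⟩ :=
    generalized_tube_lemma isCompact_univ isCompact_singleton hSo hsub
  obtain ⟨δ, hδ, hball⟩ := Metric.isOpen_iff.1 hv 0 (hv' rfl)
  filter_upwards [Metric.ball_mem_nhds (0 : C(K, F)) hδ] with h hh
  rw [mem_ball_zero_iff] at hh
  refine (ContinuousMap.norm_le _ (by (clear f hf α hcont hdiff S hS hSo hsub u v hu hv hu' hv' huv δ hδ hball hh; positivity))).2 fun s => ?_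
  have hhs : ‖h s‖ < δ := (h.norm_coe_le_norm s).trans_lt hh
  have key : ∀ y ∈ ball (α s) δ, ‖fderiv ℝ f y - fderiv ℝ f (α s)‖ ≤ ε := by
    intro y hy
    have hmem : ((s, y - α s) : K × F) ∈ S := by
      refine huv ⟨hu' (mem_univ s), hball ?_⟩
      rw [mem_ball_zero_iff]
      rwa [mem_ball_iff_norm] at hy
    have := hmem
    simp only [hS, mem_ofPred_eq, add_sub_cancel] at this
    exact this.le
  have h1 := (convex_ball (α s) δ).norm_image_sub_le_of_norm_hasFDerivWithin_le'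
    (f := f) (f' := fderiv ℝ f) (φ := fderiv ℝ f (α s)) (C := ε)
    (fun y _ => (hdiff y).hasFDerivAt.hasFDerivWithinAt) key
    (mem_ball_self hδ) (show α s + h s ∈ ball (α s) δ by simpa only [mem_ball, dist_self_add_left] using hhs)
  rw [add_sub_cancel_left] at h1
  have h2 : ‖h s‖ ≤ ‖h‖ := h.norm_coe_le_norm s
  calc ‖(sup ⟨f, hf.continuous⟩ (α + h) - sup ⟨f, hf.continuous⟩ α
        - (appL K F G (sup (dmap f hf) α)) h) s‖
      = ‖f (α s + h s) - f (α s) - fderiv ℝ f (α s) (h s)‖ := rfl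
    _ ≤ ε * ‖h s‖ := h1
    _ ≤ ε * ‖h‖ := by (clear f hf α hcont hdiff S hS hSo hsub u v hu hv hu' hv' huv δ hδ hball hh hhs key h1; gcongr)

lemma contDiff_sup_nat (n : ℕ) : ∀ (G : Type) [NormedAddCommGroup G] [NormedSpace ℝ G]
    (f : F → G) (hc : Continuous f) (hf : ContDiff ℝ n f), ContDiff ℝ n
      (fun β : C(K, F) => sup ⟨f, hc⟩ β) := by
  induction n with
  | zero =>
    intro G _ _ f hc hf
    exact contDiff_zero.2 (continuous_sup _)
  | succ n ih =>
    intro G _ _ f hc hf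
    have hf1 : ContDiff ℝ 1 f := hf.of_le (by exact_mod_cast Nat.succ_le_succ (Nat.zero_le n))
    have hd := hasFDerivAt_sup (K := K) f hf1
    rw [show ((n + 1 : ℕ) : WithTop ℕ∞) = (n : WithTop ℕ∞) + 1 by norm_cast] at hf ⊢
    rw [contDiff_succ_iff_fderiv] at hf ⊢
    refine ⟨fun α => (hd α).differentiableAt, by simp, ?_⟩
    have hEq : fderiv ℝ (fun β : C(K, F) => sup ⟨f, hf1.continuous⟩ β)
        = fun α => appL K F G (sup (dmap f hf1) α) := by
      funext α
      exact (hd α).fderiv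
    have h2 : ContDiff ℝ n (fun α : C(K, F) => sup (dmap f hf1) α) :=
      ih _ (fderiv ℝ f) (hf1.continuous_fderiv (by norm_num)) hf.2.2
    have h3 : ContDiff ℝ n (fun α : C(K, F) => appL K F G (sup (dmap f hf1) α)) :=
      h2.continuousLinearMap_comp (appL K F G)
    rw [← hEq] at h3
    exact h3

lemma contDiff_sup {G : Type} [NormedAddCommGroup G] [NormedSpace ℝ G]
    (f : F → G) (hf : ContDiff ℝ ∞ f) : ContDiff ℝ ∞
      (fun β : C(K, F) => sup ⟨f, hf.continuous⟩ β) := by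
  rw [contDiff_infty]
  intro n
  exact contDiff_sup_nat n G f hf.continuous (hf.of_le (by exact_mod_cast le_top))

end Superposition

section Integral

variable {F : Type} [NormedAddCommGroup F] [NormedSpace ℝ F]

/-- the interval `[-1,1]` -/
abbrev KI : Type := Icc (-1 : ℝ) 1

/-- the extension of a curve to the real line -/
def ext (α : C(KI, F)) (u : ℝ) : F := α (projIcc (-1) 1 (by norm_num) u)

lemma continuous_ext (α : C(KI, F)) : Continuous (ext α) :=
  α.continuous.comp continuous_projIcc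

lemma ext_of_mem (α : C(KI, F)) {u : ℝ} (hu : u ∈ Icc (-1 : ℝ) 1) : ext α u = α ⟨u, hu⟩ := by
  unfold ext
  rw [projIcc_of_mem _ hu]

lemma norm_ext_le (α : C(KI, F)) (u : ℝ) : ‖ext α u‖ ≤ ‖α‖ := α.norm_coe_le_norm _

/-- integration of curves from `0` -/
def J (F : Type) [NormedAddCommGroup F] [NormedSpace ℝ F] : C(KI, F) →L[ℝ] C(KI, F) :=
  LinearMap.mkContinuous
    { toFun := fun α => ⟨fun s => ∫ u in (0 : ℝ)..s, ext α u, by
        have h : Continuous (fun s : ℝ => ∫ u in (0 : ℝ)..s, ext α u) :=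
          intervalIntegral.continuous_primitive
            (fun a b => (continuous_ext α).intervalIntegrable a b) 0
        exact h.comp continuous_subtype_val⟩
      map_add' := by
        intro α β
        ext s
        simp only [ContinuousMap.coe_mk, ContinuousMap.add_apply]
        rw [← intervalIntegral.integral_add ((continuous_ext α).intervalIntegrable _ _)
          ((continuous_ext β).intervalIntegrable _ _)]
        rfl
      map_smul' := by
        intro c α
        ext s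
        simp only [ContinuousMap.coe_mk, ContinuousMap.smul_apply, RingHom.id_apply]
        rw [← intervalIntegral.integral_smul]
        rfl } 1
    (by
      intro α
      rw [one_mul]
      refine (ContinuousMap.norm_le _ (by positivity)).2 fun s => ?_
      have h := intervalIntegral.norm_integral_le_of_norm_le_const (a := (0 : ℝ)) (b := (s : ℝ))
        (f := ext α) (C := ‖α‖) (fun u _ => norm_ext_le α u)
      have hs : |(s : ℝ) - 0| ≤ 1 := by
        rw [sub_zero, abs_le]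
        exact s.2
      calc ‖∫ u in (0 : ℝ)..s, ext α u‖ ≤ ‖α‖ * |(s : ℝ) - 0| := h
        _ ≤ ‖α‖ * 1 := by gcongr
        _ = ‖α‖ := mul_one _)

lemma J_apply (α : C(KI, F)) (s : KI) : J F α s = ∫ u in (0 : ℝ)..s, ext α u := rfl

/-- constant curves -/
def cst (F : Type) [NormedAddCommGroup F] [NormedSpace ℝ F] : F →L[ℝ] C(KI, F) :=
  LinearMap.mkContinuous
    { toFun := fun x => ContinuousMap.const _ x
      map_add' := by intro x y; ext s; simp
      map_smul' := by intro c x; ext s; simp } 1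
    (by
      intro x
      rw [one_mul]
      exact (ContinuousMap.norm_le _ (by positivity)).2 fun s => le_rfl)

@[simp] lemma cst_apply (x : F) (s : KI) : cst F x s = x := rfl

end Integral

section Core

variable {F : Type} [NormedAddCommGroup F] [NormedSpace ℝ F]

/-- the map whose zeros are the solutions of `α' = τ g(α)`, `α 0 = x` -/
def Hm (g : F → F) (hc : Continuous g) (q : (ℝ × F) × C(KI, F)) : C(KI, F) :=
  q.2 - cst F q.1.2 - q.1.1 • J F (sup ⟨g, hc⟩ q.2)

def Psi (g : F → F) (hc : Continuous g) (q : (ℝ × F) × C(KI, F)) : (ℝ × F) × C(KI, F) :=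
  (q.1, Hm g hc q)

lemma contDiff_Hm (g : F → F) (hg : ContDiff ℝ ∞ g) :
    ContDiff ℝ ∞ (Hm g hg.continuous) := by
  unfold Hm
  have h1 : ContDiff ℝ ∞ (fun q : (ℝ × F) × C(KI, F) => sup ⟨g, hg.continuous⟩ q.2) :=
    (contDiff_sup g hg).comp contDiff_snd
  have h2 := h1.continuousLinearMap_comp (J F)
  have h3 : ContDiff ℝ ∞ (fun q : (ℝ × F) × C(KI, F) => cst F q.1.2) :=
    (contDiff_snd.comp contDiff_fst).continuousLinearMap_comp (cst F)
  exact (contDiff_snd.sub h3).sub ((contDiff_fst.comp contDiff_fst).smul h2)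

lemma contDiff_Psi (g : F → F) (hg : ContDiff ℝ ∞ g) :
    ContDiff ℝ ∞ (Psi g hg.continuous) :=
  contDiff_fst.prodMk (contDiff_Hm g hg)

/-- shear equivalence -/
def shear {X Y : Type} [NormedAddCommGroup X] [NormedSpace ℝ X] [NormedAddCommGroup Y]
    [NormedSpace ℝ Y] (B : X →L[ℝ] Y) : (X × Y) ≃L[ℝ] (X × Y) :=
  ContinuousLinearEquiv.equivOfInverse
    ((ContinuousLinearMap.fst ℝ X Y).prod
      (ContinuousLinearMap.snd ℝ X Y - B.comp (ContinuousLinearMap.fst ℝ X Y)))
    ((ContinuousLinearMap.fst ℝ X Y).prod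
      (ContinuousLinearMap.snd ℝ X Y + B.comp (ContinuousLinearMap.fst ℝ X Y)))
    (by rintro ⟨x, y⟩; simp) (by rintro ⟨x, y⟩; simp)

lemma hasFDerivAt_Psi (g : F → F) (hg : ContDiff ℝ ∞ g) (x₀ : F) :
    ∃ B : (ℝ × F) →L[ℝ] C(KI, F), HasFDerivAt (Psi g hg.continuous)
      ((shear B : ((ℝ × F) × C(KI, F)) ≃L[ℝ] ((ℝ × F) × C(KI, F))) :
        ((ℝ × F) × C(KI, F)) →L[ℝ] ((ℝ × F) × C(KI, F))) ((0, x₀), cst F x₀) := by
  set Nm : (ℝ × F) × C(KI, F) → C(KI, F) := fun q => J F (sup ⟨g, hg.continuous⟩ q.2) with hNm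
  have hN : ContDiff ℝ ∞ Nm := by
    have h1 : ContDiff ℝ ∞ (fun q : (ℝ × F) × C(KI, F) => sup ⟨g, hg.continuous⟩ q.2) :=
      (contDiff_sup g hg).comp contDiff_snd
    exact h1.continuousLinearMap_comp (J F)
  have hN' : HasFDerivAt Nm (fderiv ℝ Nm ((0, x₀), cst F x₀)) ((0, x₀), cst F x₀) :=
    ((hN.differentiable (by simp)) _).hasFDerivAt
  set q₀ : (ℝ × F) × C(KI, F) := ((0, x₀), cst F x₀) with hq₀
  refine ⟨(cst F).comp (ContinuousLinearMap.snd ℝ ℝ F) +
    (ContinuousLinearMap.fst ℝ ℝ F).smulRight (Nm q₀), ?_⟩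
  have e1 : HasFDerivAt (fun q : (ℝ × F) × C(KI, F) => q.1)
      (ContinuousLinearMap.fst ℝ (ℝ × F) C(KI, F)) q₀ := hasFDerivAt_fst
  have e2 : HasFDerivAt (fun q : (ℝ × F) × C(KI, F) => q.2)
      (ContinuousLinearMap.snd ℝ (ℝ × F) C(KI, F)) q₀ := hasFDerivAt_snd
  have e3 : HasFDerivAt (fun q : (ℝ × F) × C(KI, F) => q.1.1)
      ((ContinuousLinearMap.fst ℝ ℝ F).comp (ContinuousLinearMap.fst ℝ (ℝ × F) C(KI, F))) q₀ :=
    ((ContinuousLinearMap.fst ℝ ℝ F).comp
      (ContinuousLinearMap.fst ℝ (ℝ × F) C(KI, F))).hasFDerivAt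
  have e4 : HasFDerivAt (fun q : (ℝ × F) × C(KI, F) => cst F q.1.2)
      ((cst F).comp ((ContinuousLinearMap.snd ℝ ℝ F).comp
        (ContinuousLinearMap.fst ℝ (ℝ × F) C(KI, F)))) q₀ :=
    ((cst F).comp ((ContinuousLinearMap.snd ℝ ℝ F).comp
        (ContinuousLinearMap.fst ℝ (ℝ × F) C(KI, F)))).hasFDerivAt
  have e5 := e3.smul hN'
  have e6 := e1.prodMk ((e2.sub e4).sub e5)
  refine HasFDerivAt.congr_fderiv e6 ?_
  refine ContinuousLinearMap.ext fun v => ?_
  rcases v with ⟨⟨a, y⟩, α⟩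
  simp [shear, hq₀, sub_sub]

variable [CompleteSpace F]

/-- Local solution operator obtained from the implicit function theorem. -/
lemma exists_sol (g : F → F) (hg : ContDiff ℝ ∞ g) (x₀ : F) (r : ℝ) (hr : 0 < r) :
    ∃ ε > 0, ∃ A : ℝ × F → C(KI, F),
      ContDiffOn ℝ ∞ A (ball ((0 : ℝ), x₀) ε) ∧
      (∀ p ∈ ball ((0 : ℝ), x₀) ε, Hm g hg.continuous (p, A p) = 0 ∧ ‖A p - cst F x₀‖ < r) ∧
      (∀ p ∈ ball ((0 : ℝ), x₀) ε, ∀ q ∈ ball ((0 : ℝ), x₀) ε, ∀ β : C(KI, F),
        ‖β - cst F x₀‖ ≤ ‖A q - cst F x₀‖ → Hm g hg.continuous (p, β) = 0 → β = A p) := by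
  obtain ⟨B, hB⟩ := hasFDerivAt_Psi g hg x₀
  set Ψ := Psi g hg.continuous with hΨ
  set q₀ : (ℝ × F) × C(KI, F) := ((0, x₀), cst F x₀) with hq₀
  have hsm : ContDiff ℝ ∞ Ψ := contDiff_Psi g hg
  have hstrict : HasStrictFDerivAt Ψ
      ((shear B : ((ℝ × F) × C(KI, F)) ≃L[ℝ] ((ℝ × F) × C(KI, F))) :
        ((ℝ × F) × C(KI, F)) →L[ℝ] ((ℝ × F) × C(KI, F))) q₀ :=
    (hsm.contDiffAt).hasStrictFDerivAt' hB (by simp)
  set e0 := hstrict.toOpenPartialHomeomorph Ψ with he0
  have hq₀s : q₀ ∈ e0.source := hstrict.mem_toOpenPartialHomeomorph_source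
  -- open set on which the derivative is invertible
  have hinv : ∀ᶠ q in 𝓝 q₀, fderiv ℝ Ψ q ∈
      range ((↑) : (((ℝ × F) × C(KI, F)) ≃L[ℝ] ((ℝ × F) × C(KI, F))) →
        (((ℝ × F) × C(KI, F)) →L[ℝ] ((ℝ × F) × C(KI, F)))) := by
    have hc : Continuous (fderiv ℝ Ψ) := hsm.continuous_fderiv (by simp)
    have hn := (shear B).nhds
    rw [← hB.fderiv] at hn
    exact hc.continuousAt hn
  obtain ⟨O, hOsub, hO, hq₀O⟩ := _root_.mem_nhds_iff.1 hinv
  set e := e0.restrOpen O hO with he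
  have heΨ : ∀ q, e q = Ψ q := fun q => rfl
  have hq₀e : q₀ ∈ e.source := by
    rw [he, OpenPartialHomeomorph.restrOpen_source]
    exact ⟨hq₀s, hq₀O⟩
  have hΨq₀ : Ψ q₀ = ((0, x₀), 0) := by
    simp [hΨ, Psi, Hm, hq₀]
  have hsymm : ∀ y ∈ e.target, ContDiffAt ℝ ∞ e.symm y := by
    intro y hy
    have hys : e.symm y ∈ e.source := e.map_target hy
    have hyO : e.symm y ∈ O := by
      rw [he, OpenPartialHomeomorph.restrOpen_source] at hys
      exact hys.2
    obtain ⟨L, hL⟩ := hOsub hyO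
    refine e.contDiffAt_symm hy (f₀' := L) ?_ (hsm.contDiffAt)
    rw [hL]
    exact ((hsm.differentiable (by simp)) _).hasFDerivAt
  have htarget : ((0, x₀), (0 : C(KI, F))) ∈ e.target := by
    rw [← hΨq₀]
    exact e.map_source hq₀e
  -- the solution operator
  set A : ℝ × F → C(KI, F) := fun p => (e.symm (p, 0)).2 with hA
  have hAcd : ∀ p : ℝ × F, (p, (0 : C(KI, F))) ∈ e.target → ContDiffAt ℝ ∞ A p := by
    intro p hp
    have h1 : ContDiffAt ℝ ∞ (fun p : ℝ × F => ((p, 0) : (ℝ × F) × C(KI, F))) p :=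
      (contDiff_id.prodMk contDiff_const).contDiffAt
    exact contDiffAt_snd.comp p ((hsymm _ hp).comp p h1)
  have hsolve : ∀ p : ℝ × F, (p, (0 : C(KI, F))) ∈ e.target →
      e.symm (p, 0) = (p, A p) ∧ Hm g hg.continuous (p, A p) = 0 := by
    intro p hp
    have h1 : Ψ (e.symm (p, 0)) = (p, 0) := e.right_inv hp
    have h2 : (e.symm (p, 0)).1 = p := congrArg Prod.fst h1
    have h3 : e.symm (p, 0) = (p, A p) := Prod.ext h2 rfl
    refine ⟨h3, ?_⟩
    rw [h3] at h1
    exact congrArg Prod.snd h1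
  have hA0 : A (0, x₀) = cst F x₀ := by
    have h1 : e.symm (Ψ q₀) = q₀ := e.left_inv hq₀e
    rw [hΨq₀] at h1
    simp only [hA, h1, hq₀]
  obtain ⟨ρ, hρ, hρsub⟩ := Metric.isOpen_iff.1 e.open_source q₀ hq₀e
  have hcontA : ContinuousAt A (0, x₀) := (hAcd _ htarget).continuousAt
  have hev1 : ∀ᶠ p in 𝓝 ((0 : ℝ), x₀), (p, (0 : C(KI, F))) ∈ e.target := by
    have hc : Continuous (fun p : ℝ × F => ((p, 0) : (ℝ × F) × C(KI, F))) := by fun_prop
    exact hc.continuousAt.eventually (e.open_target.mem_nhds htarget)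
  have hev2 : ∀ᶠ p in 𝓝 ((0 : ℝ), x₀), A p ∈ ball (cst F x₀) (min ρ r) := by
    refine hcontA.eventually ?_
    rw [hA0]
    exact ball_mem_nhds _ (lt_min hρ hr)
  have hev3 : ∀ᶠ p in 𝓝 ((0 : ℝ), x₀), p ∈ ball ((0 : ℝ), x₀) ρ := ball_mem_nhds _ hρ
  obtain ⟨ε, hε, hεsub⟩ := Metric.mem_nhds_iff.1 (hev1.and (hev2.and hev3))
  refine ⟨ε, hε, A, ?_, ?_, ?_⟩
  · intro p hp
    exact (hAcd p (hεsub hp).1).contDiffWithinAt
  · intro p hp
    refine ⟨(hsolve p (hεsub hp).1).2, ?_⟩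
    have := (hεsub hp).2.1
    rw [mem_ball_iff_norm] at this
    exact this.trans_le (min_le_right _ _)
  · intro p hp q hq β hβ hH
    have h1 : (p, β) ∈ e.source := by
      apply hρsub
      rw [mem_ball, Prod.dist_eq]
      refine max_lt ?_ ?_
      · exact (hεsub hp).2.2
      · rw [dist_eq_norm]
        have := (hεsub hq).2.1
        rw [mem_ball_iff_norm] at this
        exact (hβ.trans_lt this).trans_le (min_le_left _ _)
    have h2 : Ψ (p, β) = (p, 0) := by
      simp only [hΨ, Psi, hH]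
    have h3 : e.symm (p, 0) = (p, β) := by
      rw [← h2]
      exact e.left_inv h1
    simp only [hA, h3]

end Core

section Flow

variable {F : Type} [NormedAddCommGroup F] [NormedSpace ℝ F] [CompleteSpace F]

lemma ext_sup (g : F → F) (hc : Continuous g) (α : C(KI, F)) (u : ℝ) :
    ext (sup ⟨g, hc⟩ α) u = g (ext α u) := rfl

lemma Hm_eq_zero_iff (g : F → F) (hc : Continuous g) (p : ℝ × F) (α : C(KI, F)) :
    Hm g hc (p, α) = 0 ↔ ∀ s : KI, α s = p.2 + p.1 • ∫ u in (0 : ℝ)..s, g (ext α u) := by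
  unfold Hm
  constructor
  · intro h s
    have := DFunLike.congr_fun h s
    simp only [ContinuousMap.sub_apply, ContinuousMap.smul_apply, cst_apply, J_apply, ext_sup,
      ContinuousMap.zero_apply] at this
    rw [sub_sub, sub_eq_zero] at this
    exact this
  · intro h
    refine ContinuousMap.ext fun s => ?_
    simp only [ContinuousMap.sub_apply, ContinuousMap.smul_apply, cst_apply, J_apply, ext_sup,
      ContinuousMap.zero_apply]
    rw [h s]
    abel

/-- Local flow of a globally smooth vector field, with smooth dependence on everything. -/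
theorem exists_flow_global (g : F → F) (hg : ContDiff ℝ ∞ g) (x₀ : F) (r : ℝ) (hr : 0 < r) :
    ∃ ε > 0, ∃ Φ : ℝ → F → F,
      (∀ x ∈ ball x₀ ε, Φ 0 x = x) ∧
      (∀ x ∈ ball x₀ ε, ∀ t ∈ Ioo (-ε) ε, Φ t x ∈ ball x₀ r ∧
        HasDerivAt (fun s => Φ s x) (g (Φ t x)) t) ∧
      ContDiffOn ℝ ∞ (fun p : ℝ × F => Φ p.1 p.2) (Ioo (-ε) ε ×ˢ ball x₀ ε) := by
  obtain ⟨ε, hε, A, hAcd, hA, huniq⟩ := exists_sol g hg x₀ r hr
  have hone : (1 : ℝ) ∈ Icc (-1 : ℝ) 1 := by constructor <;> norm_num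
  have hzero : (0 : ℝ) ∈ Icc (-1 : ℝ) 1 := by constructor <;> norm_num
  have hball : ∀ {t : ℝ} {x : F}, t ∈ Ioo (-ε) ε → x ∈ ball x₀ ε →
      (t, x) ∈ ball ((0 : ℝ), x₀) ε := by
    intro t x ht hx
    rw [mem_ball, Prod.dist_eq]
    refine max_lt ?_ hx
    rw [dist_zero_right, Real.norm_eq_abs, abs_lt]
    exact ht
  -- scaling
  have hscale : ∀ x ∈ ball x₀ ε, ∀ τ ∈ Ioo (-ε) ε, ∀ l (hl : l ∈ Icc (-1 : ℝ) 1),
      A (l * τ, x) ⟨1, hone⟩ = A (τ, x) ⟨l, hl⟩ := by
    intro x hx τ hτ l hl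
    have hlτ : l * τ ∈ Ioo (-ε) ε := by
      have h1 : |l * τ| < ε := by
        rw [abs_mul]
        have h2 : |τ| < ε := abs_lt.2 hτ
        have h3 : |l| ≤ 1 := abs_le.2 hl
        linarith only [mul_nonneg (sub_nonneg.2 h3) (sub_nonneg.2 (abs_nonneg τ)), h2]
      exact abs_lt.1 h1
    have hmul : ∀ s : KI, l * (s : ℝ) ∈ Icc (-1 : ℝ) 1 := by
      intro s
      have h3 : |l| ≤ 1 := abs_le.2 hl
      have h4 : |(s : ℝ)| ≤ 1 := abs_le.2 s.2
      have h5 : |l * (s : ℝ)| ≤ 1 := by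
        rw [abs_mul]
        linarith [mul_nonneg (sub_nonneg.2 h3) (sub_nonneg.2 (abs_nonneg (s : ℝ))), mul_nonneg (sub_nonneg.2 h4) (sub_nonneg.2 (abs_nonneg (s : ℝ))), mul_nonneg (sub_nonneg.2 h4) (sub_nonneg.2 h4)]
      exact abs_le.1 h5
    let β : C(KI, F) := ⟨fun s => ext (A (τ, x)) (l * s),
      (continuous_ext _).comp (continuous_const.mul continuous_subtype_val)⟩
    have hβs : ∀ s : KI, β s = ext (A (τ, x)) (l * s) := fun s => rfl
    have hβnorm : ‖β - cst F x₀‖ ≤ ‖A (τ, x) - cst F x₀‖ := by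
      refine (ContinuousMap.norm_le _ (norm_nonneg _)).2 fun s => ?_
      rw [ContinuousMap.sub_apply, hβs, ext_of_mem _ (hmul s)]
      exact (A (τ, x) - cst F x₀).norm_coe_le_norm ⟨l * s, hmul s⟩
    have hAτ := (Hm_eq_zero_iff g hg.continuous (τ, x) (A (τ, x))).1 (hA _ (hball hτ hx)).1
    have hH : Hm g hg.continuous ((l * τ, x), β) = 0 := by
      rw [Hm_eq_zero_iff]
      intro s
      rw [hβs, ext_of_mem _ (hmul s), hAτ ⟨l * s, hmul s⟩]
      simp only
      congr 1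
      rw [mul_comm l τ, mul_smul]
      congr 1
      rw [← mul_zero l, ← intervalIntegral.smul_integral_comp_mul_left, mul_zero]
      congr 1
      refine intervalIntegral.integral_congr fun u hu => ?_
      have hu1 : u ∈ Icc (-1 : ℝ) 1 := by
        rw [uIcc, mem_Icc] at hu
        have := s.2
        constructor
        · exact le_trans (le_inf (by norm_num) this.1) hu.1
        · exact le_trans hu.2 (sup_le (by norm_num) this.2)
      show g (ext (A (τ, x)) (l * u)) = g (ext β u)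
      rw [ext_of_mem β hu1, hβs]
    have h := huniq _ (hball hlτ hx) _ (hball hτ hx) β hβnorm hH
    rw [← h, hβs, mul_one, ext_of_mem _ hl]
  refine ⟨ε, hε, fun t x => A (t, x) ⟨1, hone⟩, ?_, ?_, ?_⟩
  · intro x hx
    have h0 : (0 : ℝ) ∈ Ioo (-ε) ε := ⟨by linarith, hε⟩
    have h := (Hm_eq_zero_iff g hg.continuous (0, x) (A (0, x))).1 (hA _ (hball h0 hx)).1 ⟨1, hone⟩
    rw [zero_smul, add_zero] at h
    exact h
  · intro x hx t ht
    refine ⟨?_, ?_⟩
    · rw [mem_ball_iff_norm]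
      exact ((A (t, x) - cst F x₀).norm_coe_le_norm ⟨1, hone⟩).trans_lt (hA _ (hball ht hx)).2
    · have habs : |t| < ε := abs_lt.2 ht
      set τ := (|t| + ε) / 2 with hτdef
      have hτ1 : |t| < τ := by rw [hτdef]; linarith only [habs]
      have hτ0 : 0 < τ := (abs_nonneg t).trans_lt hτ1
      have hτ2 : τ < ε := by rw [hτdef]; linarith only [habs]
      have hτ : τ ∈ Ioo (-ε) ε := ⟨by linarith only [hε, hτ0], hτ2⟩
      have hAτ := (Hm_eq_zero_iff g hg.continuous (τ, x) (A (τ, x))).1 (hA _ (hball hτ hx)).1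
      have hval : ∀ t', |t'| < τ → A (t', x) ⟨1, hone⟩
          = x + τ • ∫ u in (0 : ℝ)..(t' / τ), g (ext (A (τ, x)) u) := by
        intro t' ht'
        have hl : t' / τ ∈ Icc (-1 : ℝ) 1 := by
          rw [mem_Icc, ← abs_le, abs_div, abs_of_pos hτ0]
          exact (div_le_one hτ0).2 ht'.le
        have h1 := hscale x hx τ hτ (t' / τ) hl
        rw [div_mul_cancel₀ _ hτ0.ne'] at h1
        rw [h1, hAτ]
      have hl : t / τ ∈ Icc (-1 : ℝ) 1 := by
        rw [mem_Icc, ← abs_le, abs_div, abs_of_pos hτ0]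
        exact (div_le_one hτ0).2 hτ1.le
      have hgval : g (A (t, x) ⟨1, hone⟩) = g (ext (A (τ, x)) (t / τ)) := by
        have h1 := hscale x hx τ hτ (t / τ) hl
        rw [div_mul_cancel₀ _ hτ0.ne'] at h1
        rw [h1, ext_of_mem _ hl]
      have hcont : Continuous (fun u => g (ext (A (τ, x)) u)) :=
        hg.continuous.comp (continuous_ext _)
      have hd1 : HasDerivAt (fun y : ℝ => ∫ u in (0 : ℝ)..y, g (ext (A (τ, x)) u))
          (g (ext (A (τ, x)) (t / τ))) (t / τ) :=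
        intervalIntegral.integral_hasDerivAt_right (hcont.intervalIntegrable _ _)
          (hcont.stronglyMeasurableAtFilter _ _) hcont.continuousAt
      have hd2 : HasDerivAt (fun t' : ℝ => t' / τ) (1 / τ) t := (hasDerivAt_id t).div_const τ
      have hd3 := (hd1.scomp t hd2).const_smul τ
      have hd4 := hd3.const_add x
      have heq : (fun t' => A (t', x) ⟨1, hone⟩) =ᶠ[𝓝 t]
          (fun t' => x + τ • ((fun y : ℝ => ∫ u in (0 : ℝ)..y, g (ext (A (τ, x)) u)) ∘
            fun t' : ℝ => t' / τ) t') := by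
        have : ∀ᶠ t' in 𝓝 t, |t'| < τ := (continuous_abs.continuousAt).eventually
          (Iio_mem_nhds hτ1)
        filter_upwards [this] with t' ht'
        exact hval t' ht'
      refine (hd4.congr_of_eventuallyEq heq).congr_deriv ?_
      rw [hgval, smul_smul, mul_one_div_cancel hτ0.ne', one_smul]
  · have h1 : ContDiffOn ℝ ∞ (fun p : ℝ × F => A p) (Ioo (-ε) ε ×ˢ ball x₀ ε) := by
      refine hAcd.mono ?_
      rintro ⟨t, x⟩ ⟨ht, hx⟩
      exact hball ht hx
    exact h1.continuousLinearMap_comp (ContinuousMap.evalCLM ℝ (⟨1, hone⟩ : KI))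

end Flow

end Ode

section Main

variable {F : Type} [NormedAddCommGroup F] [NormedSpace ℝ F] [FiniteDimensional ℝ F]

/-- Local flow of a smooth vector field, smooth dependence. -/
theorem exists_flow_smooth (f : F → F) (U : Set F) (hU : IsOpen U) (hf : ContDiffOn ℝ ∞ f U)
    (x₀ : F) (hx₀ : x₀ ∈ U) :
    ∃ ε > 0, ∃ W : Set F, IsOpen W ∧ x₀ ∈ W ∧ ∃ Φ : ℝ → F → F,
      (∀ x ∈ W, Φ 0 x = x) ∧
      (∀ x ∈ W, ∀ t ∈ Ioo (-ε) ε, Φ t x ∈ U ∧ HasDerivAt (fun s => Φ s x) (f (Φ t x)) t) ∧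
      ContDiffOn ℝ ∞ (fun p : ℝ × F => Φ p.1 p.2) (Ioo (-ε) ε ×ˢ W) := by
  have : CompleteSpace F := FiniteDimensional.complete ℝ F
  obtain ⟨R, hR, hRU⟩ := Metric.isOpen_iff.1 hU x₀ hx₀
  let χ : ContDiffBump x₀ := ⟨R / 4, R / 2, by positivity, by linarith⟩
  set g : F → F := fun x => χ x • f x with hg
  have hgs : ContDiff ℝ ∞ g := by
    rw [contDiff_iff_contDiffAt]
    intro x
    by_cases hx : x ∈ ball x₀ R
    · have h1 : ContDiffAt ℝ ∞ f x := hf.contDiffAt (hU.mem_nhds (hRU hx))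
      exact (χ.contDiff.contDiffAt).smul h1
    · have hev : ∀ᶠ y in 𝓝 x, g y = 0 := by
        have hopen : IsOpen (closedBall x₀ (R / 2))ᶜ := isClosed_closedBall.isOpen_compl
        have hx' : x ∈ (closedBall x₀ (R / 2))ᶜ := by
          intro h
          apply hx
          rw [mem_closedBall] at h
          rw [mem_ball]
          linarith only [hR, h]
        filter_upwards [hopen.mem_nhds hx'] with y hy
        have : χ y = 0 := by
          apply χ.zero_of_le_dist
          rw [mem_compl_iff, mem_closedBall, not_le] at hy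
          exact hy.le
        simp [hg, this]
      exact contDiffAt_const.congr_of_eventuallyEq (f := fun _ => (0 : F)) hev
  obtain ⟨ε, hε, Φ, h0, h1, h2⟩ := Ode.exists_flow_global g hgs x₀ (R / 4) (by positivity)
  refine ⟨ε, hε, ball x₀ ε, isOpen_ball, mem_ball_self hε, Φ, h0, ?_, h2⟩
  intro x hx t ht
  obtain ⟨h3, h4⟩ := h1 x hx t ht
  have hone : χ (Φ t x) = 1 := by
    apply χ.one_of_mem_closedBall
    exact ball_subset_closedBall h3
  refine ⟨hRU (ball_subset_ball (by linarith only [hR]) h3), ?_⟩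
  have : g (Φ t x) = f (Φ t x) := by simp [hg, hone]
  rwa [this] at h4

/-- The variational equation. -/
theorem variational {f : F → F} {U : Set F} (hU : IsOpen U) (hf : ContDiffOn ℝ ∞ f U)
    {ε : ℝ} {W : Set F} (hW : IsOpen W) {Φ : ℝ → F → F}
    (h1 : ∀ x ∈ W, ∀ t ∈ Ioo (-ε) ε, Φ t x ∈ U ∧ HasDerivAt (fun s => Φ s x) (f (Φ t x)) t)
    (h2 : ContDiffOn ℝ ∞ (fun p : ℝ × F => Φ p.1 p.2) (Ioo (-ε) ε ×ˢ W))
    {x : F} (hx : x ∈ W) (w : F) {t : ℝ} (ht : t ∈ Ioo (-ε) ε) :
    HasDerivAt (fun s => fderiv ℝ (Φ s) x w) (fderiv ℝ f (Φ t x) (fderiv ℝ (Φ t) x w)) t := by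
  set G : ℝ × F → F := fun p => Φ p.1 p.2 with hG
  have hO : IsOpen (Ioo (-ε) ε ×ˢ W) := isOpen_Ioo.prod hW
  have hGd : ∀ p ∈ Ioo (-ε) ε ×ˢ W, ContDiffAt ℝ ∞ G p := fun p hp =>
    h2.contDiffAt (hO.mem_nhds hp)
  have hGd' : ∀ p ∈ Ioo (-ε) ε ×ˢ W, DifferentiableAt ℝ G p := fun p hp =>
    (hGd p hp).differentiableAt (by simp)
  -- partial derivatives
  have hpx : ∀ s ∈ Ioo (-ε) ε, ∀ y ∈ W, ∀ v, fderiv ℝ (Φ s) y v = fderiv ℝ G (s, y) (0, v) := by
    intro s hs y hy v
    have e1 : HasFDerivAt (fun z : F => ((s, z) : ℝ × F)) (ContinuousLinearMap.inr ℝ ℝ F) y := by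
      have := (hasFDerivAt_const s y).prodMk (hasFDerivAt_id (𝕜 := ℝ) y)
      exact this
    have e2 : HasFDerivAt (Φ s) ((fderiv ℝ G (s, y)).comp (ContinuousLinearMap.inr ℝ ℝ F)) y :=
      (hGd' (s, y) ⟨hs, hy⟩).hasFDerivAt.comp y e1
    rw [e2.fderiv]
    rfl
  have hpt : ∀ s ∈ Ioo (-ε) ε, ∀ y ∈ W, fderiv ℝ G (s, y) (1, 0) = f (G (s, y)) := by
    intro s hs y hy
    have e1 : HasDerivAt (fun z : ℝ => ((z, y) : ℝ × F)) ((1 : ℝ), (0 : F)) s :=
      (hasDerivAt_id s).prodMk (hasDerivAt_const s y)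
    have e2 : HasDerivAt (fun z : ℝ => G (z, y)) (fderiv ℝ G (s, y) (1, 0)) s :=
      HasFDerivAt.comp_hasDerivAt (l := G) (f := fun z : ℝ => ((z, y) : ℝ × F)) s
        (hGd' (s, y) ⟨hs, hy⟩).hasFDerivAt e1
    exact e2.unique (h1 y hy s hs).2
  have hmem : ((t, x) : ℝ × F) ∈ Ioo (-ε) ε ×ˢ W := ⟨ht, hx⟩
  have hG2 : ContDiffAt ℝ 2 G (t, x) := (hGd _ hmem).of_le (by norm_cast)
  have hD : DifferentiableAt ℝ (fderiv ℝ G) (t, x) :=
    (hG2.fderiv_right (m := 1) (by norm_num)).differentiableAt (by simp)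
  have hsymm : fderiv ℝ (fderiv ℝ G) (t, x) (1, 0) (0, w)
      = fderiv ℝ (fderiv ℝ G) (t, x) (0, w) (1, 0) :=
    (hG2.isSymmSndFDerivAt (by simp)) _ _
  -- derivative of `s ↦ fderiv G (s,x) (0,w)`
  have k1 : HasDerivAt (fun s : ℝ => fderiv ℝ G (s, x) (0, w))
      (fderiv ℝ (fderiv ℝ G) (t, x) (1, 0) (0, w)) t := by
    have e1 : HasDerivAt (fun z : ℝ => ((z, x) : ℝ × F)) ((1 : ℝ), (0 : F)) t :=
      (hasDerivAt_id t).prodMk (hasDerivAt_const t x)
    have e2 : HasDerivAt (fun z : ℝ => fderiv ℝ G (z, x)) (fderiv ℝ (fderiv ℝ G) (t, x) (1, 0)) t :=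
      hD.hasFDerivAt.comp_hasDerivAt t e1
    exact (ContinuousLinearMap.apply ℝ F ((0, w) : ℝ × F)).hasFDerivAt.comp_hasDerivAt t e2
  have k2 : HasDerivAt (fun s : ℝ => fderiv ℝ (Φ s) x w)
      (fderiv ℝ (fderiv ℝ G) (t, x) (1, 0) (0, w)) t := by
    refine k1.congr_of_eventuallyEq ?_
    filter_upwards [isOpen_Ioo.mem_nhds ht] with s hs
    exact hpx s hs x hx w
  -- the other order
  have k3 : fderiv ℝ (fderiv ℝ G) (t, x) (0, w) (1, 0)
      = fderiv ℝ f (Φ t x) (fderiv ℝ (Φ t) x w) := by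
    have hfd : HasFDerivAt f (fderiv ℝ f (G (t, x))) (G (t, x)) :=
      ((hf.contDiffAt (hU.mem_nhds (h1 x hx t ht).1)).differentiableAt (by simp)).hasFDerivAt
    have e1 : HasFDerivAt (fun p => f (G p)) ((fderiv ℝ f (G (t, x))).comp (fderiv ℝ G (t, x)))
        (t, x) := hfd.comp (t, x) (hGd' _ hmem).hasFDerivAt
    have e2 : HasFDerivAt (fun p => fderiv ℝ G p (1, 0))
        ((ContinuousLinearMap.apply ℝ F ((1, 0) : ℝ × F)).comp (fderiv ℝ (fderiv ℝ G) (t, x)))
        (t, x) :=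
      (ContinuousLinearMap.apply ℝ F ((1, 0) : ℝ × F)).hasFDerivAt.comp (t, x) hD.hasFDerivAt
    have e3 : (fun p => fderiv ℝ G p (1, 0)) =ᶠ[𝓝 (t, x)] (fun p => f (G p)) := by
      filter_upwards [hO.mem_nhds hmem] with p hp
      exact hpt p.1 hp.1 p.2 hp.2
    have e4 := (e1.congr_of_eventuallyEq e3).unique e2
    have e5 := DFunLike.congr_fun e4 ((0, w) : ℝ × F)
    simp only [ContinuousLinearMap.comp_apply, ContinuousLinearMap.apply_apply] at e5
    rw [← e5, hpx t ht x hx w]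
  rw [hsymm, k3] at k2
  exact k2

/-- T1: local flow, `C^1` in all variables, with the variational equation. -/
theorem exists_flow (f : F → F) (U : Set F) (hU : IsOpen U) (hf : ContDiffOn ℝ ∞ f U)
    (x₀ : F) (hx₀ : x₀ ∈ U) :
    ∃ ε > 0, ∃ W : Set F, IsOpen W ∧ x₀ ∈ W ∧ ∃ Φ : ℝ → F → F,
      (∀ x ∈ W, Φ 0 x = x) ∧
      (∀ x ∈ W, ∀ t ∈ Ioo (-ε) ε, Φ t x ∈ U ∧ HasDerivAt (fun s => Φ s x) (f (Φ t x)) t) ∧
      ContDiffOn ℝ 1 (fun p : ℝ × F => Φ p.1 p.2) (Ioo (-ε) ε ×ˢ W) ∧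
      (∀ x ∈ W, ∀ w, ∀ t ∈ Ioo (-ε) ε,
        HasDerivAt (fun s => fderiv ℝ (Φ s) x w)
          (fderiv ℝ f (Φ t x) (fderiv ℝ (Φ t) x w)) t) := by
  obtain ⟨ε, hε, W, hW, hx₀W, Φ, h0, h1, h2⟩ := exists_flow_smooth f U hU hf x₀ hx₀
  exact ⟨ε, hε, W, hW, hx₀W, Φ, h0, h1, h2.of_le (by simp only [WithTop.one_le_coe, le_top]), fun x hx w t ht =>
    variational hU hf hW h1 h2 hx w ht⟩

end Main

end Vale.Agent.P255
end
end
end

section

section

/-!
# P255: geodesics on a closed manifold: uniqueness, existence for all times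
-/

open scoped Manifold ContDiff Topology
open Set Filter

noncomputable section

set_option maxSynthPendingDepth 3

namespace Vale.Agent.P255

section Trans

variable {E : Type} [NormedAddCommGroup E] [NormedSpace ℝ E]
variable {M : Type} [TopologicalSpace M] [ChartedSpace E M]

theorem contDiffAt_trans_chart [IsManifold 𝓘(ℝ, E) ∞ M] (a b : M) {u : E}
    (hu : u ∈ (chartAt E a).target)
    (hb : (chartAt E a).symm u ∈ (chartAt E b).source) : ContDiffAt ℝ ∞ (trans E a b) u := by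
  have hmem : u ∈ (𝓘(ℝ, E).extendCoordChange (chartAt E a) (chartAt E b)).source := by
    simp [ModelWithCorners.extendCoordChange, PartialEquiv.trans_source, hu, hb]
  have h := ModelWithCorners.contDiffWithinAt_extendCoordChange (I := 𝓘(ℝ, E)) (n := ∞)
    (IsManifold.chart_mem_maximalAtlas a) (IsManifold.chart_mem_maximalAtlas b) hmem
  simp only [modelWithCornersSelf_coe, range_id, contDiffWithinAt_univ] at h
  exact h

theorem trans_symm_source (a b : M) {m : M} (ha : m ∈ (chartAt E a).source) :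
    trans E a b (chartAt E a m) = chartAt E b m := by
  simp only [trans, (chartAt E a).left_inv ha]

/-- Where the coordinate change is defined. -/
theorem eventually_trans (a b : M) {u : E} (hu : u ∈ (chartAt E a).target)
    (hb : (chartAt E a).symm u ∈ (chartAt E b).source) :
    ∀ᶠ x in 𝓝 u, x ∈ (chartAt E a).target ∧ (chartAt E a).symm x ∈ (chartAt E b).source := by
  have h1 := (chartAt E a).open_target.mem_nhds hu
  have h2 := (chartAt E a).symm.continuousAt hu
  have h3 := h2.preimage_mem_nhds ((chartAt E b).open_source.mem_nhds hb)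
  filter_upwards [h1, h3] with x hx hx'
  exact ⟨hx, hx'⟩

variable {γ : ℝ → M} {t : ℝ}

theorem eventually_source (hγ : ContinuousAt γ t) {a : M} (ha : γ t ∈ (chartAt E a).source) :
    ∀ᶠ s in 𝓝 t, γ s ∈ (chartAt E a).source :=
  hγ.preimage_mem_nhds ((chartAt E a).open_source.mem_nhds ha)

theorem cc_memT (a : M) (ha : γ t ∈ (chartAt E a).source) :
    cc (E := E) γ a t ∈ (chartAt E a).target := (chartAt E a).map_source ha

theorem symm_ccT (a : M) (ha : γ t ∈ (chartAt E a).source) :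
    (chartAt E a).symm (cc (E := E) γ a t) = γ t := (chartAt E a).left_inv ha

theorem cc_eventuallyEq (hγ : ContinuousAt γ t) {a b : M} (ha : γ t ∈ (chartAt E a).source) :
    cc (E := E) γ b =ᶠ[𝓝 t] fun s => trans E a b (cc γ a s) := by
  filter_upwards [eventually_source hγ ha] with s hs
  simp only [cc, trans_symm_source a b hs]

theorem hasDerivAt_cc [IsManifold 𝓘(ℝ, E) ∞ M] (hγ : ContinuousAt γ t) {a b : M}
    (ha : γ t ∈ (chartAt E a).source)
    (hb : γ t ∈ (chartAt E b).source) {v : E} (h : HasDerivAt (cc (E := E) γ a) v t) :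
    HasDerivAt (cc (E := E) γ b) (fderiv ℝ (trans E a b) (cc γ a t) v) t := by
  have h1 := contDiffAt_trans_chart (E := E) a b (cc_memT a ha) (by rwa [symm_ccT a ha])
  have h2 := (h1.differentiableAt (by simp)).hasFDerivAt.comp_hasDerivAt t h
  exact h2.congr_of_eventuallyEq (cc_eventuallyEq hγ ha)

theorem deriv_cc [IsManifold 𝓘(ℝ, E) ∞ M] (hγ : ContinuousAt γ t) {a b : M}
    (ha : γ t ∈ (chartAt E a).source)
    (hb : γ t ∈ (chartAt E b).source) (h : DifferentiableAt ℝ (cc (E := E) γ a) t) :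
    deriv (cc (E := E) γ b) t = fderiv ℝ (trans E a b) (cc γ a t) (deriv (cc γ a) t) :=
  (hasDerivAt_cc hγ ha hb h.hasDerivAt).deriv

end Trans

section Basic

variable {E : Type} [NormedAddCommGroup E] [NormedSpace ℝ E]
variable {M : Type} [TopologicalSpace M] [ChartedSpace E M]
variable {g : Metric E M} {γ γ' : ℝ → M} {s s' : Set ℝ} {t : ℝ}

theorem IsGeodesicOn.contAt (h : IsGeodesicOn g γ s) (hs : IsOpen s) (ht : t ∈ s) :
    ContinuousAt γ t := h.cont.continuousAt (hs.mem_nhds ht)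

theorem IsGeodesicOn.mono (h : IsGeodesicOn g γ s) (hs : s' ⊆ s) : IsGeodesicOn g γ s' :=
  ⟨h.cont.mono hs, fun a t ht ha => h.eqn a t (hs ht) ha⟩

theorem cc_congr (h : γ =ᶠ[𝓝 t] γ') (a : M) : cc (E := E) γ a =ᶠ[𝓝 t] cc γ' a := by
  filter_upwards [h] with x hx
  simp only [cc, hx]

theorem IsGeodesicOn.congr (h : IsGeodesicOn g γ s) (hs : IsOpen s) (he : EqOn γ' γ s) :
    IsGeodesicOn g γ' s := by
  refine ⟨h.cont.congr he, fun a t ht ha => ?_⟩
  have h1 : γ' =ᶠ[𝓝 t] γ := by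
    filter_upwards [hs.mem_nhds ht] with x hx using he hx
  have h2 := cc_congr (E := E) h1 a
  have h3 : deriv (cc (E := E) γ' a) =ᶠ[𝓝 t] deriv (cc γ a) := h2.deriv
  rw [he ht] at ha
  obtain ⟨e1, e2, e3⟩ := h.eqn a t ht ha
  refine ⟨(h2.differentiableAt_iff).2 e1, (h3.differentiableAt_iff).2 e2, ?_⟩
  rw [h3.deriv_eq, e3, h2.eq_of_nhds, h3.eq_of_nhds]

theorem IsGeodesicOn.union (h : IsGeodesicOn g γ s) (h' : IsGeodesicOn g γ s')
    (hs : IsOpen s) (hs' : IsOpen s') : IsGeodesicOn g γ (s ∪ s') := by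
  refine ⟨h.cont.union_of_isOpen h'.cont hs hs', fun a t ht ha => ?_⟩
  rcases ht with ht | ht
  · exact h.eqn a t ht ha
  · exact h'.eqn a t ht ha

theorem isGeodesicOn_of_forall (hs : ∀ t ∈ s, ∃ u, IsOpen u ∧ t ∈ u ∧ IsGeodesicOn g γ u) :
    IsGeodesicOn g γ s := by
  refine ⟨fun t ht => ?_, fun a t ht ha => ?_⟩
  · obtain ⟨u, hu, htu, h⟩ := hs t ht
    exact (h.contAt hu htu).continuousWithinAt
  · obtain ⟨u, hu, htu, h⟩ := hs t ht
    exact h.eqn a t htu ha

/-- Affine changes of the time. -/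
theorem IsGeodesicOn.comp_affine [FiniteDimensional ℝ E] (h : IsGeodesicOn g γ s) (hs : IsOpen s)
    (k c : ℝ) : IsGeodesicOn g (fun t => γ (k * t + c)) {t | k * t + c ∈ s} := by
  have hcont : Continuous fun t : ℝ => k * t + c := by fun_prop
  refine ⟨h.cont.comp hcont.continuousOn (fun t ht => ht), fun a t ht ha => ?_⟩
  have hd : ∀ x : ℝ, HasDerivAt (fun t : ℝ => k * t + c) k x := by
    intro x
    simpa using ((hasDerivAt_id x).const_mul k).add_const c
  obtain ⟨e1, e2, e3⟩ := h.eqn a (k * t + c) ht ha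
  have hγc := h.contAt hs ht
  have hev : ∀ᶠ x in 𝓝 (k * t + c), x ∈ s ∧ γ x ∈ (chartAt E a).source :=
    Filter.Eventually.and (hs.mem_nhds ht) (eventually_source hγc ha)
  have hev' : ∀ᶠ x in 𝓝 t, k * x + c ∈ s ∧ γ (k * x + c) ∈ (chartAt E a).source :=
    hcont.continuousAt.eventually hev
  have h1 : deriv (cc (E := E) (fun t => γ (k * t + c)) a) =ᶠ[𝓝 t]
      fun x => k • deriv (cc (E := E) γ a) (k * x + c) := by
    filter_upwards [hev'] with x hx
    have := (h.eqn a _ hx.1 hx.2).1.hasDerivAt.scomp x (hd x)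
    exact this.deriv
  have h2 : HasDerivAt (fun x => k • deriv (cc (E := E) γ a) (k * x + c))
      (k • (k • deriv (deriv (cc (E := E) γ a)) (k * t + c))) t :=
    (e2.hasDerivAt.scomp t (hd t)).const_smul k
  have hm := cc_memT (E := E) a ha
  have hG := g.isMetricOn a
  have e1' : HasDerivAt (cc (E := E) (fun t => γ (k * t + c)) a)
      (k • deriv (cc (E := E) γ a) (k * t + c)) t := by
    have := e1.hasDerivAt.scomp t (hd t)
    exact this
  refine ⟨e1'.differentiableAt,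
    (h1.differentiableAt_iff).2 h2.differentiableAt, ?_⟩
  rw [h1.deriv_eq, h2.deriv, h1.eq_of_nhds, e3]
  change _ = - chris (g.coef a) (cc γ a (k * t + c)) _ _
  rw [chris_smul_left, chris_smul_right]
  simp

end Basic

section Unique

variable {E : Type} [NormedAddCommGroup E] [NormedSpace ℝ E] [FiniteDimensional ℝ E]
variable {M : Type} [TopologicalSpace M] [ChartedSpace E M]
variable {g : Metric E M} {γ γ' : ℝ → M} {s s' : Set ℝ} {t : ℝ}

/-- The first order form of the geodesic equation. -/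
theorem IsGeodesicOn.hasDerivAt_pair (h : IsGeodesicOn g γ s) (ht : t ∈ s) {a : M}
    (ha : γ t ∈ (chartAt E a).source) :
    HasDerivAt (fun x => (cc (E := E) γ a x, deriv (cc (E := E) γ a) x))
      (geoField (g.coef a) (cc γ a t, deriv (cc γ a) t)) t := by
  obtain ⟨e1, e2, e3⟩ := h.eqn a t ht ha
  have := e1.hasDerivAt.prodMk e2.hasDerivAt
  rw [e3] at this
  exact this

/-- Local uniqueness. -/
theorem IsGeodesicOn.eventuallyEq (h : IsGeodesicOn g γ s) (h' : IsGeodesicOn g γ' s)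
    (hs : IsOpen s) (ht : t ∈ s) (he : γ t = γ' t) {a : M} (ha : γ t ∈ (chartAt E a).source)
    (hv : deriv (cc (E := E) γ a) t = deriv (cc γ' a) t) : γ =ᶠ[𝓝 t] γ' := by
  have hG := g.isMetricOn a
  have ha' : γ' t ∈ (chartAt E a).source := he ▸ ha
  set y0 : E × E := (cc γ a t, deriv (cc γ a) t) with hy0
  have hU : IsOpen ((chartAt E a).target ×ˢ (univ : Set E)) :=
    (chartAt E a).open_target.prod isOpen_univ
  have hy0U : y0 ∈ (chartAt E a).target ×ˢ (univ : Set E) := ⟨cc_memT a ha, mem_univ _⟩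
  have hC : ContDiffAt ℝ 1 (geoField (g.coef a)) y0 :=
    (hG.contDiffOn_geoField.contDiffAt (hU.mem_nhds hy0U)).of_le (by simp only [WithTop.one_le_coe, le_top])
  obtain ⟨K, V, hV, hK⟩ := hC.exists_lipschitzOnWith
  have key : ∀ σ : ℝ → M, IsGeodesicOn g σ s → σ t ∈ (chartAt E a).source →
      (cc (E := E) σ a t, deriv (cc (E := E) σ a) t) = y0 →
      ∀ᶠ x in 𝓝 t, HasDerivAt (fun x => (cc (E := E) σ a x, deriv (cc (E := E) σ a) x))
        (geoField (g.coef a) (cc σ a x, deriv (cc σ a) x)) x ∧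
        (cc (E := E) σ a x, deriv (cc (E := E) σ a) x) ∈ V := by
    intro σ hσ hσa hσ0
    have h1 := eventually_source (hσ.contAt hs ht) hσa
    have h2 : ∀ᶠ x in 𝓝 t, x ∈ s := hs.mem_nhds ht
    have h3 : ContinuousAt (fun x => (cc (E := E) σ a x, deriv (cc (E := E) σ a) x)) t :=
      (hσ.hasDerivAt_pair ht hσa).continuousAt
    have h4 := h3.preimage_mem_nhds (t := V) (by rw [hσ0]; exact hV)
    filter_upwards [h1, h2, h4] with x hx1 hx2 hx4
    exact ⟨hσ.hasDerivAt_pair hx2 hx1, hx4⟩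
  have e1 := key γ h ha rfl
  have e2 := key γ' h' ha' (by rw [hy0, hv]; simp only [cc, he])
  have := ODE_solution_unique_of_eventually (v := fun _ => geoField (g.coef a))
    (s := fun _ => V) (K := K) (t₀ := t)
    (f := fun x => (cc (E := E) γ a x, deriv (cc (E := E) γ a) x))
    (g := fun x => (cc (E := E) γ' a x, deriv (cc (E := E) γ' a) x))
    (Eventually.of_forall fun _ => hK) e1 e2 (by rw [hv]; simp only [cc, he])
  filter_upwards [this, eventually_source (h.contAt hs ht) ha,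
    eventually_source (h'.contAt hs ht) ha'] with x hx hx1 hx2
  have h5 : cc (E := E) γ a x = cc γ' a x := congrArg Prod.fst hx
  rw [← symm_ccT (E := E) a hx1, ← symm_ccT (E := E) a hx2, h5]

/-- Uniqueness of geodesics on intervals. -/
theorem IsGeodesicOn.eqOn_of [T2Space M] (h : IsGeodesicOn g γ s) (h' : IsGeodesicOn g γ' s)
    (hs : IsOpen s) (hp : IsPreconnected s) (ht : t ∈ s) (he : γ t = γ' t) {a : M}
    (ha : γ t ∈ (chartAt E a).source)
    (hv : deriv (cc (E := E) γ a) t = deriv (cc γ' a) t) : EqOn γ γ' s := by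
  set u : Set ℝ := {x | x ∈ s ∧ γ =ᶠ[𝓝 x] γ'} with hu
  have huo : IsOpen u := by
    rw [isOpen_iff_mem_nhds]
    rintro x ⟨hx, hx'⟩
    filter_upwards [hs.mem_nhds hx, hx'.eventually_nhds] with y hy hy'
    exact ⟨hy, hy'⟩
  have hne : (s ∩ u).Nonempty := ⟨t, ht, ht, h.eventuallyEq h' hs ht he ha hv⟩
  have hsub : s ⊆ u := by
    refine hp.subset_of_closure_inter_subset huo hne ?_
    rintro x ⟨hxc, hxs⟩
    refine ⟨hxs, ?_⟩
    have hc := h.contAt hs hxs
    have hc' := h'.contAt hs hxs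
    have hfreq : ∃ᶠ y in 𝓝 x, y ∈ u := mem_closure_iff_frequently.1 hxc
    have hxe : γ x = γ' x := by
      by_contra hne
      obtain ⟨A, B, hA, hB, hxA, hxB, hAB⟩ := t2_separation hne
      have h1 : ∀ᶠ y in 𝓝 x, γ y ∈ A ∧ γ' y ∈ B :=
        Filter.Eventually.and (hc (hA.mem_nhds hxA)) (hc' (hB.mem_nhds hxB))
      obtain ⟨y, hyu, hyA, hyB⟩ := (hfreq.and_eventually h1).exists
      rw [hyu.2.eq_of_nhds] at hyA
      exact disjoint_left.1 hAB hyA hyB
    have hb : γ x ∈ (chartAt E (γ x)).source := mem_chart_source E (γ x)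
    have hb' : γ' x ∈ (chartAt E (γ x)).source := hxe ▸ hb
    refine h.eventuallyEq h' hs hxs hxe hb ?_
    have hd : ContinuousAt (deriv (cc (E := E) γ (γ x))) x := (h.eqn _ x hxs hb).2.1.continuousAt
    have hd' : ContinuousAt (deriv (cc (E := E) γ' (γ x))) x :=
      (h'.eqn _ x hxs hb').2.1.continuousAt
    by_contra hne
    obtain ⟨A, B, hA, hB, hxA, hxB, hAB⟩ := t2_separation hne
    have h1 : ∀ᶠ y in 𝓝 x, deriv (cc (E := E) γ (γ x)) y ∈ A ∧
        deriv (cc (E := E) γ' (γ x)) y ∈ B :=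
      Filter.Eventually.and (hd (hA.mem_nhds hxA)) (hd' (hB.mem_nhds hxB))
    obtain ⟨y, hyu, hyA, hyB⟩ := (hfreq.and_eventually h1).exists
    have h2 : cc (E := E) γ (γ x) =ᶠ[𝓝 y] cc γ' (γ x) := cc_congr hyu.2 _
    rw [h2.deriv_eq] at hyA
    exact disjoint_left.1 hAB hyA hyB
  intro x hx
  exact (hsub hx).2.eq_of_nhds

end Unique

section Energy

variable {E : Type} [NormedAddCommGroup E] [NormedSpace ℝ E] [FiniteDimensional ℝ E]
variable {M : Type} [TopologicalSpace M] [ChartedSpace E M] [IsManifold 𝓘(ℝ, E) ∞ M]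
variable {g : Metric E M} {γ γ' : ℝ → M} {s s' : Set ℝ} {t : ℝ}

/-- The square of the speed of a curve. -/
def Metric.sp (g : Metric E M) (γ : ℝ → M) (t : ℝ) : ℝ :=
  g.ip (γ t) (deriv (cc (E := E) γ (γ t)) t) (deriv (cc (E := E) γ (γ t)) t)

omit [FiniteDimensional ℝ E] in
theorem Metric.sp_chart (g : Metric E M) (hγ : ContinuousAt γ t) {a : M}
    (ha : γ t ∈ (chartAt E a).source) (hd : DifferentiableAt ℝ (cc (E := E) γ a) t) :
    g.sp γ t = g.coef a (cc γ a t) (deriv (cc γ a) t) (deriv (cc γ a) t) := by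
  have hb : γ t ∈ (chartAt E (γ t)).source := mem_chart_source E (γ t)
  have h1 := g.compat a (γ t) (cc γ a t) (cc_memT a ha) (by rwa [symm_ccT a ha])
    (deriv (cc γ a) t) (deriv (cc γ a) t)
  rw [← deriv_cc hγ ha hb hd] at h1
  have h2 : trans E a (γ t) (cc γ a t) = chartAt E (γ t) (γ t) := trans_symm_source a (γ t) ha
  rw [h2] at h1
  exact h1

theorem IsGeodesicOn.covD_deriv (h : IsGeodesicOn g γ s) (ht : t ∈ s) {a : M}
    (ha : γ t ∈ (chartAt E a).source) :
    covD (g.coef a) (cc γ a) (deriv (cc γ a)) t = 0 := by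
  rw [covD, (h.eqn a t ht ha).2.2]
  simp

theorem IsGeodesicOn.hasDerivAt_sp (h : IsGeodesicOn g γ s) (hs : IsOpen s) (ht : t ∈ s) :
    HasDerivAt (g.sp γ) 0 t := by
  have ha : γ t ∈ (chartAt E (γ t)).source := mem_chart_source E (γ t)
  set a := γ t with hadef
  have hG := g.isMetricOn a
  obtain ⟨e1, e2, -⟩ := h.eqn a t ht ha
  have h1 := hG.hasDerivAt_inner (cc_memT a ha) e1 e2 e2
  rw [h.covD_deriv ht ha] at h1
  simp only [map_zero, zero_add, zero_apply] at h1
  refine h1.congr_of_eventuallyEq ?_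
  filter_upwards [eventually_source (h.contAt hs ht) ha, hs.mem_nhds ht] with x hx hxs
  exact g.sp_chart (h.contAt hs hxs) hx (h.eqn a x hxs hx).1

theorem IsGeodesicOn.sp_const (h : IsGeodesicOn g γ s) (hs : IsOpen s) (hp : IsPreconnected s)
    {x y : ℝ} (hx : x ∈ s) (hy : y ∈ s) : g.sp γ x = g.sp γ y := by
  refine hs.is_const_of_deriv_eq_zero hp
    (fun z hz => (h.hasDerivAt_sp hs hz).differentiableAt.differentiableWithinAt)
    (fun z hz => (h.hasDerivAt_sp hs hz).deriv) hx hy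

end Energy

section LocalExist

variable {E : Type} [NormedAddCommGroup E] [NormedSpace ℝ E] [FiniteDimensional ℝ E]

/-- A metric is locally bounded below by a multiple of the norm. -/
theorem IsMetricOn.lower_bound {G : E → E →L[ℝ] E →L[ℝ] ℝ} {U : Set E} (h : IsMetricOn G U)
    {u : E} (hu : u ∈ U) : ∃ c > 0, ∀ᶠ x in 𝓝 u, ∀ w, c * ‖w‖ ^ 2 ≤ G x w w := by
  obtain ⟨c, hc, hmin⟩ : ∃ c > 0, ∀ w, 2 * c * ‖w‖ ^ 2 ≤ G u w w := by
    rcases subsingleton_or_nontrivial E with hE | hE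
    · refine ⟨1, one_pos, fun w => ?_⟩
      have : w = 0 := Subsingleton.elim _ _
      simp [this]
    · have hcpt : IsCompact (Metric.sphere (0 : E) 1) := isCompact_sphere 0 1
      have hne : (Metric.sphere (0 : E) 1).Nonempty := NormedSpace.sphere_nonempty.2 zero_le_one
      have hcont : ContinuousOn (fun w : E => G u w w) (Metric.sphere (0 : E) 1) := by
        have : Continuous (fun w : E => G u w w) := by (clear * -; continuity)
        exact this.continuousOn
      obtain ⟨w0, hw0, hmin⟩ := hcpt.exists_isMinOn hne hcont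
      have hw0' : w0 ≠ 0 := by
        rintro rfl
        simp only [mem_sphere_iff_norm, sub_self, norm_zero, zero_ne_one] at hw0
      refine ⟨G u w0 w0 / 2, half_pos (h.pos u hu w0 hw0'), fun w => ?_⟩
      rw [mul_div_cancel₀ _ (two_ne_zero)]
      rcases eq_or_ne w 0 with rfl | hw
      · simp
      · have hn : 0 < ‖w‖ := norm_pos_iff.2 hw
        have h1 : (‖w‖⁻¹ • w) ∈ Metric.sphere (0 : E) 1 := by
          simp only [mem_sphere_iff_norm, sub_zero, norm_smul, norm_inv, norm_norm, ne_eq, hn.ne', not_false_eq_true, inv_mul_cancel₀]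
        have h2 := hmin h1
        simp only [map_smul, smul_apply, smul_eq_mul, mem_ofPred_eq] at h2
        have h3 : G u w0 w0 * ‖w‖ ^ 2 ≤ (‖w‖⁻¹ * (‖w‖⁻¹ * G u w w)) * ‖w‖ ^ 2 := by
          (clear * - h2 hw; gcongr)
        calc G u w0 w0 * ‖w‖ ^ 2 ≤ (‖w‖⁻¹ * (‖w‖⁻¹ * G u w w)) * ‖w‖ ^ 2 := h3
          _ = G u w w := by field_simp
  refine ⟨c, hc, ?_⟩
  have hcont : ContinuousAt G u := (h.smooth.continuousOn).continuousAt (h.isOpen.mem_nhds hu)
  have h1 : ∀ᶠ x in 𝓝 u, dist (G x) (G u) < c := Metric.tendsto_nhds.1 hcont c hc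
  filter_upwards [h1] with x hx w
  rw [dist_eq_norm] at hx
  have h2 : |(G x - G u) w w| ≤ c * ‖w‖ ^ 2 := by
    rw [← Real.norm_eq_abs]
    calc ‖(G x - G u) w w‖ ≤ ‖G x - G u‖ * ‖w‖ * ‖w‖ := (G x - G u).le_opNorm₂ w w
      _ ≤ c * ‖w‖ * ‖w‖ := by gcongr
      _ = c * ‖w‖ ^ 2 := by ring
  have h3 := hmin w
  have h4 : (G x - G u) w w = G x w w - G u w w := by simp only [sub_apply]
  rw [h4] at h2
  have h5 := (abs_le.1 h2).1
  linarith only [h3, h5]

variable {M : Type} [TopologicalSpace M] [ChartedSpace E M] [IsManifold 𝓘(ℝ, E) ∞ M]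
variable {g : Metric E M}

/-- A solution of the geodesic equation in one chart gives a geodesic. -/
theorem isGeodesicOn_of_chart (a : M) {c w : ℝ → E} {s : Set ℝ} (hs : IsOpen s)
    (hc : ∀ t ∈ s, c t ∈ (chartAt E a).target ∧ HasDerivAt c (w t) t ∧
      HasDerivAt w (- chris (g.coef a) (c t) (w t) (w t)) t) :
    IsGeodesicOn g (fun t => (chartAt E a).symm (c t)) s := by
  refine ⟨?_, ?_⟩
  · refine (chartAt E a).continuousOn_symm.comp
      (fun t ht => (hc t ht).2.1.continuousAt.continuousWithinAt) (fun t ht => (hc t ht).1)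
  · intro b t ht hb
    have hder : deriv c =ᶠ[𝓝 t] w := by
      filter_upwards [hs.mem_nhds ht] with x hx using (hc x hx).2.1.deriv
    have htr : ContDiffAt ℝ ∞ (trans E a b) (c t) := contDiffAt_trans_chart a b (hc t ht).1 hb
    have hiso : ∀ᶠ x in 𝓝 (c t), ∀ v w, g.coef b (trans E a b x) (fderiv ℝ (trans E a b) x v)
        (fderiv ℝ (trans E a b) x w) = g.coef a x v w := by
      filter_upwards [eventually_trans a b (hc t ht).1 hb] with x hx v w
      exact g.compat a b x hx.1 hx.2 v w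
    exact (g.isMetricOn a).geodesic_trans (g.isMetricOn b) (hc t ht).1
      ((chartAt E b).map_source hb) htr hiso
      (by filter_upwards [hs.mem_nhds ht] with x hx using (hc x hx).2.1.differentiableAt)
      ((hder.differentiableAt_iff).2 (hc t ht).2.2.differentiableAt)
      (by rw [hder.deriv_eq, (hc t ht).2.2.deriv, hder.eq_of_nhds])

omit [FiniteDimensional ℝ E] in
theorem fderiv_trans_trans (a b : M) {m : M} (ha : m ∈ (chartAt E a).source)
    (hb : m ∈ (chartAt E b).source) (v : E) :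
    fderiv ℝ (trans E b a) (chartAt E b m) (fderiv ℝ (trans E a b) (chartAt E a m) v) = v := by
  have hu : chartAt E a m ∈ (chartAt E a).target := (chartAt E a).map_source ha
  have hu' : chartAt E b m ∈ (chartAt E b).target := (chartAt E b).map_source hb
  have e : (chartAt E a).symm (chartAt E a m) = m := (chartAt E a).left_inv ha
  have e' : (chartAt E b).symm (chartAt E b m) = m := (chartAt E b).left_inv hb
  have h1 := (contDiffAt_trans_chart (E := E) a b hu (by rwa [e])).differentiableAt (by simp)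
  have h2 := (contDiffAt_trans_chart (E := E) b a hu' (by rwa [e'])).differentiableAt (by simp)
  have e2 : trans E a b (chartAt E a m) = chartAt E b m := trans_symm_source a b ha
  have h3 : HasFDerivAt (trans E b a ∘ trans E a b)
      ((fderiv ℝ (trans E b a) (chartAt E b m)).comp (fderiv ℝ (trans E a b) (chartAt E a m)))
      (chartAt E a m) := by
    refine HasFDerivAt.comp _ ?_ h1.hasFDerivAt
    rw [e2]; exact h2.hasFDerivAt
  have h4 : trans E b a ∘ trans E a b =ᶠ[𝓝 (chartAt E a m)] id := by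
    filter_upwards [eventually_trans a b hu (by rwa [e])] with x hx
    simp only [Function.comp, trans, (chartAt E b).left_inv hx.2, (chartAt E a).right_inv hx.1, id]
  have h5 := h3.unique ((hasFDerivAt_id _).congr_of_eventuallyEq h4)
  have h6 := congrArg (fun L : E →L[ℝ] E => L v) h5
  simpa only [ContinuousLinearMap.comp_apply, ContinuousLinearMap.id_apply] using h6

/-- Local existence, uniform in the initial condition. -/
theorem exists_local (g : Metric E M) (a : M) : ∃ ε > 0, ∃ N ∈ 𝓝 a, ∀ m ∈ N, ∀ v : E,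
    g.ip m v v ≤ 1 → ∃ γ : ℝ → M, IsGeodesicOn g γ (Ioo (-ε) ε) ∧ γ 0 = m ∧
      HasDerivAt (cc (E := E) γ m) v 0 := by
  have hG := g.isMetricOn a
  have haa : a ∈ (chartAt E a).source := mem_chart_source E a
  set x0 := chartAt E a a with hx0
  have hx0U : x0 ∈ (chartAt E a).target := (chartAt E a).map_source haa
  obtain ⟨c, hc, hlow⟩ := hG.lower_bound hx0U
  obtain ⟨ε₁, hε₁, W, hW, hW0, Φ, hΦ0, hΦ1, -, -⟩ := exists_flow (geoField (g.coef a))
    ((chartAt E a).target ×ˢ (univ : Set E)) ((chartAt E a).open_target.prod isOpen_univ)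
    hG.contDiffOn_geoField (x0, 0) ⟨hx0U, mem_univ _⟩
  obtain ⟨η, hη, hball⟩ := Metric.isOpen_iff.1 hW (x0, 0) hW0
  -- the constant by which the velocity is divided
  set C : ℝ := Real.sqrt (1 / c) with hC
  have hC0 : 0 ≤ C := Real.sqrt_nonneg _
  set k : ℝ := C / η + 1 with hk
  have hk0 : 0 < k := by (clear * - hc hη; positivity)
  have hN1 : ∀ᶠ m in 𝓝 a, m ∈ (chartAt E a).source := (chartAt E a).open_source.mem_nhds haa
  have hcont : ContinuousAt (chartAt E a) a := (chartAt E a).continuousAt haa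
  have hN2 : ∀ᶠ m in 𝓝 a, chartAt E a m ∈ Metric.ball x0 η := hcont (Metric.ball_mem_nhds _ hη)
  have hN3 : ∀ᶠ m in 𝓝 a, ∀ w, c * ‖w‖ ^ 2 ≤ g.coef a (chartAt E a m) w w := hcont.eventually hlow
  refine ⟨ε₁ / k, by positivity, _, (hN1.and (hN2.and hN3)), ?_⟩
  rintro m ⟨hma, hm2, hm3⟩ v hv
  have hmm : m ∈ (chartAt E m).source := mem_chart_source E m
  set w : E := fderiv ℝ (trans E m a) (chartAt E m m) v with hw
  have hw1 : g.coef a (chartAt E a m) w w = g.ip m v v := by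
    have := g.compat m a (chartAt E m m) ((chartAt E m).map_source hmm)
      (by rwa [(chartAt E m).left_inv hmm]) v v
    rw [trans_symm_source m a hmm] at this
    exact this
  have hwn : ‖w‖ ≤ C := by
    have h1 := hm3 w
    rw [hw1] at h1
    refine Real.le_sqrt_of_sq_le ?_
    rw [le_div_iff₀ hc]
    linarith only [hv, h1]
  set w0 : E := k⁻¹ • w with hw0
  have hw0n : ‖w0‖ < η := by
    rw [hw0, norm_smul, norm_inv, Real.norm_eq_abs, abs_of_pos hk0, inv_mul_lt_iff₀ hk0]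
    calc ‖w‖ ≤ C := hwn
      _ < C + η := by linarith only [hη]
      _ = k * η := by rw [hk]; (clear * - hη hC0; field_simp)
  have hin : (chartAt E a m, w0) ∈ W := by
    apply hball
    rw [Metric.mem_ball, Prod.dist_eq]
    exact max_lt hm2 (by simpa [dist_eq_norm] using hw0n)
  -- the geodesic in the chart
  set y : ℝ → E × E := fun t => Φ t (chartAt E a m, w0) with hy
  have hy1 : ∀ t ∈ Ioo (-ε₁) ε₁, (y t).1 ∈ (chartAt E a).target ∧
      HasDerivAt y (geoField (g.coef a) (y t)) t := by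
    intro t ht
    have := hΦ1 _ hin t ht
    exact ⟨this.1.1, this.2⟩
  have hy0 : y 0 = (chartAt E a m, w0) := hΦ0 _ hin
  have hgeo : IsGeodesicOn g (fun t => (chartAt E a).symm ((y t).1)) (Ioo (-ε₁) ε₁) := by
    refine isGeodesicOn_of_chart a (c := fun t => (y t).1) (w := fun t => (y t).2) isOpen_Ioo ?_
    intro t ht
    obtain ⟨h1, h2⟩ := hy1 t ht
    exact ⟨h1, h2.fst, h2.snd⟩
  have h0mem : (0 : ℝ) ∈ Ioo (-ε₁) ε₁ := ⟨by linarith only [hε₁], hε₁⟩
  refine ⟨fun t => (chartAt E a).symm ((y (k * t + 0)).1), ?_, ?_, ?_⟩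
  · refine (hgeo.comp_affine isOpen_Ioo k 0).mono ?_
    intro t ht
    simp only [mem_ofPred_eq, add_zero, mem_Ioo] at ht ⊢
    constructor
    · have := ht.1
      rw [neg_lt_iff_pos_add] at this ⊢
      have h3 : ε₁ / k * k = ε₁ := by (clear * - hk0 hε₁; field_simp)
      nlinarith only [h3, hk0, ht]
    · have := ht.2
      rw [lt_div_iff₀ hk0] at this
      linarith only [this]
  · simp only [mul_zero, add_zero, hy0, (chartAt E a).left_inv hma]
  · have h1 : HasDerivAt (fun t => (y (k * t + 0)).1) w 0 := by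
      have h2 : HasDerivAt (fun t => (y t).1) w0 0 := by
        have := (hy1 0 h0mem).2.fst
        rw [hy0] at this
        exact this
      have h3 : HasDerivAt (fun t : ℝ => k * t + 0) k 0 := by
        simpa using ((hasDerivAt_id (0 : ℝ)).const_mul k)
      have h4 : HasDerivAt (fun t => (y t).1) w0 (k * 0 + 0) := by simpa using h2
      have h5 := HasDerivAt.scomp (h := fun t : ℝ => k * t + 0) (0 : ℝ) h4 h3
      rw [hw0, smul_inv_smul₀ hk0.ne'] at h5
      exact h5
    have h6 : (fun t => (y (k * t + 0)).1) =ᶠ[𝓝 0]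
        cc (E := E) (fun t => (chartAt E a).symm ((y (k * t + 0)).1)) a := by
      have h7 : ContinuousAt (fun t => (y (k * t + 0)).1) 0 := h1.continuousAt
      have h8 : ∀ᶠ t in 𝓝 (0 : ℝ), (y (k * t + 0)).1 ∈ (chartAt E a).target :=
        h7.preimage_mem_nhds ((chartAt E a).open_target.mem_nhds
          (by simp only [mul_zero, add_zero, hy0]; exact (chartAt E a).map_source hma))
      filter_upwards [h8] with t ht
      simp only [cc, (chartAt E a).right_inv ht]
    have h9 : HasDerivAt (cc (E := E) (fun t => (chartAt E a).symm ((y (k * t + 0)).1)) a) w 0 :=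
      h1.congr_of_eventuallyEq h6.symm
    have e0 : (chartAt E a).symm ((y (k * 0 + 0)).1) = m := by
      simp only [mul_zero, add_zero, hy0, (chartAt E a).left_inv hma]
    have hca : ContinuousAt (fun t => (chartAt E a).symm ((y (k * t + 0)).1)) 0 := by
      refine ContinuousAt.comp (g := (chartAt E a).symm) ?_ h1.continuousAt
      exact (chartAt E a).symm.continuousAt
        (by simp only [mul_zero, add_zero, hy0]; exact (chartAt E a).map_source hma)
    have h10 := hasDerivAt_cc (E := E) (b := m) hca (by rw [e0]; exact hma) (by rw [e0]; exact hmm) h9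
    have h11 : cc (E := E) (fun t => (chartAt E a).symm ((y (k * t + 0)).1)) a 0 =
        chartAt E a m := by simp only [cc, e0]
    rw [h11, hw, fderiv_trans_trans m a hmm hma] at h10
    exact h10

end LocalExist

section Global

variable {E : Type} [NormedAddCommGroup E] [NormedSpace ℝ E] [FiniteDimensional ℝ E]
variable {M : Type} [TopologicalSpace M] [ChartedSpace E M] [IsManifold 𝓘(ℝ, E) ∞ M]
variable {g : Metric E M}

/-- Initial conditions of a curve. -/
def StartsAt (γ : ℝ → M) (m : M) (v : E) : Prop := γ 0 = m ∧ HasDerivAt (cc (E := E) γ m) v 0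

theorem exists_uniform [CompactSpace M] (g : Metric E M) : ∃ ε > 0, ∀ (m : M) (v : E),
    g.ip m v v ≤ 1 → ∃ γ : ℝ → M, IsGeodesicOn g γ (Ioo (-ε) ε) ∧ StartsAt γ m v := by
  choose ε hε N hN hloc using exists_local g
  obtain ⟨T, hT⟩ := isCompact_univ.elim_nhds_subcover (X := M) N (fun a _ => hN a)
  have hfin : ∃ δ > 0, ∀ a ∈ T, δ ≤ ε a := by
    classical
    clear hT
    induction T using Finset.induction_on with
    | empty => exact ⟨1, one_pos, fun a ha => by simp at ha⟩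
    | insert b T _ ih =>
      obtain ⟨δ, hδ, h⟩ := ih
      refine ⟨min δ (ε b), lt_min hδ (hε b), fun a ha => ?_⟩
      rcases Finset.mem_insert.1 ha with rfl | ha
      · exact min_le_right _ _
      · exact (min_le_left _ _).trans (h a ha)
  obtain ⟨δ, hδ, hδle⟩ := hfin
  refine ⟨δ, hδ, fun m v hv => ?_⟩
  have hm := hT.2 (mem_univ m)
  rw [mem_iUnion₂] at hm
  obtain ⟨a, haT, hma⟩ := hm
  obtain ⟨γ, h1, h2, h3⟩ := hloc a m hma v hv
  refine ⟨γ, h1.mono ?_, h2, h3⟩
  have := hδle a haT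
  exact Ioo_subset_Ioo (by linarith only [this]) this

variable [T2Space M]

/-- Extension of a geodesic to the right. -/
theorem extend_right {ε : ℝ} (hε : 0 < ε)
    (hUT : ∀ (m : M) (v : E), g.ip m v v ≤ 1 → ∃ γ : ℝ → M,
      IsGeodesicOn g γ (Ioo (-ε) ε) ∧ StartsAt γ m v)
    {γ : ℝ → M} {a b : ℝ} (hab : a < b) (hγ : IsGeodesicOn g γ (Ioo a b))
    (hsp : ∀ t ∈ Ioo a b, g.sp γ t ≤ 1) :
    ∃ γ' : ℝ → M, IsGeodesicOn g γ' (Ioo a (b + ε / 2)) ∧ EqOn γ' γ (Ioo a b) := by
  set t1 := max ((a + b) / 2) (b - ε / 2) with ht1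
  have h1 : a < t1 := lt_of_lt_of_le (by linarith only [hab]) (le_max_left _ _)
  have h2 : t1 < b := max_lt (by linarith only [hab]) (by linarith only [hε])
  have h3 : b + ε / 2 ≤ t1 + ε := by
    have := le_max_right ((a + b) / 2) (b - ε / 2)
    linarith
  have ht1m : t1 ∈ Ioo a b := ⟨h1, h2⟩
  have hm1 : γ t1 ∈ (chartAt E (γ t1)).source := mem_chart_source E _
  obtain ⟨σ, hσ, hσ0, hσ1⟩ := hUT (γ t1) (deriv (cc (E := E) γ (γ t1)) t1) (hsp t1 ht1m)
  set σ1 : ℝ → M := fun t => σ (1 * t + (-t1)) with hσ1def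
  have hσ1g : IsGeodesicOn g σ1 (Ioo (t1 - ε) (t1 + ε)) := by
    refine (hσ.comp_affine isOpen_Ioo 1 (-t1)).mono ?_
    intro t ht
    simp only [mem_ofPred_eq, mem_Ioo] at ht ⊢
    constructor <;> linarith only [ht]
  have e0 : σ1 t1 = γ t1 := by simp [hσ1def, hσ0]
  have hd : deriv (cc (E := E) σ1 (γ t1)) t1 = deriv (cc (E := E) γ (γ t1)) t1 := by
    have hh : HasDerivAt (fun t : ℝ => 1 * t + (-t1)) 1 t1 := by
      simpa using ((hasDerivAt_id t1).const_mul (1 : ℝ)).add_const (-t1)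
    have hz : (1 : ℝ) * t1 + (-t1) = 0 := by ring
    have hσ1' : HasDerivAt (cc (E := E) σ (γ t1)) (deriv (cc (E := E) γ (γ t1)) t1)
        (1 * t1 + (-t1)) := by rw [hz]; exact hσ1
    have := HasDerivAt.scomp (h := fun t : ℝ => 1 * t + (-t1)) t1 hσ1' hh
    rw [one_smul] at this
    exact this.deriv
  -- agreement on the overlap
  have hover : EqOn γ σ1 (Ioo (max a (t1 - ε)) b) := by
    have hsub1 : Ioo (max a (t1 - ε)) b ⊆ Ioo a b := Ioo_subset_Ioo (le_max_left _ _) le_rfl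
    have hsub2 : Ioo (max a (t1 - ε)) b ⊆ Ioo (t1 - ε) (t1 + ε) :=
      Ioo_subset_Ioo (le_max_right _ _) (by linarith only [h2, h3])
    exact (hγ.mono hsub1).eqOn_of (hσ1g.mono hsub2) isOpen_Ioo isPreconnected_Ioo
      (t := t1) ⟨max_lt h1 (by linarith only [h2, h3]), h2⟩ e0.symm hm1 hd.symm
  refine ⟨fun t => if t < b then γ t else σ1 t, ?_, ?_⟩
  · have hA : IsGeodesicOn g (fun t => if t < b then γ t else σ1 t) (Ioo a b) :=
      hγ.congr isOpen_Ioo (fun t ht => if_pos ht.2)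
    have hB : IsGeodesicOn g (fun t => if t < b then γ t else σ1 t)
        (Ioo (max a (t1 - ε)) (t1 + ε)) := by
      refine (hσ1g.mono (Ioo_subset_Ioo (le_max_right _ _) le_rfl)).congr isOpen_Ioo ?_
      intro t ht
      by_cases hb : t < b
      · simp only [if_pos hb]
        exact hover ⟨ht.1, hb⟩
      · simp only [if_neg hb]
    refine (hA.union hB isOpen_Ioo isOpen_Ioo).mono ?_
    intro t ht
    by_cases hb : t < b
    · exact Or.inl ⟨ht.1, hb⟩
    · refine Or.inr ⟨?_, by linarith only [h3, ht.2]⟩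
      have : max a (t1 - ε) < b := max_lt hab (by linarith only [h2, h3])
      linarith only [hb, this]
  · intro t ht
    exact if_pos ht.2

omit [FiniteDimensional ℝ E] [IsManifold 𝓘(ℝ, E) ∞ M] [T2Space M] in
theorem StartsAt.congr {γ γ' : ℝ → M} {m : M} {v : E} (h : StartsAt γ m v) (he : γ' =ᶠ[𝓝 0] γ) :
    StartsAt γ' m v :=
  ⟨he.eq_of_nhds.trans h.1, h.2.congr_of_eventuallyEq (cc_congr he m)⟩

theorem extend_both {ε : ℝ} (hε : 0 < ε)
    (hUT : ∀ (m : M) (v : E), g.ip m v v ≤ 1 → ∃ γ : ℝ → M,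
      IsGeodesicOn g γ (Ioo (-ε) ε) ∧ StartsAt γ m v)
    {γ : ℝ → M} {T : ℝ} (hT : 0 < T) {m : M} {v : E} (hv : g.ip m v v ≤ 1)
    (hγ : IsGeodesicOn g γ (Ioo (-T) T)) (h0 : StartsAt γ m v) :
    ∃ γ' : ℝ → M, IsGeodesicOn g γ' (Ioo (-(T + ε / 2)) (T + ε / 2)) ∧ StartsAt γ' m v := by
  have hspd : ∀ (σ : ℝ → M) (a b : ℝ), a < 0 → 0 < b → IsGeodesicOn g σ (Ioo a b) →
      ∀ w : E, g.ip m w w ≤ 1 → StartsAt σ m w → ∀ t ∈ Ioo a b, g.sp σ t ≤ 1 := by
    intro σ a b ha hb hσ w hw hσ0 t ht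
    rw [hσ.sp_const isOpen_Ioo isPreconnected_Ioo ht (y := 0) ⟨ha, hb⟩]
    rw [Metric.sp, hσ0.1, hσ0.2.deriv]
    exact hw
  obtain ⟨γ₁, h1, h1e⟩ := extend_right hε hUT (by linarith only [hT]) hγ
    (hspd γ (-T) T (by linarith only [hT]) hT hγ v hv h0)
  have h10 : StartsAt γ₁ m v := h0.congr (by
    filter_upwards [isOpen_Ioo.mem_nhds (⟨by linarith, hT⟩ : (0 : ℝ) ∈ Ioo (-T) T)] with t ht
    exact h1e ht)
  -- reverse
  have hrev : ∀ (σ : ℝ → M) (a b : ℝ), IsGeodesicOn g σ (Ioo a b) →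
      IsGeodesicOn g (fun t => σ ((-1) * t + 0)) (Ioo (-b) (-a)) := by
    intro σ a b hσ
    refine (hσ.comp_affine isOpen_Ioo (-1) 0).mono ?_
    intro t ht
    simp only [mem_ofPred_eq, mem_Ioo] at ht ⊢
    constructor <;> linarith only [ht]
  have hrev0 : ∀ (σ : ℝ → M) (w : E), StartsAt σ m w →
      StartsAt (fun t => σ ((-1) * t + 0)) m (-w) := by
    intro σ w hσ
    refine ⟨by simpa using hσ.1, ?_⟩
    have hh : HasDerivAt (fun t : ℝ => (-1) * t + 0) (-1) 0 := by
      simpa only [neg_mul, one_mul, add_zero, id_eq, mul_one] using     ((hasDerivAt_id (0 : ℝ)).const_mul (-1 : ℝ)).add_const (0 : ℝ)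
    have h4 : HasDerivAt (cc (E := E) σ m) w ((-1) * 0 + 0) := by simpa using hσ.2
    have := HasDerivAt.scomp (h := fun t : ℝ => (-1) * t + 0) (0 : ℝ) h4 hh
    rw [neg_one_smul] at this
    exact this
  have h2 := hrev γ₁ _ _ h1
  have h20 := hrev0 γ₁ v h10
  rw [neg_neg] at h2
  have hv' : g.ip m (-v) (-v) ≤ 1 := by simpa only [map_neg, neg_apply, neg_neg] using hv
  obtain ⟨γ₂, h3, h3e⟩ := extend_right hε hUT (a := -(T + ε / 2)) (b := T) (by linarith only [hε, hT]) h2
    (hspd _ _ _ (by linarith) hT h2 (-v) hv' h20)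
  have h30 : StartsAt γ₂ m (-v) := h20.congr (by
    filter_upwards [isOpen_Ioo.mem_nhds
      (⟨by linarith, hT⟩ : (0 : ℝ) ∈ Ioo (-(T + ε / 2)) T)] with t ht
    exact h3e ht)
  have h4 := hrev γ₂ _ _ h3
  have h40 := hrev0 γ₂ (-v) h30
  rw [neg_neg] at h4 h40
  exact ⟨_, h4, h40⟩

theorem exists_long [CompactSpace M] (g : Metric E M) (m : M) (v : E) (hv : g.ip m v v ≤ 1)
    (T : ℝ) : ∃ γ : ℝ → M, IsGeodesicOn g γ (Ioo (-T) T) ∧ StartsAt γ m v := by
  obtain ⟨ε, hε, hUT⟩ := exists_uniform g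
  have key : ∀ n : ℕ, ∃ γ : ℝ → M,
      IsGeodesicOn g γ (Ioo (-(ε + n * (ε / 2))) (ε + n * (ε / 2))) ∧ StartsAt γ m v := by
    intro n
    induction n with
    | zero => simpa only [CharP.cast_eq_zero, zero_mul, add_zero] using hUT m v hv
    | succ n ih =>
      obtain ⟨γ, h1, h2⟩ := ih
      obtain ⟨γ', h3, h4⟩ := extend_both hε hUT (T := ε + n * (ε / 2)) (by positivity) hv h1 h2
      refine ⟨γ', ?_, h4⟩
      have e : ε + n * (ε / 2) + ε / 2 = ε + ((n + 1 : ℕ) : ℝ) * (ε / 2) := by push_cast; ring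
      rw [e] at h3
      exact h3
  obtain ⟨n, hn⟩ := exists_nat_gt (T / (ε / 2))
  obtain ⟨γ, h1, h2⟩ := key n
  refine ⟨γ, h1.mono ?_, h2⟩
  rw [div_lt_iff₀ (by positivity)] at hn
  exact Ioo_subset_Ioo (by linarith only [hε, hn]) (by linarith only [hε, hn])

theorem exists_geodesic_slow [CompactSpace M] (g : Metric E M) (m : M) (v : E)
    (hv : g.ip m v v ≤ 1) : ∃ γ : ℝ → M, IsGeodesic g γ ∧ StartsAt γ m v := by
  choose γ hγ hγ0 using exists_long g m v hv
  have hmm : m ∈ (chartAt E m).source := mem_chart_source E m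
  have hagree : ∀ S T : ℝ, 0 < S → S ≤ T → EqOn (γ S) (γ T) (Ioo (-S) S) := by
    intro S T hS hST
    refine (hγ S).eqOn_of ((hγ T).mono (Ioo_subset_Ioo (by linarith) hST)) isOpen_Ioo
      isPreconnected_Ioo (t := 0) ⟨by linarith only [hS], hS⟩ ((hγ0 S).1.trans (hγ0 T).1.symm) (a := m) ?_ ?_
    · rw [(hγ0 S).1]; exact hmm
    · rw [(hγ0 S).2.deriv, (hγ0 T).2.deriv]
  have hloc : ∀ T : ℝ, 0 < T → EqOn (fun t => γ (|t| + 1) t) (γ (T + 1)) (Ioo (-T) T) := by
    intro T hT t ht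
    have h1 : |t| < T := abs_lt.2 ht
    exact hagree (|t| + 1) (T + 1) (by (clear * -; positivity)) (by linarith)
      ⟨by linarith only [neg_abs_le t], by linarith only [le_abs_self t]⟩
  have hgeo : ∀ T : ℝ, 0 < T → IsGeodesicOn g (fun t => γ (|t| + 1) t) (Ioo (-T) T) := by
    intro T hT
    exact ((hγ (T + 1)).mono (Ioo_subset_Ioo (by linarith) (by linarith))).congr isOpen_Ioo
      (hloc T hT)
  refine ⟨fun t => γ (|t| + 1) t, ?_, ?_⟩
  · refine isGeodesicOn_of_forall fun t _ => ⟨Ioo (-(|t| + 1)) (|t| + 1), isOpen_Ioo, ?_,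
      hgeo _ (by positivity)⟩
    exact ⟨by linarith only [neg_abs_le t], by linarith [le_abs_self t]⟩
  · refine (hγ0 2).congr ?_
    have h2 : (1 : ℝ) + 1 = 2 := by norm_num
    filter_upwards [isOpen_Ioo.mem_nhds (⟨by norm_num, one_pos⟩ : (0 : ℝ) ∈ Ioo (-1 : ℝ) 1)]
      with t ht
    have := hloc 1 one_pos ht
    rw [h2] at this
    exact this

omit [FiniteDimensional ℝ E] [IsManifold 𝓘(ℝ, E) ∞ M] [T2Space M] in
theorem StartsAt.scale {γ : ℝ → M} {m : M} {v : E} (h : StartsAt γ m v) (k : ℝ) :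
    StartsAt (fun t => γ (k * t)) m (k • v) := by
  refine ⟨by simpa using h.1, ?_⟩
  have hh : HasDerivAt (fun t : ℝ => k * t) k 0 := by
    simpa using (hasDerivAt_id (0 : ℝ)).const_mul k
  have h4 : HasDerivAt (cc (E := E) γ m) v (k * 0) := by simpa using h.2
  exact HasDerivAt.scomp (h := fun t : ℝ => k * t) (0 : ℝ) h4 hh

omit [IsManifold 𝓘(ℝ, E) ∞ M] [T2Space M] in
theorem IsGeodesic.scale {γ : ℝ → M} (h : IsGeodesic g γ) (k : ℝ) :
    IsGeodesic g (fun t => γ (k * t)) := by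
  have := h.comp_affine isOpen_univ k 0
  unfold IsGeodesic
  simpa using this

/-- Existence of geodesics for all times on a closed manifold. -/
theorem exists_geodesic_hasDerivAt [CompactSpace M] (g : Metric E M) (m : M) (v : E) :
    ∃ γ : ℝ → M, IsGeodesic g γ ∧ γ 0 = m ∧ HasDerivAt (cc (E := E) γ m) v 0 := by
  have hpos : 0 ≤ g.ip m v v := by
    rcases eq_or_ne v 0 with rfl | hv
    · simp
    · exact (g.pos m _ ((chartAt E m).map_source (mem_chart_source E m)) v hv).le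
  set k : ℝ := g.ip m v v + 1 with hk
  have hk0 : 0 < k := by linarith
  obtain ⟨γ, h1, h2⟩ := exists_geodesic_slow g m (k⁻¹ • v) (by
    simp only [map_smul, smul_apply, smul_eq_mul]
    rw [← mul_assoc, ← mul_inv, inv_mul_le_iff₀ (by (clear * - hpos; positivity))]
    (by_contra nlg; linarith [mul_pos (sub_pos.2 (not_le.1 nlg)) (sub_pos.2 (not_le.1 nlg)), mul_nonneg (mul_self_nonneg (k : ℝ)) (le_of_lt (sub_pos.2 (not_le.1 nlg))), mul_nonneg (mul_self_nonneg (k : ℝ)) (mul_self_nonneg (k : ℝ)), mul_self_nonneg (k : ℝ)]))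
  have h3 := h2.scale k
  rw [smul_inv_smul₀ hk0.ne'] at h3
  exact ⟨_, h1.scale k, h3.1, h3.2⟩

/-- Existence of geodesics for all times on a closed manifold. -/
theorem exists_geodesic [CompactSpace M] (g : Metric E M) (m : M) (v : E) :
    ∃ γ : ℝ → M, IsGeodesic g γ ∧ γ 0 = m ∧ deriv (cc (E := E) γ m) 0 = v := by
  obtain ⟨γ, h1, h2, h3⟩ := exists_geodesic_hasDerivAt g m v
  exact ⟨γ, h1, h2, h3.deriv⟩

omit [IsManifold 𝓘(ℝ, E) ∞ M] in
/-- Uniqueness of geodesics on intervals. -/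
theorem IsGeodesicOn.eqOn {γ₁ γ₂ : ℝ → M} {s : Set ℝ} (hs : IsOpen s)
    (hs2 : IsPreconnected s) (h₁ : IsGeodesicOn g γ₁ s) (h₂ : IsGeodesicOn g γ₂ s) {t₀ : ℝ}
    (ht : t₀ ∈ s) (h0 : γ₁ t₀ = γ₂ t₀) {a : M} (ha : γ₁ t₀ ∈ (chartAt E a).source)
    (h1 : deriv (cc (E := E) γ₁ a) t₀ = deriv (cc (E := E) γ₂ a) t₀) : EqOn γ₁ γ₂ s :=
  h₁.eqOn_of h₂ hs hs2 ht h0 ha h1

omit [T2Space M] in
theorem isGeodesicOn_of_flow (g : Metric E M) (a : M) {c : ℝ → E × E} {s : Set ℝ} (hs : IsOpen s)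
    (hU : ∀ t ∈ s, (c t).1 ∈ (chartAt E a).target)
    (hc : ∀ t ∈ s, HasDerivAt c (geoField (g.coef a) (c t)) t) :
    IsGeodesicOn g (fun t => (chartAt E a).symm (c t).1) s :=
  isGeodesicOn_of_chart a (c := fun t => (c t).1) (w := fun t => (c t).2) hs
    fun t ht => ⟨hU t ht, (hc t ht).fst, (hc t ht).snd⟩

end Global

end Vale.Agent.P255
end
end
end

section

section

/-!
# P255: the exponential map of a closed manifold (smooth dependence on the initial vector)
-/

open scoped Manifold ContDiff Topology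
open Set Filter

noncomputable section

namespace Vale.Agent.P255

variable {E : Type} [NormedAddCommGroup E] [NormedSpace ℝ E]
variable {M : Type} [TopologicalSpace M] [ChartedSpace E M]

section Change

variable [IsManifold 𝓘(ℝ, E) ∞ M]

/-- coordinate changes are smooth -/
theorem contDiffAt_trans' (a b : M) {u : E} (hu : u ∈ (chartAt E a).target)
    (hb : (chartAt E a).symm u ∈ (chartAt E b).source) : ContDiffAt ℝ ∞ (trans E a b) u := by
  have h := (𝓘(ℝ, E)).contDiffWithinAt_extendCoordChange' (n := ∞)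
    (IsManifold.chart_mem_maximalAtlas (I := 𝓘(ℝ, E)) (n := ∞) a)
    (IsManifold.chart_mem_maximalAtlas (I := 𝓘(ℝ, E)) (n := ∞) b)
    ((chartAt E a).map_target hu) hb
  have e1 : ((chartAt E a).extend 𝓘(ℝ, E)) ((chartAt E a).symm u) = u := by
    simp [(chartAt E a).right_inv hu]
  rw [e1] at h
  have h2 : ContDiffWithinAt ℝ ∞ (fun x => chartAt E b ((chartAt E a).symm x)) univ u := by
    simpa [ModelWithCorners.extendCoordChange, Function.comp_def] using h
  exact h2

/-- the change of state induced by a change of charts -/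
def tst (a b : M) (p : E × E) : E × E := (trans E a b p.1, fderiv ℝ (trans E a b) p.1 p.2)

theorem contDiffAt_tst (a b : M) {p : E × E} (hu : p.1 ∈ (chartAt E a).target)
    (hb : (chartAt E a).symm p.1 ∈ (chartAt E b).source) : ContDiffAt ℝ ∞ (tst a b) p := by
  have h := contDiffAt_trans' a b hu hb
  have h1 : ContDiffAt ℝ ∞ (fun p : E × E => trans E a b p.1) p :=
    h.comp p contDiffAt_fst
  have h2 : ContDiffAt ℝ ∞ (fun p : E × E => fderiv ℝ (trans E a b) p.1) p :=
    (h.fderiv_right (m := ∞) (by simp)).comp p contDiffAt_fst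
  exact h1.prodMk (h2.clm_apply contDiffAt_snd)

omit [IsManifold 𝓘(ℝ, E) ∞ M] [NormedSpace ℝ E] in
theorem cc_trans {γ : ℝ → M} {a b : M} {t : ℝ} (ha : γ t ∈ (chartAt E a).source) :
    cc γ b t = trans E a b (cc γ a t) := by
  unfold cc trans
  rw [(chartAt E a).left_inv ha]

omit [IsManifold 𝓘(ℝ, E) ∞ M] [NormedSpace ℝ E] in
theorem evSource' {γ : ℝ → M} {a : M} {t : ℝ} (hγ : ContinuousAt γ t)
    (ha : γ t ∈ (chartAt E a).source) : ∀ᶠ s in 𝓝 t, γ s ∈ (chartAt E a).source :=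
  hγ.eventually ((chartAt E a).open_source.mem_nhds ha)

omit [IsManifold 𝓘(ℝ, E) ∞ M] [NormedSpace ℝ E] in
theorem cc_mem_target {γ : ℝ → M} {a : M} {t : ℝ} (ha : γ t ∈ (chartAt E a).source) :
    cc γ a t ∈ (chartAt E a).target := (chartAt E a).map_source ha

omit [IsManifold 𝓘(ℝ, E) ∞ M] [NormedSpace ℝ E] in
theorem symmCc' {γ : ℝ → M} {a : M} {t : ℝ} (ha : γ t ∈ (chartAt E a).source) :
    (chartAt E a).symm (cc γ a t) = γ t := (chartAt E a).left_inv ha

theorem deriv_cc_trans {γ : ℝ → M} {a b : M} {t : ℝ} (hγ : ContinuousAt γ t)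
    (ha : γ t ∈ (chartAt E a).source) (hb : γ t ∈ (chartAt E b).source)
    (hd : DifferentiableAt ℝ (cc (E := E) γ a) t) :
    deriv (cc (E := E) γ b) t = fderiv ℝ (trans E a b) (cc γ a t) (deriv (cc γ a) t) := by
  have h1 : cc (E := E) γ b =ᶠ[𝓝 t] fun s => trans E a b (cc γ a s) := by
    filter_upwards [evSource' (E := E) hγ ha] with s hs
    exact cc_trans hs
  rw [h1.deriv_eq]
  have h2 := contDiffAt_trans' a b (cc_mem_target ha) (by rw [symmCc' ha]; exact hb)
  have h3 : HasFDerivAt (trans E a b) (fderiv ℝ (trans E a b) (cc γ a t)) (cc γ a t) :=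
    (h2.differentiableAt (by simp)).hasFDerivAt
  exact (h3.comp_hasDerivAt t hd.hasDerivAt).deriv

end Change

section Geo

variable [FiniteDimensional ℝ E] [IsManifold 𝓘(ℝ, E) ∞ M]

omit [FiniteDimensional ℝ E] [IsManifold 𝓘(ℝ, E) ∞ M] in
theorem IsGeodesic.continuousAt {g : Metric E M} {γ : ℝ → M} (h : IsGeodesic g γ) (t : ℝ) :
    ContinuousAt γ t := h.cont.continuousAt univ_mem

/-- a geodesic is given, near any time, by the local flow in a chart -/
theorem IsGeodesic.flow [T2Space M] {g : Metric E M} {γ : ℝ → M} (hγ : IsGeodesic g γ) {a : M}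
    {ε : ℝ} (hε : 0 < ε) {W : Set (E × E)} {Φ : ℝ → E × E → E × E} (hΦ0 : ∀ x ∈ W, Φ 0 x = x)
    (hΦ : ∀ x ∈ W, ∀ t ∈ Ioo (-ε) ε, Φ t x ∈ (chartAt E a).target ×ˢ (univ : Set E) ∧
      HasDerivAt (fun s => Φ s x) (geoField (g.coef a) (Φ t x)) t)
    {t₀ : ℝ} (h0 : γ t₀ ∈ (chartAt E a).source)
    (hW : (cc γ a t₀, deriv (cc γ a) t₀) ∈ W) {τ : ℝ} (hτ : τ ∈ Ioo (-ε) ε) :
    γ (t₀ + τ) ∈ (chartAt E a).source ∧
      (cc γ a (t₀ + τ), deriv (cc γ a) (t₀ + τ)) = Φ τ (cc γ a t₀, deriv (cc γ a) t₀) := by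
  set x : E × E := (cc γ a t₀, deriv (cc γ a) t₀) with hx
  set s : Set ℝ := Ioo (t₀ - ε) (t₀ + ε) with hs
  have hmem : ∀ t ∈ s, t - t₀ ∈ Ioo (-ε) ε := by
    intro t ht
    simp only [hs, mem_Ioo] at ht ⊢
    constructor <;> linarith only [ht]
  set c : ℝ → E × E := fun t => Φ (t - t₀) x with hc
  have hcd : ∀ t ∈ s, HasDerivAt c (geoField (g.coef a) (c t)) t := by
    intro t ht
    have h1 := (hΦ x hW _ (hmem t ht)).2
    have h2 : HasDerivAt (fun t : ℝ => t - t₀) 1 t := (hasDerivAt_id t).sub_const t₀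
    have h3 := HasDerivAt.scomp t h1 h2
    simpa [hc, Function.comp_def] using h3
  have hcU : ∀ t ∈ s, (c t).1 ∈ (chartAt E a).target := fun t ht =>
    (hΦ x hW _ (hmem t ht)).1.1
  have hgeo := isGeodesicOn_of_flow g a isOpen_Ioo hcU hcd
  set γ' : ℝ → M := fun t => (chartAt E a).symm (c t).1 with hγ'
  have hcc : ∀ t ∈ s, cc γ' a t = (c t).1 := fun t ht => (chartAt E a).right_inv (hcU t ht)
  have hdcc : ∀ t ∈ s, HasDerivAt (cc γ' a) (c t).2 t := by
    intro t ht
    have h1 : HasDerivAt (fun t => (c t).1) (c t).2 t := by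
      have := (hcd t ht)
      exact (hasFDerivAt_fst (p := c t)).comp_hasDerivAt t this
    refine h1.congr_of_eventuallyEq ?_
    filter_upwards [isOpen_Ioo.mem_nhds ht] with t' ht'
    exact hcc t' ht'
  have ht₀ : t₀ ∈ s := by
    simp only [hs, mem_Ioo]; constructor <;> linarith only [hε]
  have hc0 : c t₀ = x := by simp [hc, hΦ0 x hW]
  have heq : EqOn γ γ' s := by
    apply IsGeodesicOn.eqOn isOpen_Ioo isPreconnected_Ioo
      (g := g) ⟨hγ.cont.mono (subset_univ _), fun a t _ ha => hγ.eqn a t (mem_univ _) ha⟩ hgeo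
      ht₀ _ h0 _
    · change γ t₀ = (chartAt E a).symm (c t₀).1
      rw [hc0]
      exact (symmCc' h0).symm
    · rw [(hdcc t₀ ht₀).deriv, hc0]
  have hτs : t₀ + τ ∈ s := by
    simp only [hs, mem_Ioo] at hτ ⊢
    constructor <;> linarith only [hτ]
  have e1 : γ (t₀ + τ) = (chartAt E a).symm (c (t₀ + τ)).1 := heq hτs
  have hcτ : c (t₀ + τ) = Φ τ x := by simp [hc]
  have hev : cc (E := E) γ a =ᶠ[𝓝 (t₀ + τ)] cc (E := E) γ' a := by
    filter_upwards [isOpen_Ioo.mem_nhds hτs] with t' ht'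
    unfold cc
    rw [heq ht']
  refine ⟨?_, ?_⟩
  · rw [e1]
    exact (chartAt E a).map_target (hcU _ hτs)
  · rw [← hcτ]
    have h1 : cc γ a (t₀ + τ) = (c (t₀ + τ)).1 := by
      rw [hev.eq_of_nhds]; exact hcc _ hτs
    have h2 : deriv (cc γ a) (t₀ + τ) = (c (t₀ + τ)).2 := by
      rw [hev.deriv_eq]; exact (hdcc _ hτs).deriv
    rw [h1, h2]

/-- uniqueness of geodesics -/
theorem IsGeodesic.ext [T2Space M] {g : Metric E M} {γ₁ γ₂ : ℝ → M} (h₁ : IsGeodesic g γ₁)
    (h₂ : IsGeodesic g γ₂) {t₀ : ℝ} {a : M} (h0 : γ₁ t₀ = γ₂ t₀)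
    (ha : γ₁ t₀ ∈ (chartAt E a).source)
    (h1 : deriv (cc (E := E) γ₁ a) t₀ = deriv (cc (E := E) γ₂ a) t₀) : γ₁ = γ₂ := by
  funext t
  exact IsGeodesicOn.eqOn isOpen_univ isPreconnected_univ h₁ h₂ (mem_univ t₀) h0 ha h1
    (mem_univ t)

omit [IsManifold 𝓘(ℝ, E) ∞ M] in
/-- constant reparametrisation of geodesics -/
theorem IsGeodesic.comp_mul {g : Metric E M} {γ : ℝ → M} (h : IsGeodesic g γ) (c : ℝ) :
    IsGeodesic g (fun t => γ (c * t)) := by
  refine ⟨?_, ?_⟩
  · rw [continuousOn_univ]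
    have := continuousOn_univ.1 h.cont
    exact this.comp (continuous_const.mul continuous_id)
  · intro a t _ ha
    obtain ⟨h1, h2, h3⟩ := h.eqn a (c * t) (mem_univ _) ha
    have e1 : ∀ t, deriv (cc (E := E) (fun t => γ (c * t)) a) t
        = c • deriv (cc (E := E) γ a) (c * t) := by
      intro t
      exact deriv_comp_mul_left c (cc (E := E) γ a) t
    have e2 : deriv (cc (E := E) (fun t => γ (c * t)) a)
        = fun t => c • deriv (cc (E := E) γ a) (c * t) := funext e1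
    have hct : DifferentiableAt ℝ (fun t : ℝ => c * t) t := by fun_prop
    refine ⟨?_, ?_, ?_⟩
    · exact DifferentiableAt.comp (g := cc (E := E) γ a) t h1 hct
    · rw [e2]
      exact (DifferentiableAt.comp (g := deriv (cc (E := E) γ a)) t h2 hct).const_smul c
    · rw [e2]
      have e3 : deriv (fun t => c • deriv (cc (E := E) γ a) (c * t)) t
          = c • c • deriv (deriv (cc (E := E) γ a)) (c * t) := by
        have h4 : DifferentiableAt ℝ (fun t => deriv (cc (E := E) γ a) (c * t)) t :=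
          DifferentiableAt.comp (g := deriv (cc (E := E) γ a)) t h2 hct
        rw [deriv_fun_const_smul c h4]
        rw [deriv_comp_mul_left c (deriv (cc (E := E) γ a)) t]
      rw [e3, h3]
      have e4 : cc (E := E) (fun t => γ (c * t)) a t = cc (E := E) γ a (c * t) := rfl
      rw [e4, chris_smul_left, chris_smul_right]
      simp

variable [CompactSpace M] [T2Space M]

/-- the geodesic with given initial data -/
def geo (g : Metric E M) (m : M) (v : E) : ℝ → M := (exists_geodesic g m v).choose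

theorem isGeodesic_geo (g : Metric E M) (m : M) (v : E) : IsGeodesic g (geo g m v) :=
  (exists_geodesic g m v).choose_spec.1

theorem geo_zero (g : Metric E M) (m : M) (v : E) : geo g m v 0 = m :=
  (exists_geodesic g m v).choose_spec.2.1

theorem deriv_geo (g : Metric E M) (m : M) (v : E) : deriv (cc (geo g m v) m) 0 = v :=
  (exists_geodesic g m v).choose_spec.2.2

theorem geo_smul (g : Metric E M) (m : M) (v : E) (c t : ℝ) :
    geo g m (c • v) t = geo g m v (c * t) := by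
  have h : geo g m (c • v) = fun t => geo g m v (c * t) := by
    apply IsGeodesic.ext (isGeodesic_geo g m (c • v)) ((isGeodesic_geo g m v).comp_mul c)
      (t₀ := 0) (a := m)
    · simp [geo_zero]
    · rw [geo_zero]; exact mem_chart_source E m
    · rw [deriv_geo]
      have : deriv (cc (E := E) (fun t => geo g m v (c * t)) m) 0
          = c • deriv (cc (E := E) (geo g m v) m) (c * 0) :=
        deriv_comp_mul_left c (cc (E := E) (geo g m v) m) 0
      rw [this, mul_zero, deriv_geo]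
  rw [h]

/-- the state of the geodesic with initial vector `p.2` at time `p.1`, in the chart at `a` -/
def st (g : Metric E M) (m a : M) (p : ℝ × E) : E × E :=
  (cc (geo g m p.2) a p.1, deriv (cc (geo g m p.2) a) p.1)

/-- regularity at time `t` for the initial vector `v` -/
def Good (g : Metric E M) (m : M) (v : E) (t : ℝ) : Prop :=
  ContinuousAt (fun p : ℝ × E => geo g m p.2 p.1) (t, v) ∧
    ∀ a, geo g m v t ∈ (chartAt E a).source → ContDiffAt ℝ 1 (st g m a) (t, v)

theorem Good.of_one {g : Metric E M} {m : M} {v : E} {t : ℝ} {a : M}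
    (h1 : ContinuousAt (fun p : ℝ × E => geo g m p.2 p.1) (t, v))
    (ha : geo g m v t ∈ (chartAt E a).source) (h2 : ContDiffAt ℝ 1 (st g m a) (t, v)) :
    Good g m v t := by
  refine ⟨h1, fun b hb => ?_⟩
  have e1 : ∀ᶠ p in 𝓝 (t, v), geo g m p.2 p.1 ∈ (chartAt E a).source :=
    h1.eventually ((chartAt E a).open_source.mem_nhds ha)
  have e2 : ∀ᶠ p in 𝓝 (t, v), geo g m p.2 p.1 ∈ (chartAt E b).source :=
    h1.eventually ((chartAt E b).open_source.mem_nhds hb)
  have e3 : st g m b =ᶠ[𝓝 (t, v)] fun p => tst a b (st g m a p) := by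
    filter_upwards [e1, e2] with p hpa hpb
    have hg := isGeodesic_geo g m p.2
    unfold st tst
    simp only [Prod.mk.injEq]
    exact ⟨cc_trans hpa, deriv_cc_trans (hg.continuousAt _) hpa hpb
      (hg.eqn a p.1 (mem_univ _) hpa).1⟩
  refine ContDiffAt.congr_of_eventuallyEq ?_ e3
  have h3 : ContDiffAt ℝ 1 (tst a b) (st g m a (t, v)) := by
    apply (contDiffAt_tst a b _ _).of_le (by simp only [WithTop.one_le_coe, le_top])
    · exact cc_mem_target ha
    · change (chartAt E a).symm (cc (geo g m v) a t) ∈ _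
      rw [symmCc' ha]; exact hb
  exact h3.comp (t, v) h2

/-- propagation of regularity by the local flow -/
theorem Good.propagate {g : Metric E M} {m : M} {v : E} {a : M}
    {ε : ℝ} (hε : 0 < ε) {W : Set (E × E)} (hWo : IsOpen W) {Φ : ℝ → E × E → E × E}
    (hΦ0 : ∀ x ∈ W, Φ 0 x = x)
    (hΦ : ∀ x ∈ W, ∀ t ∈ Ioo (-ε) ε, Φ t x ∈ (chartAt E a).target ×ˢ (univ : Set E) ∧
      HasDerivAt (fun s => Φ s x) (geoField (g.coef a) (Φ t x)) t)
    (hΦ1 : ContDiffOn ℝ 1 (fun p : ℝ × (E × E) => Φ p.1 p.2) (Ioo (-ε) ε ×ˢ W))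
    {t₀ t : ℝ} (ht : |t - t₀| < ε)
    (h1 : ∀ᶠ w in 𝓝 v, geo g m w t₀ ∈ (chartAt E a).source)
    (h2 : ContDiffAt ℝ 1 (fun w => st g m a (t₀, w)) v) (hW : st g m a (t₀, v) ∈ W) :
    Good g m v t ∧ geo g m v t ∈ (chartAt E a).source := by
  have h3 : ∀ᶠ w in 𝓝 v, st g m a (t₀, w) ∈ W :=
    h2.continuousAt.eventually (hWo.mem_nhds hW)
  have h4 : ∀ᶠ p : ℝ × E in 𝓝 (t, v), geo g m p.2 t₀ ∈ (chartAt E a).source ∧
      st g m a (t₀, p.2) ∈ W := by
    have : Tendsto (fun p : ℝ × E => p.2) (𝓝 (t, v)) (𝓝 v) := continuous_snd.tendsto _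
    exact this.eventually (h1.and h3)
  have h5 : ∀ᶠ p : ℝ × E in 𝓝 (t, v), p.1 - t₀ ∈ Ioo (-ε) ε := by
    have : ContinuousAt (fun p : ℝ × E => p.1 - t₀) (t, v) := by fun_prop
    exact this.eventually (isOpen_Ioo.mem_nhds (abs_lt.1 ht))
  have h6 : ∀ᶠ p : ℝ × E in 𝓝 (t, v), geo g m p.2 p.1 ∈ (chartAt E a).source ∧
      st g m a p = Φ (p.1 - t₀) (st g m a (t₀, p.2)) := by
    filter_upwards [h4, h5] with p hp4 hp5
    have := (isGeodesic_geo g m p.2).flow hε hΦ0 hΦ hp4.1 hp4.2 hp5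
    rw [add_sub_cancel] at this
    exact this
  have h7 : st g m a =ᶠ[𝓝 (t, v)] fun p => Φ (p.1 - t₀) (st g m a (t₀, p.2)) := by
    filter_upwards [h6] with p hp
    exact hp.2
  have h8 : ContDiffAt ℝ 1 (st g m a) (t, v) := by
    refine ContDiffAt.congr_of_eventuallyEq ?_ h7
    have h9 : ContDiffAt ℝ 1 (fun p : ℝ × (E × E) => Φ p.1 p.2) (t - t₀, st g m a (t₀, v)) :=
      hΦ1.contDiffAt ((isOpen_Ioo.prod hWo).mem_nhds ⟨abs_lt.1 ht, hW⟩)
    have h10 : ContDiffAt ℝ 1 (fun p : ℝ × E => (p.1 - t₀, st g m a (t₀, p.2))) (t, v) := by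
      apply ContDiffAt.prodMk
      · exact contDiffAt_fst.sub contDiffAt_const
      · exact ContDiffAt.comp (t, v) (g := fun w => st g m a (t₀, w)) h2 contDiffAt_snd
    exact ContDiffAt.comp (t, v) h9 h10
  have h11 : geo g m v t ∈ (chartAt E a).source := h6.self_of_nhds.1
  refine ⟨Good.of_one ?_ h11 h8, h11⟩
  have h12 : (fun p : ℝ × E => geo g m p.2 p.1) =ᶠ[𝓝 (t, v)]
      fun p => (chartAt E a).symm (st g m a p).1 := by
    filter_upwards [h6] with p hp
    exact (symmCc' hp.1).symm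
  refine ContinuousAt.congr ?_ h12.symm
  have h13 : ContinuousAt (chartAt E a).symm (st g m a (t, v)).1 :=
    (chartAt E a).symm.continuousAt (cc_mem_target h11)
  exact ContinuousAt.comp (f := fun p => (st g m a p).1) h13 h8.continuousAt.fst

/-- flow box around the state at time `t₁` -/
theorem exists_box (g : Metric E M) (m : M) (v : E) (a : M) (t₁ : ℝ)
    (ha : geo g m v t₁ ∈ (chartAt E a).source) :
    ∃ ε > 0, ∃ W : Set (E × E), IsOpen W ∧ st g m a (t₁, v) ∈ W ∧ ∃ Φ : ℝ → E × E → E × E,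
      (∀ x ∈ W, Φ 0 x = x) ∧
      (∀ x ∈ W, ∀ t ∈ Ioo (-ε) ε, Φ t x ∈ (chartAt E a).target ×ˢ (univ : Set E) ∧
        HasDerivAt (fun s => Φ s x) (geoField (g.coef a) (Φ t x)) t) ∧
      ContDiffOn ℝ 1 (fun p : ℝ × (E × E) => Φ p.1 p.2) (Ioo (-ε) ε ×ˢ W) ∧
      (∀ x ∈ W, ∀ w, ∀ t ∈ Ioo (-ε) ε,
        HasDerivAt (fun s => fderiv ℝ (Φ s) x w)
          (fderiv ℝ (geoField (g.coef a)) (Φ t x) (fderiv ℝ (Φ t) x w)) t) :=
  exists_flow (geoField (g.coef a)) ((chartAt E a).target ×ˢ (univ : Set E))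
    ((chartAt E a).open_target.prod isOpen_univ) (g.isMetricOn a).contDiffOn_geoField
    (st g m a (t₁, v)) ⟨cc_mem_target ha, mem_univ _⟩

theorem continuousAt_st (g : Metric E M) (m : M) (v : E) (a : M) (t₁ : ℝ)
    (ha : geo g m v t₁ ∈ (chartAt E a).source) :
    ContinuousAt (fun t => st g m a (t, v)) t₁ := by
  obtain ⟨h1, h2, -⟩ := (isGeodesic_geo g m v).eqn a t₁ (mem_univ _) ha
  exact h1.continuousAt.prodMk h2.continuousAt

theorem Good.local (g : Metric E M) (m : M) (v : E) (t₁ : ℝ) :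
    ∃ δ > 0, ∀ t₀ t, |t₀ - t₁| < δ → |t - t₁| < δ → Good g m v t₀ → Good g m v t := by
  set a := geo g m v t₁ with hadef
  have ha : geo g m v t₁ ∈ (chartAt E a).source := mem_chart_source E _
  obtain ⟨ε, hε, W, hWo, hxW, Φ, hΦ0, hΦ, hΦ1, -⟩ := exists_box g m v a t₁ ha
  have h1 : ∀ᶠ t in 𝓝 t₁, st g m a (t, v) ∈ W :=
    (continuousAt_st g m v a t₁ ha).eventually (hWo.mem_nhds hxW)
  have h2 : ∀ᶠ t in 𝓝 t₁, geo g m v t ∈ (chartAt E a).source :=
    evSource' ((isGeodesic_geo g m v).continuousAt t₁) ha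
  obtain ⟨δ, hδ, hball⟩ := Metric.eventually_nhds_iff.1 (h1.and h2)
  refine ⟨min δ (ε / 2), by (clear * - hδ hε; positivity), fun t₀ t ht₀ ht hgood => ?_⟩
  have h3 := hball (y := t₀) (by rw [Real.dist_eq]; exact lt_of_lt_of_le ht₀ (min_le_left _ _))
  have ht' : |t - t₀| < ε := by
    have e1 := lt_of_lt_of_le ht₀ (min_le_right _ _)
    have e2 := lt_of_lt_of_le ht (min_le_right _ _)
    have e3 : |t - t₀| ≤ |t - t₁| + |t₀ - t₁| := by
      have := abs_sub_le t t₁ t₀
      rw [abs_sub_comm t₁ t₀] at this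
      exact this
    linarith only [e1, e2, e3]
  have h4 : ContinuousAt (fun w : E => ((t₀, w) : ℝ × E)) v := by fun_prop
  have h5 : ∀ᶠ w in 𝓝 v, geo g m w t₀ ∈ (chartAt E a).source := by
    have h6 : ContinuousAt (fun w : E => geo g m w t₀) v :=
      ContinuousAt.comp (g := fun p : ℝ × E => geo g m p.2 p.1) hgood.1 h4
    exact h6.eventually ((chartAt E a).open_source.mem_nhds h3.2)
  have h7 : ContDiffAt ℝ 1 (fun w => st g m a (t₀, w)) v :=
    ContDiffAt.comp (g := st g m a) v (hgood.2 a h3.2) (contDiffAt_const.prodMk contDiffAt_id)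
  exact (Good.propagate hε hWo hΦ0 hΦ hΦ1 ht' h5 h7 h3.1).1

theorem st_zero (g : Metric E M) (m : M) (w : E) : st g m m (0, w) = (chartAt E m m, w) := by
  unfold st cc
  simp only [geo_zero]
  exact congrArg _ (deriv_geo g m w)

theorem Good.zero (g : Metric E M) (m : M) (v : E) : Good g m v 0 := by
  have ha : geo g m v 0 ∈ (chartAt E m).source := by
    rw [geo_zero]; exact mem_chart_source E m
  obtain ⟨ε, hε, W, hWo, hxW, Φ, hΦ0, hΦ, hΦ1, -⟩ := exists_box g m v m 0 ha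
  refine (Good.propagate hε hWo hΦ0 hΦ hΦ1 (t₀ := 0) (t := 0) (by simpa only [sub_self, abs_zero, gt_iff_lt] using hε) ?_ ?_ hxW).1
  · filter_upwards with w
    rw [geo_zero]; exact mem_chart_source E m
  · have : (fun w => st g m m (0, w)) = fun w => (chartAt E m m, w) := by
      funext w; exact st_zero g m w
    rw [this]
    exact contDiffAt_const.prodMk contDiffAt_id

theorem Good.all (g : Metric E M) (m : M) (v : E) (t : ℝ) : Good g m v t := by
  have hopen : IsOpen {t | Good g m v t} := by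
    rw [Metric.isOpen_iff]
    intro t₁ ht₁
    obtain ⟨δ, hδ, h⟩ := Good.local g m v t₁
    refine ⟨δ, hδ, fun t ht => ?_⟩
    rw [Metric.mem_ball, Real.dist_eq] at ht
    exact h t₁ t (by simpa only [sub_self, abs_zero, gt_iff_lt] using hδ) ht ht₁
  have hclosed : IsClosed {t | Good g m v t} := by
    rw [← isOpen_compl_iff, Metric.isOpen_iff]
    intro t₁ ht₁
    obtain ⟨δ, hδ, h⟩ := Good.local g m v t₁
    refine ⟨δ, hδ, fun t ht htg => ht₁ ?_⟩
    rw [Metric.mem_ball, Real.dist_eq] at ht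
    exact h t t₁ ht (by simpa only [sub_self, abs_zero, gt_iff_lt] using hδ) htg
  have : {t | Good g m v t} = univ :=
    IsClopen.eq_univ ⟨hclosed, hopen⟩ ⟨0, Good.zero g m v⟩
  have h : t ∈ {t | Good g m v t} := by rw [this]; exact mem_univ t
  exact h

/-- the exponential map -/
def expg (g : Metric E M) (m : M) (v : E) : M := geo g m v 1

theorem expg_smul (g : Metric E M) (m : M) (v : E) (t : ℝ) :
    expg g m (t • v) = geo g m v t := by
  unfold expg
  rw [geo_smul, mul_one]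

theorem expg_smul_fun (g : Metric E M) (m : M) (v : E) :
    (fun t : ℝ => expg g m (t • v)) = geo g m v := funext (expg_smul g m v)

theorem continuous_expg (g : Metric E M) (m : M) : Continuous (expg g m) := by
  rw [continuous_iff_continuousAt]
  intro v
  have h4 : ContinuousAt (fun w : E => (((1 : ℝ), w) : ℝ × E)) v := by fun_prop
  exact ContinuousAt.comp (g := fun p : ℝ × E => geo g m p.2 p.1) (Good.all g m v 1).1 h4

theorem contDiffAt_expg (g : Metric E M) (m : M) (v : E) (a : M)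
    (ha : expg g m v ∈ (chartAt E a).source) :
    ContDiffAt ℝ 1 (fun w => chartAt E a (expg g m w)) v := by
  have h := (Good.all g m v 1).2 a ha
  have h7 : ContDiffAt ℝ 1 (fun w => st g m a ((1 : ℝ), w)) v :=
    ContDiffAt.comp (g := st g m a) v h (contDiffAt_const.prodMk contDiffAt_id)
  exact h7.fst

/-- the variation field with its derivative -/
def var (g : Metric E M) (m : M) (v w : E) (a : M) (t : ℝ) : E × E :=
  fderiv ℝ (fun w' => st g m a (t, w')) v w

theorem contDiffAt_st (g : Metric E M) (m : M) (v : E) (a : M) (t : ℝ)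
    (ha : geo g m v t ∈ (chartAt E a).source) :
    ContDiffAt ℝ 1 (fun w' => st g m a (t, w')) v :=
  ContDiffAt.comp (g := st g m a) v ((Good.all g m v t).2 a ha)
    (contDiffAt_const.prodMk contDiffAt_id)

/-- the variation field solves the linearised geodesic equation -/
theorem hasDerivAt_var (g : Metric E M) (m : M) (v w : E) (a : M) (t : ℝ)
    (ha : geo g m v t ∈ (chartAt E a).source) :
    HasDerivAt (var g m v w a)
      (fderiv ℝ (geoField (g.coef a)) (st g m a (t, v)) (var g m v w a t)) t := by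
  obtain ⟨ε, hε, W, hWo, hxW, Φ, hΦ0, hΦ, hΦ1, hΦ2⟩ := exists_box g m v a t ha
  have hd := contDiffAt_st g m v a t ha
  have h1 : ∀ᶠ w' in 𝓝 v, geo g m w' t ∈ (chartAt E a).source := by
    have h4 : ContinuousAt (fun w : E => ((t, w) : ℝ × E)) v := by fun_prop
    have h6 : ContinuousAt (fun w : E => geo g m w t) v :=
      ContinuousAt.comp (g := fun p : ℝ × E => geo g m p.2 p.1) (Good.all g m v t).1 h4
    exact h6.eventually ((chartAt E a).open_source.mem_nhds ha)
  have h2 : ∀ᶠ w' in 𝓝 v, st g m a (t, w') ∈ W :=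
    hd.continuousAt.eventually (hWo.mem_nhds hxW)
  set x := st g m a (t, v) with hx
  have h3 : ∀ s, s - t ∈ Ioo (-ε) ε →
      var g m v w a s = fderiv ℝ (Φ (s - t)) x (var g m v w a t) := by
    intro s hs
    have e1 : (fun w' => st g m a (s, w')) =ᶠ[𝓝 v] fun w' => Φ (s - t) (st g m a (t, w')) := by
      filter_upwards [h1, h2] with w' hw1 hw2
      have := ((isGeodesic_geo g m w').flow hε hΦ0 hΦ hw1 hw2 hs).2
      rw [add_sub_cancel] at this
      exact this
    unfold var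
    rw [e1.fderiv_eq]
    have e2 : DifferentiableAt ℝ (Φ (s - t)) x := by
      have e3 : ContDiffAt ℝ 1 (fun p : ℝ × (E × E) => Φ p.1 p.2) (s - t, x) :=
        hΦ1.contDiffAt ((isOpen_Ioo.prod hWo).mem_nhds ⟨hs, hxW⟩)
      have e4 : ContDiffAt ℝ 1 (fun y => Φ (s - t) y) x :=
        ContDiffAt.comp (g := fun p : ℝ × (E × E) => Φ p.1 p.2) x e3
          (contDiffAt_const.prodMk contDiffAt_id)
      exact e4.differentiableAt (by simp)
    have e5 := (HasFDerivAt.comp v (hg := e2.hasFDerivAt)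
      (hf := (hd.differentiableAt (by simp)).hasFDerivAt)).fderiv
    have e6 : fderiv ℝ (fun w' => Φ (s - t) (st g m a (t, w'))) v
        = (fderiv ℝ (Φ (s - t)) x).comp (fderiv ℝ (fun w' => st g m a (t, w')) v) := e5
    rw [e6]
    rfl
  have h4 : var g m v w a =ᶠ[𝓝 t] fun s => fderiv ℝ (Φ (s - t)) x (var g m v w a t) := by
    have : ∀ᶠ s in 𝓝 t, s - t ∈ Ioo (-ε) ε := by
      have hc : ContinuousAt (fun s : ℝ => s - t) t := by fun_prop
      exact hc.eventually (isOpen_Ioo.mem_nhds (by simpa only [sub_self, mem_Ioo, Left.neg_neg_iff, and_self, gt_iff_lt] using hε))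
    filter_upwards [this] with s hs
    exact h3 s hs
  refine HasDerivAt.congr_of_eventuallyEq ?_ h4
  have h5 := hΦ2 x hxW (var g m v w a t) 0 (by simpa only [mem_Ioo, Left.neg_neg_iff, and_self, gt_iff_lt] using hε)
  have h6 : fderiv ℝ (Φ 0) x = ContinuousLinearMap.id ℝ (E × E) := by
    have : Φ 0 =ᶠ[𝓝 x] id := by
      filter_upwards [hWo.mem_nhds hxW] with y hy
      exact hΦ0 y hy
    rw [this.fderiv_eq]
    exact fderiv_id
  rw [h6, hΦ0 x hxW] at h5
  have h8 : HasDerivAt (fun s => fderiv ℝ (Φ s) x (var g m v w a t))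
      (fderiv ℝ (geoField (g.coef a)) x (var g m v w a t)) (t - t) := by
    rw [sub_self]; exact h5
  exact HasDerivAt.comp_sub_const t t h8

/-- the variation field through the exponential map -/
theorem fderiv_expg (g : Metric E M) (m : M) (v w : E) (a : M) (t : ℝ)
    (ha : geo g m v t ∈ (chartAt E a).source) :
    fderiv ℝ (fun x => chartAt E a (expg g m x)) (t • v) (t • w) = (var g m v w a t).1 := by
  have h1 : expg g m (t • v) ∈ (chartAt E a).source := by rw [expg_smul]; exact ha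
  have h2 := (contDiffAt_expg g m (t • v) a h1).differentiableAt (by simp)
  have h3 : HasFDerivAt (fun w' : E => t • w') (t • ContinuousLinearMap.id ℝ E) v :=
    (hasFDerivAt_id v).const_smul t
  have h4 := HasFDerivAt.comp v (hg := h2.hasFDerivAt) (hf := h3)
  have h5 : (fun w' => (st g m a (t, w')).1)
      = (fun x => chartAt E a (expg g m x)) ∘ fun w' : E => t • w' := by
    funext w'
    change chartAt E a (geo g m w' t) = chartAt E a (expg g m (t • w'))
    rw [expg_smul]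
  have h6 : HasFDerivAt (fun w' => (st g m a (t, w')).1)
      ((ContinuousLinearMap.fst ℝ E E).comp (fderiv ℝ (fun w' => st g m a (t, w')) v)) v :=
    (((contDiffAt_st g m v a t ha).differentiableAt (by simp)).hasFDerivAt).fst
  rw [h5] at h6
  have h7 := h4.unique h6
  have h8 := congrArg (fun L : E →L[ℝ] E => L w) h7
  simpa only [map_smul, var, ContinuousLinearMap.comp_smulₛₗ, Real.ringHom_apply, ContinuousLinearMap.comp_id,     smul_apply, ContinuousLinearMap.comp_apply, ContinuousLinearMap.coe_fst'] using h8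

/-- derivative of the exponential map in two charts -/
theorem fderiv_expg_trans (g : Metric E M) (m : M) (v : E) (a b : M)
    (ha : expg g m v ∈ (chartAt E a).source) (hb : expg g m v ∈ (chartAt E b).source) (w : E) :
    fderiv ℝ (fun x => chartAt E b (expg g m x)) v w
      = fderiv ℝ (trans E a b) (chartAt E a (expg g m v))
          (fderiv ℝ (fun x => chartAt E a (expg g m x)) v w) := by
  have h1 : ∀ᶠ x in 𝓝 v, expg g m x ∈ (chartAt E a).source :=
    (continuous_expg g m).continuousAt.eventually ((chartAt E a).open_source.mem_nhds ha)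
  have h2 : (fun x => chartAt E b (expg g m x)) =ᶠ[𝓝 v]
      (trans E a b) ∘ (fun x => chartAt E a (expg g m x)) := by
    filter_upwards [h1] with x hx
    simp only [Function.comp_apply, trans]
    rw [(chartAt E a).left_inv hx]
  rw [h2.fderiv_eq]
  have h3 := contDiffAt_trans' a b ((chartAt E a).map_source ha)
    (by rw [(chartAt E a).left_inv ha]; exact hb)
  rw [fderiv_comp v (h3.differentiableAt (by simp))
    ((contDiffAt_expg g m v a ha).differentiableAt (by simp))]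
  rfl

theorem isJacobi_expg (g : Metric E M) (m : M) (v w : E) :
    IsJacobi g (fun t => expg g m (t • v))
      (fun a t => fderiv ℝ (fun x => chartAt E a (expg g m x)) (t • v) (t • w)) := by
  refine ⟨?_, ?_⟩
  · intro a b t ha hb
    exact fderiv_expg_trans g m (t • v) a b ha hb (t • w)
  · intro a t ha
    rw [expg_smul_fun]
    have ha' : geo g m v t ∈ (chartAt E a).source := by rw [← expg_smul]; exact ha
    have hgeo := isGeodesic_geo g m v
    have hsrc : ∀ᶠ s in 𝓝 t, geo g m v s ∈ (chartAt E a).source :=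
      evSource' (hgeo.continuousAt t) ha'
    set J : ℝ → E := fun t => fderiv ℝ (fun x => chartAt E a (expg g m x)) (t • v) (t • w)
      with hJ
    set c : ℝ → E := cc (geo g m v) a with hc
    have hm := g.isMetricOn a
    -- values of the variation field
    have hv : ∀ s, geo g m v s ∈ (chartAt E a).source →
        HasDerivAt (fun s => (var g m v w a s).1) (var g m v w a s).2 s ∧
        HasDerivAt (fun s => (var g m v w a s).2)
          (-(fderiv ℝ (fun p => chris (g.coef a) p (deriv c s) (deriv c s)) (c s)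
              (var g m v w a s).1
            + (2 : ℝ) • chris (g.coef a) (c s) (deriv c s) (var g m v w a s).2)) s := by
      intro s hs
      have h1 := hasDerivAt_var g m v w a s hs
      have h2 : fderiv ℝ (geoField (g.coef a)) (st g m a (s, v)) (var g m v w a s)
          = ((var g m v w a s).2,
            -(fderiv ℝ (fun p => chris (g.coef a) p (deriv c s) (deriv c s)) (c s)
              (var g m v w a s).1
            + (2 : ℝ) • chris (g.coef a) (c s) (deriv c s) (var g m v w a s).2)) := by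
        have hu : c s ∈ (chartAt E a).target := cc_mem_target hs
        exact hm.fderiv_geoField hu (var g m v w a s).1 (var g m v w a s).2
      rw [h2] at h1
      exact ⟨(hasFDerivAt_fst (p := var g m v w a s)).comp_hasDerivAt s h1,
        (hasFDerivAt_snd (p := var g m v w a s)).comp_hasDerivAt s h1⟩
    have hJv : ∀ s, geo g m v s ∈ (chartAt E a).source → J s = (var g m v w a s).1 :=
      fun s hs => fderiv_expg g m v w a s hs
    have hJe : ∀ s, geo g m v s ∈ (chartAt E a).source →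
        J =ᶠ[𝓝 s] fun s => (var g m v w a s).1 := by
      intro s hs
      filter_upwards [evSource' (hgeo.continuousAt s) hs] with r hr
      exact hJv r hr
    have hJd : ∀ s, geo g m v s ∈ (chartAt E a).source →
        HasDerivAt J (var g m v w a s).2 s := fun s hs =>
      (hv s hs).1.congr_of_eventuallyEq (hJe s hs)
    have hJ'e : deriv J =ᶠ[𝓝 t] fun s => (var g m v w a s).2 := by
      filter_upwards [hsrc] with s hs
      exact (hJd s hs).deriv
    have hJ'' : HasDerivAt (deriv J)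
        (- (fderiv ℝ (fun p => chris (g.coef a) p (deriv c t) (deriv c t)) (c t) (J t)
          + (2 : ℝ) • chris (g.coef a) (c t) (deriv c t) (deriv J t))) t := by
      rw [hJv t ha', (hJd t ha').deriv]
      exact (hv t ha').2.congr_of_eventuallyEq hJ'e
    have hcev : ∀ᶠ s in 𝓝 t, DifferentiableAt ℝ c s ∧ DifferentiableAt ℝ (deriv c) s ∧
        deriv (deriv c) s = - chris (g.coef a) (c s) (deriv c s) (deriv c s) := by
      filter_upwards [hsrc] with s hs
      exact hgeo.eqn a s (mem_univ _) hs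
    have hJev : ∀ᶠ s in 𝓝 t, DifferentiableAt ℝ J s := by
      filter_upwards [hsrc] with s hs
      exact (hJd s hs).differentiableAt
    obtain ⟨h1, h2⟩ := hm.jacobi_of_linearized (cc_mem_target ha') hcev hJev hJ''
    exact ⟨(hJd t ha').differentiableAt, h1, h2⟩

theorem isExp_expg (g : Metric E M) : IsExp g (expg g) where
  zero m := by
    have h := expg_smul g m 0 0
    rw [zero_smul, geo_zero] at h
    exact h
  cont := continuous_expg g
  geod m v := by
    rw [expg_smul_fun]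
    exact isGeodesic_geo g m v
  init m v := by
    have h1 : (fun t : ℝ => chartAt E m (expg g m (t • v))) = cc (geo g m v) m := by
      funext t
      rw [expg_smul]
      rfl
    rw [h1]
    have h2 := ((isGeodesic_geo g m v).eqn m 0 (mem_univ _)
      (by rw [geo_zero]; exact mem_chart_source E m)).1.hasDerivAt
    rw [deriv_geo] at h2
    exact h2
  uniq γ hγ t := by
    rw [expg_smul]
    have h : γ = geo g (γ 0) (deriv (cc (E := E) γ (γ 0)) 0) := by
      apply IsGeodesic.ext hγ (isGeodesic_geo g _ _) (t₀ := 0) (a := γ 0)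
      · rw [geo_zero]
      · exact mem_chart_source E _
      · rw [deriv_geo]
    exact congrFun h t
  smooth m v a ha := contDiffAt_expg g m v a ha
  jac m v w := isJacobi_expg g m v w
  jac_init m v w := by
    have ha : geo g m v 0 ∈ (chartAt E m).source := by
      rw [geo_zero]; exact mem_chart_source E m
    have h1 := hasDerivAt_var g m v w m 0 ha
    have h0 : var g m v w m 0 = (0, w) := by
      unfold var
      have : (fun w' => st g m m (0, w')) = fun w' => (chartAt E m m, w') := by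
        funext w'; exact st_zero g m w'
      rw [this]
      have h2 : HasFDerivAt (fun w' : E => (chartAt E m m, w'))
          (((0 : E →L[ℝ] E)).prod (ContinuousLinearMap.id ℝ E)) v :=
        (hasFDerivAt_const _ _).prodMk (hasFDerivAt_id v)
      rw [h2.fderiv]
      simp only [ContinuousLinearMap.prod_apply, zero_apply, ContinuousLinearMap.id_apply]
    have h2 : HasDerivAt (fun s => (var g m v w m s).1) w 0 := by
      have h3 := (hasFDerivAt_fst (p := var g m v w m 0)).comp_hasDerivAt (0 : ℝ) h1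
      have h4 := (g.isMetricOn m).fderiv_geoField (u := cc (geo g m v) m 0)
        (v := deriv (cc (geo g m v) m) 0) (cc_mem_target ha) (var g m v w m 0).1
        (var g m v w m 0).2
      have h5 : fderiv ℝ (geoField (g.coef m)) (st g m m (0, v)) (var g m v w m 0)
          = fderiv ℝ (geoField (g.coef m)) (cc (geo g m v) m 0, deriv (cc (geo g m v) m) 0)
            ((var g m v w m 0).1, (var g m v w m 0).2) := rfl
      rw [h5, h4, h0] at h3
      exact h3
    refine h2.congr_of_eventuallyEq ?_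
    filter_upwards [evSource' ((isGeodesic_geo g m v).continuousAt 0) ha] with s hs
    exact fderiv_expg g m v w m s hs

theorem exists_isExp (g : Metric E M) : ∃ e, IsExp g e := ⟨expg g, isExp_expg g⟩

end Geo

end Vale.Agent.P255
end
end
end

section

section

/-!
# P255: Gauss lemma, non-degeneracy of `exp` without conjugate points, Rauch comparison
-/

open scoped Manifold ContDiff Topology
open Set Filter

set_option maxSynthPendingDepth 3

noncomputable section

namespace Vale.Agent.P255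

variable {E : Type} [NormedAddCommGroup E] [NormedSpace ℝ E] [FiniteDimensional ℝ E]
variable {M : Type} [TopologicalSpace M] [ChartedSpace E M] [IsManifold 𝓘(ℝ, E) ∞ M]

namespace IsExp

variable {g : Metric E M} {e : M → E → M}

omit [FiniteDimensional ℝ E] [IsManifold 𝓘(ℝ, E) ∞ M] in
theorem hasDerivAt_ray (he : IsExp g e) (m : M) (v : E) {a : M} {t : ℝ}
    (ha : e m (t • v) ∈ (chartAt E a).source) :
    HasDerivAt (fun s : ℝ => chartAt E a (e m (s • v)))
      (fderiv ℝ (fun x => chartAt E a (e m x)) (t • v) v) t := by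
  have h1 := ((he.smooth m (t • v) a ha).differentiableAt (by simp)).hasFDerivAt
  have h2 : HasDerivAt (fun s : ℝ => s • v) v t := by
    simpa using (hasDerivAt_id t).smul_const v
  exact h1.comp_hasDerivAt t h2

omit [FiniteDimensional ℝ E] [IsManifold 𝓘(ℝ, E) ∞ M] in
theorem vel_ray (he : IsExp g e) (m : M) (v : E) {a : M} {t : ℝ}
    (ha : e m (t • v) ∈ (chartAt E a).source) :
    vel (fun s : ℝ => e m (s • v)) a t = fderiv ℝ (fun x => chartAt E a (e m x)) (t • v) v :=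
  (he.hasDerivAt_ray m v ha).deriv

/-- Gauss lemma -/
theorem gauss (he : IsExp g e) (m : M) (v w : E) (a : M)
    (ha : e m v ∈ (chartAt E a).source) :
    g.coef a (chartAt E a (e m v)) (fderiv ℝ (fun x => chartAt E a (e m x)) v v)
      (fderiv ℝ (fun x => chartAt E a (e m x)) v w) = g.ip m v w := by
  set γ : ℝ → M := fun t => e m (t • v) with hγ
  set J : M → ℝ → E := fun a t => fderiv ℝ (fun x => chartAt E a (e m x)) (t • v) (t • w) with hJd
  have hgeo : IsGeodesic g γ := he.geod m v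
  have hJ : IsJacobi g γ J := he.jac m v w
  obtain ⟨α, β, hαβ⟩ := hJ.prod_vel hgeo
  have h0 : γ 0 = m := by simp [hγ, he.zero]
  have hm0 : γ 0 ∈ (chartAt E m).source := by rw [h0]; exact mem_chart_source E m
  have hJ0 : J m 0 = 0 := by simp only [hJd, map_smul, zero_smul]
  have hv0 : vel γ m 0 = v := (he.init m v).deriv
  have hα : α = 0 := by
    have h1 := (hαβ 0).1
    rw [prodF_eq g hJ.compat' hgeo.vel_compat hm0, hJ0] at h1
    simpa using h1.symm
  have hβ : β = g.ip m v w := by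
    have h1 := (hαβ 0).2
    have h2 := hgeo.eqn m 0 (mem_univ _) hm0
    have h3 := hasDerivAt_prodF g hgeo.continuous hJ.compat' hgeo.vel_compat hm0 h2.1
      (hJ.eqn m 0 hm0).1 h2.2.1
    rw [h1.unique h3, hgeo.covD_vel hm0, hv0]
    have h4 : covD (g.coef m) (cc γ m) (J m) 0 = w := by
      unfold covD
      rw [hJ0, (he.jac_init m v w).deriv]
      have := chrisB_apply (g.coef m) (cc γ m 0) (deriv (cc γ m) 0) 0
      rw [← this]; simp only [map_zero, add_zero]
    rw [h4, map_zero, add_zero, (g.isMetricOn' m).symm _ (cc_mem hm0)]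
    unfold Metric.ip cc
    rw [h0]
  have ha1 : γ 1 ∈ (chartAt E a).source := by simpa [hγ] using ha
  have h1 := (hαβ 1).1
  rw [prodF_eq g hJ.compat' hgeo.vel_compat ha1, hα, hβ, he.vel_ray m v ha1,
    (g.isMetricOn' a).symm _ (cc_mem ha1)] at h1
  simpa [hJd, hγ, cc] using h1

omit [FiniteDimensional ℝ E] [IsManifold 𝓘(ℝ, E) ∞ M] in
theorem injective_of_noConj (he : IsExp g e)
    (hg : NoConj g) (m : M) (v w : E) (a : M) (ha : e m v ∈ (chartAt E a).source)
    (h : fderiv ℝ (fun x => chartAt E a (e m x)) v w = 0) : w = 0 := by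
  set γ : ℝ → M := fun t => e m (t • v) with hγ
  set J : M → ℝ → E := fun a t => fderiv ℝ (fun x => chartAt E a (e m x)) (t • v) (t • w) with hJd
  have hgeo : IsGeodesic g γ := he.geod m v
  have hJ : IsJacobi g γ J := he.jac m v w
  have h0 : γ 0 = m := by simp [hγ, he.zero]
  have hm0 : γ 0 ∈ (chartAt E m).source := by rw [h0]; exact mem_chart_source E m
  have ha1 : γ 1 ∈ (chartAt E a).source := by simpa [hγ] using ha
  have hJ1 : J (γ 1) 1 = 0 := by
    rw [hJ.compat a (γ 1) 1 ha1 (mem_chart_source E _)]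
    have : J a 1 = 0 := by simpa only [hJd, map_smul, one_smul] using h
    rw [this, map_zero]
  have h1 := hg γ J hgeo hJ 0 1 (by norm_num) (by simp only [hJd, map_smul, zero_smul]) hJ1
  have h2 : (fun t => J m t) =ᶠ[𝓝 0] fun _ => 0 := by
    filter_upwards [eventually_mem_source hgeo.continuous.continuousAt hm0] with s hs
    exact h1 m s hs
  have h3 := (he.jac_init m v w).deriv
  have h4 : deriv (fun t => J m t) 0 = 0 := by rw [h2.deriv_eq]; simp
  rw [← h3]
  exact h4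

end IsExp

omit [IsManifold 𝓘(ℝ, E) ∞ M] in
theorem Npc.second_nonneg {g : Metric E M} (hg : Npc g) {γ : ℝ → M} (h : IsGeodesic g γ)
    {J : M → ℝ → E} (hJ : IsJacobi g γ J) (t : ℝ) :
    ∃ f'' : ℝ, HasDerivAt (deriv (prodF g γ J J)) f'' t ∧
      2 * g.coef (γ t) (cc γ (γ t) t) (covD (g.coef (γ t)) (cc γ (γ t)) (J (γ t)) t)
          (covD (g.coef (γ t)) (cc γ (γ t)) (J (γ t)) t) ≤ f'' := by
  have ha := mem_chart_source E (γ t)
  refine ⟨_, (hJ.deriv_sq h ha).2, ?_⟩
  have := hg (γ t) _ (cc_mem ha) (J (γ t) t) (deriv (cc γ (γ t)) t)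
  linarith

omit [FiniteDimensional ℝ E] [IsManifold 𝓘(ℝ, E) ∞ M] in
theorem prodF_nonneg (g : Metric E M) (γ : ℝ → M) (J : M → ℝ → E) (t : ℝ) :
    0 ≤ prodF g γ J J t :=
  (g.isMetricOn' (γ t)).nonneg (cc_mem (mem_chart_source E (γ t))) _

omit [IsManifold 𝓘(ℝ, E) ∞ M] in
/-- nonpositive curvature implies that there are no conjugate points -/
theorem noConj_of_npc {g : Metric E M} (hg : Npc g) : NoConj g := by
  have key : ∀ (γ : ℝ → M) (J : M → ℝ → E), IsGeodesic g γ → IsJacobi g γ J →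
    ∀ t₁ t₂ : ℝ, t₁ < t₂ → J (γ t₁) t₁ = 0 → J (γ t₂) t₂ = 0 →
    ∀ a t, γ t ∈ (chartAt E a).source → J a t = 0 := by
    intro γ J h hJ t₁ t₂ h12 h1 h2
    have hd1 : Differentiable ℝ (prodF g γ J J) := fun t =>
      (hJ.deriv_sq h (mem_chart_source E (γ t))).1.differentiableAt
    have hd2 : Differentiable ℝ (deriv (prodF g γ J J)) := fun t =>
      (hJ.deriv_sq h (mem_chart_source E (γ t))).2.differentiableAt
    have hconv : ConvexOn ℝ univ (prodF g γ J J) := by
      refine convexOn_univ_of_deriv2_nonneg hd1 hd2 (fun t => ?_)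
      obtain ⟨f'', h3, h4⟩ := hg.second_nonneg h hJ t
      have h5 := (g.isMetricOn' (γ t)).nonneg (cc_mem (mem_chart_source E (γ t)))
        (covD (g.coef (γ t)) (cc γ (γ t)) (J (γ t)) t)
      have h6 : (deriv^[2] (prodF g γ J J)) t = f'' := by
        simp only [Function.iterate_succ, Function.iterate_zero, Function.comp_apply, id]
        exact h3.deriv
      rw [h6]; linarith only [h4, h5]
    have hz1 : prodF g γ J J t₁ = 0 :=
      (prodF_self_eq_zero hJ.compat' (mem_chart_source E (γ t₁))).2 h1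
    have hz2 : prodF g γ J J t₂ = 0 :=
      (prodF_self_eq_zero hJ.compat' (mem_chart_source E (γ t₂))).2 h2
    have hzero : ∀ t ∈ Icc t₁ t₂, prodF g γ J J t = 0 := by
      intro t ht
      refine le_antisymm ?_ (prodF_nonneg g γ J t)
      have := hconv.le_max_of_mem_Icc (mem_univ t₁) (mem_univ t₂) ht
      simpa only [ge_iff_le, hz1, hz2, max_self] using this
    refine hJ.zero_of_eventually h (t₀ := (t₁ + t₂) / 2) ?_
    filter_upwards [Ioo_mem_nhds (show t₁ < (t₁ + t₂) / 2 by linarith only [h12])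
      (show (t₁ + t₂) / 2 < t₂ by linarith)] with x hx
    exact hzero x ⟨hx.1.le, hx.2.le⟩
  intro γ J h hJ t₁ t₂ h12 h1 h2
  rcases lt_or_gt_of_ne h12 with h3 | h3
  · exact key γ J h hJ t₁ t₂ h3 h1 h2
  · exact key γ J h hJ t₂ t₁ h3 h2 h1

omit [IsManifold 𝓘(ℝ, E) ∞ M] in
/-- Rauch comparison -/
theorem IsExp.rauch {g : Metric E M} {e : M → E → M} (he : IsExp g e) (hg : Npc g)
    (m : M) (v w : E) (a : M) (ha : e m v ∈ (chartAt E a).source) :
    g.ip m w w ≤ g.coef a (chartAt E a (e m v)) (fderiv ℝ (fun x => chartAt E a (e m x)) v w)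
      (fderiv ℝ (fun x => chartAt E a (e m x)) v w) := by
  set γ : ℝ → M := fun t => e m (t • v) with hγ
  set J : M → ℝ → E := fun a t => fderiv ℝ (fun x => chartAt E a (e m x)) (t • v) (t • w) with hJd
  have hgeo : IsGeodesic g γ := he.geod m v
  have hJ : IsJacobi g γ J := he.jac m v w
  have h0 : γ 0 = m := by simp only [hγ, zero_smul, he.zero]
  have hm0 : γ 0 ∈ (chartAt E m).source := by rw [h0]; exact mem_chart_source E m
  have hJ0 : J m 0 = 0 := by simp only [hJd, map_smul, zero_smul]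
  set f : ℝ → ℝ := prodF g γ J J with hf
  have hf1 : ∀ t, HasDerivAt f (deriv f t) t := fun t =>
    (hJ.deriv_sq hgeo (mem_chart_source E (γ t))).1.differentiableAt.hasDerivAt
  -- second derivative
  have hf2 : ∀ t, 0 < t → ∃ f'' : ℝ, HasDerivAt (deriv f) f'' t ∧
      0 ≤ f'' - 2 * deriv f t / t + 2 * f t / t ^ 2 := by
    intro t ht
    obtain ⟨f'', h1, h2⟩ := hg.second_nonneg hgeo hJ t
    refine ⟨f'', h1, ?_⟩
    have hm := g.isMetricOn' (γ t)
    have hat := mem_chart_source E (γ t)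
    have h3 := (hJ.deriv_sq hgeo hat).1.deriv
    set D := covD (g.coef (γ t)) (cc γ (γ t)) (J (γ t)) t with hD
    set G := g.coef (γ t) (cc γ (γ t) t) with hG
    have h4 : 0 ≤ G (D - t⁻¹ • J (γ t) t) (D - t⁻¹ • J (γ t) t) := hm.nonneg (cc_mem hat) _
    have h5 : G (J (γ t) t) D = G D (J (γ t) t) := hm.symm _ (cc_mem hat) _ _
    simp only [map_sub, map_smul, sub_apply, smul_apply, smul_eq_mul] at h4
    rw [h5] at h4
    have h6 : f t = G (J (γ t) t) (J (γ t) t) := rfl
    rw [← h6] at h4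
    have h7 : deriv f t = 2 * G D (J (γ t) t) := h3
    rw [h7]
    have h8 : 2 * (2 * G D (J (γ t) t)) / t = 4 * (t⁻¹ * G D (J (γ t) t)) := by
      field_simp; ring
    have h9 : 2 * f t / t ^ 2 = 2 * (t⁻¹ * (t⁻¹ * f t)) := by
      (clear * - ht; field_simp)
    rw [h8, h9]
    linarith only [h2, h4]
  -- limit of `f t / t^2`
  have hlim : Tendsto (fun t => f t / t ^ 2) (𝓝[>] 0) (𝓝 (g.ip m w w)) := by
    have h1 : Tendsto (fun t : ℝ => t⁻¹ • J m t) (𝓝[>] 0) (𝓝 w) := by
      have := (hasDerivAt_iff_tendsto_slope_zero.1 (he.jac_init m v w)).mono_left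
        (nhdsWithin_mono _ (fun x (hx : x ∈ Ioi (0 : ℝ)) => ne_of_gt hx))
      refine this.congr (fun t => ?_)
      simp [hJd]
    have h2 : Tendsto (fun t => g.coef m (cc γ m t)) (𝓝[>] 0) (𝓝 (g.ip m)) := by
      have h3 : ContinuousAt (fun t => g.coef m (cc γ m t)) 0 := by
        refine ContinuousAt.comp (g := g.coef m) (f := cc γ m) ?_ ?_
        · exact ((g.isMetricOn' m).contDiffAt (cc_mem hm0)).continuousAt
        · exact (hgeo.eqn m 0 (mem_univ _) hm0).1.continuousAt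
      have h4 : g.coef m (cc γ m 0) = g.ip m := by unfold cc Metric.ip; rw [h0]
      rw [← h4]
      exact h3.tendsto.mono_left nhdsWithin_le_nhds
    have h3 : Tendsto (fun t => g.coef m (cc γ m t) (t⁻¹ • J m t) (t⁻¹ • J m t)) (𝓝[>] 0)
        (𝓝 (g.ip m w w)) := by
      have h4 := (isBoundedBilinearMap_apply.continuous.tendsto (g.ip m, w)).comp
        (h2.prodMk_nhds h1)
      exact (isBoundedBilinearMap_apply.continuous.tendsto (g.ip m w, w)).comp
        (h4.prodMk_nhds h1)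
    refine h3.congr' ?_
    filter_upwards [self_mem_nhdsWithin, (eventually_mem_source hgeo.continuous.continuousAt
      hm0).filter_mono nhdsWithin_le_nhds] with t ht hs
    have ht' : t ≠ 0 := ne_of_gt ht
    have h4 : f t = g.coef m (cc γ m t) (J m t) (J m t) := prodF_eq g hJ.compat' hJ.compat' hs
    rw [h4]
    simp only [map_smul, smul_apply, smul_eq_mul]
    field_simp
  have hlim1 : Tendsto (fun t => deriv f t - 2 * (f t / t)) (𝓝[>] 0) (𝓝 0) := by
    have h1 : Tendsto (deriv f) (𝓝[>] 0) (𝓝 0) := by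
      have h2 : ContinuousAt (deriv f) 0 :=
        (hJ.deriv_sq hgeo (mem_chart_source E (γ 0))).2.continuousAt
      have h3 : deriv f 0 = 0 := by
        have := (hJ.deriv_sq hgeo hm0).1.deriv
        rw [hJ0] at this
        simpa using this
      have h4 : Tendsto (deriv f) (𝓝[>] 0) (𝓝 (deriv f 0)) :=
        h2.tendsto.mono_left nhdsWithin_le_nhds
      rwa [h3] at h4
    have h2 : Tendsto (fun t => t * (f t / t ^ 2)) (𝓝[>] 0) (𝓝 (0 * g.ip m w w)) := by
      refine Tendsto.mul ?_ hlim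
      exact (continuous_id.tendsto 0).mono_left nhdsWithin_le_nhds
    have h3 := h1.sub (h2.const_mul 2)
    simp only [zero_mul, mul_zero, sub_zero] at h3
    refine h3.congr' ?_
    filter_upwards [self_mem_nhdsWithin] with t ht
    have ht' : t ≠ 0 := ne_of_gt ht
    (clear * - ht'; field_simp)
  -- first monotonicity
  have hmono1 : MonotoneOn (fun t => deriv f t - 2 * (f t / t)) (Ioi 0) := by
    have key : ∀ t ∈ Ioi (0 : ℝ), ∃ d, 0 ≤ d ∧
        HasDerivAt (fun t => deriv f t - 2 * (f t / t)) d t := by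
      intro t ht
      have ht' : t ≠ 0 := ne_of_gt ht
      obtain ⟨f'', h1, h2⟩ := hf2 t ht
      refine ⟨_, h2, ?_⟩
      have h3 := h1.sub (((hf1 t).div (hasDerivAt_id t) ht').const_mul 2)
      refine h3.congr_deriv ?_
      simp only [id]
      field_simp
      ring
    refine monotoneOn_of_deriv_nonneg (convex_Ioi 0) ?_ ?_ ?_
    · intro t ht
      obtain ⟨d, _, hd⟩ := key t ht
      exact hd.continuousAt.continuousWithinAt
    · intro t ht
      rw [interior_Ioi] at ht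
      obtain ⟨d, _, hd⟩ := key t ht
      exact hd.differentiableAt.differentiableWithinAt
    · intro t ht
      rw [interior_Ioi] at ht
      obtain ⟨d, hd0, hd⟩ := key t ht
      rw [hd.deriv]; exact hd0
  have hk : ∀ t, 0 < t → 0 ≤ deriv f t - 2 * (f t / t) := by
    intro t ht
    refine le_of_tendsto hlim1 ?_
    filter_upwards [Ioo_mem_nhdsGT ht] with s hs
    exact hmono1 hs.1 ht hs.2.le
  have hmono2 : MonotoneOn (fun t => f t / t ^ 2) (Ioi 0) := by
    have key : ∀ t ∈ Ioi (0 : ℝ), ∃ d, 0 ≤ d ∧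
        HasDerivAt (fun t => f t / t ^ 2) d t := by
      intro t ht
      have ht' : t ≠ 0 := ne_of_gt ht
      refine ⟨(deriv f t - 2 * (f t / t)) / t ^ 2, div_nonneg (hk t ht) (by (clear * - ht'; positivity)), ?_⟩
      have h3 := (hf1 t).div (hasDerivAt_pow 2 t) (pow_ne_zero 2 ht')
      refine h3.congr_deriv ?_
      field_simp
      ring
    refine monotoneOn_of_deriv_nonneg (convex_Ioi 0) ?_ ?_ ?_
    · intro t ht
      obtain ⟨d, _, hd⟩ := key t ht
      exact hd.continuousAt.continuousWithinAt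
    · intro t ht
      rw [interior_Ioi] at ht
      obtain ⟨d, _, hd⟩ := key t ht
      exact hd.differentiableAt.differentiableWithinAt
    · intro t ht
      rw [interior_Ioi] at ht
      obtain ⟨d, hd0, hd⟩ := key t ht
      rw [hd.deriv]; exact hd0
  have hfin : g.ip m w w ≤ f 1 := by
    have : g.ip m w w ≤ f 1 / 1 ^ 2 := by
      refine le_of_tendsto hlim ?_
      filter_upwards [Ioo_mem_nhdsGT (zero_lt_one (α := ℝ))] with s hs
      exact hmono2 hs.1 (mem_Ioi.2 zero_lt_one) hs.2.le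
    simpa only [ge_iff_le, one_pow, div_one] using this
  have ha1 : γ 1 ∈ (chartAt E a).source := by simpa only [hγ, one_smul] using ha
  have h1 : f 1 = g.coef a (cc γ a 1) (J a 1) (J a 1) := prodF_eq g hJ.compat' hJ.compat' ha1
  rw [h1] at hfin
  simpa only [ge_iff_le, cc, hγ, one_smul, hJd, map_smul] using hfin

end Vale.Agent.P255
end
end
end

section

section

/-!
# P255: obstruction to nonpositive curvature, closed geodesics without conjugate points
-/

open scoped Manifold ContDiff Topology unitInterval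
open Set Filter

noncomputable section

namespace Vale.Agent.P255

variable {E : Type} [NormedAddCommGroup E] [NormedSpace ℝ E] [FiniteDimensional ℝ E]
variable {M : Type} [TopologicalSpace M] [ChartedSpace E M] [IsManifold 𝓘(ℝ, E) ∞ M]
variable {g : Metric E M} {e : M → E → M}

theorem IsExp.gaussAt (he : IsExp g e) (m : M) : GaussAt g e m := fun v w a ha =>
  he.gauss m v w a ha

theorem IsExp.injAt (he : IsExp g e) (hg : NoConj g) (m : M) : InjAt E e m := fun v w a ha h =>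
  he.injective_of_noConj hg m v w a ha h

theorem IsExp.rauchAt (he : IsExp g e) (hg : Npc g) (m : M) : RauchAt g e m := fun v w a ha =>
  he.rauch hg m v w a ha

/-- closed geodesics of a metric without conjugate points are not null-homotopic -/
theorem IsExp.closed_geodesic_not_null_of_noConj [T2Space M] (he : IsExp g e) (hg : NoConj g)
    {γ : ℝ → M} (hγ : IsGeodesic g γ) (hne : ∃ t, γ t ≠ γ 0) (c : Path (γ 0) (γ 0))
    (hc : ∀ t : I, c t = γ t) : ¬ c.Homotopic (Path.refl (γ 0)) :=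
  he.closed_geodesic_not_null hγ (he.gaussAt _) (he.injAt hg _) hne c hc

theorem IsExp.obstruction_of_npc [CompactSpace M] [T2Space M] (he : IsExp g e) (hg : Npc g)
    (m₀ : M) (z z' A₁ A₂ B₁ B₂ : FundamentalGroup M m₀)
    (hzA₁ : Commute z A₁) (hzA₂ : Commute z A₂) (hA : A₁ * A₂ * A₁⁻¹ * A₂⁻¹ = z')
    (hzB₁ : Commute z' B₁) (hzB₂ : Commute z' B₂) (hB : B₁ * B₂ * B₁⁻¹ * B₂⁻¹ = z * z'⁻¹) :
    z' = 1 :=
  he.obstruction he.gaussAt (he.rauchAt hg) m₀ z z' A₁ A₂ B₁ B₂ hzA₁ hzA₂ hA hzB₁ hzB₂ hB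

end Vale.Agent.P255
end
end
end

section

section

/-!
# P255: if the explicit metric `g0` has no conjugate points, then the glued manifold
carries no metric of nonpositive curvature
-/

open scoped Manifold ContDiff Topology unitInterval
open Set

noncomputable section

namespace Vale.Agent.P255

theorem circ_zero (δ : ℝ) (hδ : 0 < δ) : circ δ hδ 0 = m0 δ hδ := by
  unfold circ m0
  congr 1
  apply Subtype.ext
  simp [circPt]

theorem circ_half_ne (δ : ℝ) (hδ : 0 < δ) : circ δ hδ (1 / 2) ≠ circ δ hδ 0 := by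
  intro h
  have h1 := ((Sd δ hδ).proj_eq_proj _ _).1 h
  obtain ⟨-, -, n, hn⟩ : rel δ (.C, circPt (1 / 2)) (.C, circPt 0) := h1
  simp only [circPt, PiLp.toLp_apply] at hn
  simp only [mul_zero, Fin.isValue, Matrix.cons_val, one_div, zero_sub] at hn
  have hpi := Real.pi_pos
  have h2 : (2 * (n : ℝ)) = -1 := by
    have : Real.pi * (2 * (n : ℝ)) = Real.pi * (-1) := by linarith only [hn]
    exact mul_left_cancel₀ hpi.ne' this
  have h3 : (2 * n : ℤ) = -1 := by exact_mod_cast h2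
  omega

theorem homotopic_cast_aux {X : Type} [TopologicalSpace X] {x x' : X} (h : x' = x)
    {p q : Path x x} (hpq : p.Homotopic q) : (p.cast h h).Homotopic (q.cast h h) := by
  subst h; exact hpq

/-- the relations hold and `z'` is nontrivial -/
theorem not_npc (δ : ℝ) (hδ : 0 < δ) (hNC : NoConj (g0 δ hδ))
    (g : Metric E3 (Sd δ hδ).Space) : ¬ Npc g := by
  intro hg
  obtain ⟨z, z', A₁, A₂, B₁, B₂, h1, h2, h3, h4, h5, h6, h7⟩ := pi1_relations δ hδ
  obtain ⟨e, he⟩ := exists_isExp g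
  have hz' := he.obstruction_of_npc hg (m0 δ hδ) z z' A₁ A₂ B₁ B₂ h1 h2 h3 h4 h5 h6
  obtain ⟨γ, hγ, hγ'⟩ := h7 hz'
  obtain ⟨e₀, he₀⟩ := exists_isExp (g0 δ hδ)
  have h8 := circ_zero δ hδ
  have key := he₀.closed_geodesic_not_null_of_noConj hNC (isGeodesic_circ hδ)
    ⟨1 / 2, circ_half_ne δ hδ⟩ (γ.cast h8 h8) (fun t => by
      rw [Path.cast_coe, hγ' t]; rfl)
  apply key
  have h9 : (Path.refl (m0 δ hδ)).cast h8 h8 = Path.refl (circ δ hδ 0) := by
    ext t
    simp [h8]
  rw [← h9]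
  exact homotopic_cast_aux h8 hγ

end Vale.Agent.P255
end
end
end

section

section

/-!
# P255: the Jacobi equation as linearised geodesic equation, and its momentum form
-/

open scoped Manifold ContDiff Topology
open Set

set_option maxSynthPendingDepth 3

noncomputable section

namespace Vale.Agent.P255

variable {E : Type} [NormedAddCommGroup E] [NormedSpace ℝ E] [FiniteDimensional ℝ E]

namespace IsMetricOn

variable {G : E → E →L[ℝ] E →L[ℝ] ℝ} {U : Set E} (h : IsMetricOn G U)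
include h

/-- a Jacobi field solves the linearised geodesic equation -/
theorem linearized_of_jacobi {c J : ℝ → E} {t : ℝ} (ht : c t ∈ U)
    (hc0 : DifferentiableAt ℝ c t) (hc1 : DifferentiableAt ℝ (deriv c) t)
    (hc2 : deriv (deriv c) t = - chris G (c t) (deriv c t) (deriv c t))
    (hJ0 : DifferentiableAt ℝ J t)
    (hJ1 : DifferentiableAt ℝ (covD G c J) t)
    (hJ2 : covD G c (covD G c J) t + curv G (c t) (J t) (deriv c t) (deriv c t) = 0) :
    HasDerivAt (deriv J) (- (fderiv ℝ (fun p => chris G p (deriv c t) (deriv c t)) (c t) (J t)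
      + (2 : ℝ) • chris G (c t) (deriv c t) (deriv J t))) t := by
  have hB : HasDerivAt (fun s => chrisB G (c s)) (fderiv ℝ (chrisB G) (c t) (deriv c t)) t :=
    (h.differentiableAt_chrisB ht).hasFDerivAt.comp_hasDerivAt t hc0.hasDerivAt
  have e : deriv J = (covD G c J - fun s => chrisB G (c s) (deriv c s) (J s)) := by
    funext s; simp only [covD, Pi.sub_apply, chrisB_apply]; abel
  have hA := hJ1.hasDerivAt.sub ((hB.clm_apply hc1.hasDerivAt).clm_apply hJ0.hasDerivAt)
  rw [← e] at hA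
  refine hA.congr_deriv ?_
  have e2 : deriv (covD G c J) t = - chrisB G (c t) (deriv c t) (covD G c J t)
      - curv G (c t) (J t) (deriv c t) (deriv c t) := by
    have : covD G c (covD G c J) t = deriv (covD G c J) t
        + chrisB G (c t) (deriv c t) (covD G c J t) := by
      simp only [covD, chrisB_apply]
    rw [this] at hJ2
    rw [eq_sub_iff_add_eq, eq_neg_iff_add_eq_zero, ← hJ2]
    abel
  rw [e2, h.curv_eq ht, h.fderiv_chris ht, hc2]
  simp only [covD, map_add, chrisB_apply, map_neg, add_apply, neg_apply]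
  have s1 : fderiv ℝ (chrisB G) (c t) (deriv c t) (J t) (deriv c t)
      = fderiv ℝ (chrisB G) (c t) (deriv c t) (deriv c t) (J t) := by
    rw [← h.fderiv_chris ht, ← h.fderiv_chris ht]
    have : (fun p => chris G p (J t) (deriv c t)) =ᶠ[𝓝 (c t)]
        fun p => chris G p (deriv c t) (J t) := by
      filter_upwards [h.mem_nhds ht] with p hp using h.chris_symm hp _ _
    rw [this.fderiv_eq]
  rw [s1, h.chris_symm ht (J t) (chris G (c t) (deriv c t) (deriv c t)),
    h.chris_symm ht (J t) (deriv c t), two_smul]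
  abel

/-- momentum (linearised Euler-Lagrange) form of the Jacobi equation -/
theorem hasDerivAt_linMomentum {c J : ℝ → E} {t : ℝ} (ht : c t ∈ U)
    (hc0 : DifferentiableAt ℝ c t) (hc1 : DifferentiableAt ℝ (deriv c) t)
    (hc2 : deriv (deriv c) t = - chris G (c t) (deriv c t) (deriv c t))
    (hJ0 : DifferentiableAt ℝ J t)
    (hJ1 : HasDerivAt (deriv J) (- (fderiv ℝ (fun p => chris G p (deriv c t) (deriv c t)) (c t)
      (J t) + (2 : ℝ) • chris G (c t) (deriv c t) (deriv J t))) t) (z : E) :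
    HasDerivAt (fun s => G (c s) (deriv J s) z + fderiv ℝ G (c s) (J s) (deriv c s) z)
      ((1 / 2 : ℝ) * fderiv ℝ (fun p => fderiv ℝ G p z (deriv c t) (deriv c t)) (c t) (J t)
        + fderiv ℝ G (c t) z (deriv c t) (deriv J t)) t := by
  have hG := h.hasDerivAt_coef ht hc0
  have hD : DifferentiableAt ℝ (fderiv ℝ G) (c t) :=
    (h.contDiffAt_fderiv ht).differentiableAt (by simp)
  have hDG : HasDerivAt (fun s => fderiv ℝ G (c s)) (fderiv ℝ (fderiv ℝ G) (c t) (deriv c t)) t :=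
    hD.hasFDerivAt.comp_hasDerivAt t hc0.hasDerivAt
  have h1 := (hG.clm_apply hJ1).clm_apply (hasDerivAt_const t z)
  have h2 := ((hDG.clm_apply hJ0.hasDerivAt).clm_apply hc1.hasDerivAt).clm_apply
    (hasDerivAt_const t z)
  refine (h1.fun_add h2).congr_deriv ?_
  -- the derivative of the Christoffel identity in the direction `J`
  set v := deriv c t with hv
  have hsym : ∀ a b x y, fderiv ℝ (fderiv ℝ G) (c t) a b x y
      = fderiv ℝ (fderiv ℝ G) (c t) b a x y := by
    intro a b x y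
    have := ((h.contDiffAt ht).isSymmSndFDerivAt (by simpa only [minSmoothness_of_isRCLikeNormedField] using two_le_infty)) a b
    rw [this]
  have key : G (c t) (fderiv ℝ (fun p => chris G p v v) (c t) (J t)) z
      + fderiv ℝ G (c t) (J t) (chris G (c t) v v) z
      = fderiv ℝ (fderiv ℝ G) (c t) (J t) v v z
        - (1 / 2 : ℝ) * fderiv ℝ (fderiv ℝ G) (c t) (J t) z v v := by
    have e1 : (fun p => G p (chris G p v v) z + G p (chris G p v v) z) =ᶠ[𝓝 (c t)]
        fun p => fderiv ℝ G p v v z + fderiv ℝ G p v v z - fderiv ℝ G p z v v := by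
      filter_upwards [h.mem_nhds ht] with p hp
      rw [h.chris_spec hp v v z]; ring
    have dch : DifferentiableAt ℝ (fun p => chris G p v v) (c t) :=
      (h.contDiffAt_chris ht v v).differentiableAt (by simp)
    have l1 := ((h.differentiableAt ht).hasFDerivAt.clm_apply dch.hasFDerivAt).clm_apply
      (hasFDerivAt_const z (c t))
    have d3 : ∀ a b d, DifferentiableAt ℝ (fun p => fderiv ℝ G p a b d) (c t) := fun a b d =>
      (((hD.hasFDerivAt.clm_apply (hasFDerivAt_const a (c t))).clm_apply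
        (hasFDerivAt_const b (c t))).clm_apply (hasFDerivAt_const d (c t))).differentiableAt
    have d4 : ∀ a b d, fderiv ℝ (fun p => fderiv ℝ G p a b d) (c t) (J t)
        = fderiv ℝ (fderiv ℝ G) (c t) (J t) a b d := by
      intro a b d
      have := ((hD.hasFDerivAt.clm_apply (hasFDerivAt_const a (c t))).clm_apply
        (hasFDerivAt_const b (c t))).clm_apply (hasFDerivAt_const d (c t))
      rw [this.fderiv]; simp
    have l2 := ((d3 v v z).hasFDerivAt.fun_add (d3 v v z).hasFDerivAt).fun_sub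
      (d3 z v v).hasFDerivAt
    have e3 := e1.fderiv_eq (𝕜 := ℝ)
    rw [(l1.fun_add l1).fderiv, l2.fderiv] at e3
    have e4 := congrArg (fun L : E →L[ℝ] ℝ => L (J t)) e3
    simp only [ContinuousLinearMap.comp_zero, ContinuousLinearMap.flip_add, add_apply, zero_add, ContinuousLinearMap.flip_apply, ContinuousLinearMap.comp_apply, sub_apply, d4] at e4
    linarith
  have e5 : fderiv ℝ (fun p => fderiv ℝ G p z v v) (c t) (J t)
      = fderiv ℝ (fderiv ℝ G) (c t) (J t) z v v := by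
    have := ((hD.hasFDerivAt.clm_apply (hasFDerivAt_const z (c t))).clm_apply
        (hasFDerivAt_const v (c t))).clm_apply (hasFDerivAt_const v (c t))
    rw [this.fderiv]
    simp only [ContinuousLinearMap.comp_zero, zero_add, ContinuousLinearMap.flip_apply]
  have e6 := h.chris_spec ht v (deriv J t) z
  rw [e5, hc2]
  simp only [map_neg, map_add, map_smul, neg_apply, add_apply, smul_apply, smul_eq_mul, map_zero]
  rw [hsym v (J t) v z, e6]
  have s3 := h.fderiv_symm ht z v (deriv J t)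
  linarith

end IsMetricOn

end Vale.Agent.P255
end
end
end

section

section

/-!
# P255: the pointwise algebraic inequalities behind (K1), (K2), (K3)
-/

namespace Vale.Agent.P255

/-- The standing assumptions at one time. `i = 1/φ`, `k = 1/χ`, `α = -φ'`, `α2 = φ''`, `β = χ'`,
`β2 = χ''`, `s = δσ`, `s1 = δσ'`, `s2 = δσ''`. -/
structure PW (C δ α α2 β β2 s s1 s2 φ i k : ℝ) : Prop where
  hC : 1 ≤ C
  hδ0 : 0 < δ
  hδ : 10 ^ 6 * C ^ 2 * δ ≤ 1
  hα0 : 0 ≤ α
  hα : α ≤ 1 / 2
  hα2 : 2 * α ≤ α2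
  hβ0 : 0 ≤ β
  hβ : 2 * β ≤ δ
  hβ2 : 2 * β ≤ β2
  hs0 : 0 ≤ s
  hs : s ≤ δ
  hsβ : s ≤ C * β
  hs1 : |s1| ≤ C * α * β
  hs2 : |s2| ≤ C * α * β
  hi0 : 1 / 2 ≤ i
  hi1 : i ≤ 1
  hk0 : 1 / 2 ≤ k
  hk1 : k ≤ 1
  hφ0 : 0 ≤ φ
  hφ1 : φ ≤ 2

variable {C δ α α2 β β2 s s1 s2 φ i k : ℝ}

theorem PW.δ_small (h : PW C δ α α2 β β2 s s1 s2 φ i k) : δ ≤ 1 / 10 ^ 6 := by
  have h1 := h.hδ
  have h2 : (1 : ℝ) ≤ C ^ 2 := by nlinarith only [h.hC]
  (by_contra nlg; linarith [mul_nonneg (le_of_lt (sub_pos.2 (not_le.1 nlg))) (sub_nonneg.2 h2), mul_nonneg (mul_self_nonneg (1 : ℝ)) (sub_nonneg.2 h2), mul_nonneg (mul_self_nonneg (1 : ℝ)) (sub_nonneg.2 h1)])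

theorem PW.Cδ_small (h : PW C δ α α2 β β2 s s1 s2 φ i k) : C * δ ≤ 1 / 10 ^ 6 := by
  have h1 := h.hδ
  have h2 : C ≤ C ^ 2 := by (by_contra nlg; linarith only [nlg, mul_pos (sub_pos.2 (not_le.1 nlg)) (sub_pos.2 (not_le.1 nlg)), mul_nonneg (sq_nonneg (C : ℝ)) (sub_nonneg.2 h.hC), mul_nonneg (sq_nonneg (C : ℝ)) (le_of_lt (sub_pos.2 (not_le.1 nlg)))])
  linarith [mul_nonneg (sub_nonneg.2 h2) (le_of_lt (sub_pos.2 h.hδ0)), mul_nonneg (mul_self_nonneg (1 : ℝ)) (sub_nonneg.2 h1)]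

/-- The basic cross term. -/
theorem PW.cross (h : PW C δ α α2 β β2 s s1 s2 φ i k) (u w : ℝ) :
    C * α * β * |w * u| ≤ (α * w ^ 2 + β * u ^ 2) / 1000 := by
  have hC := h.hC
  have e1 : |w * u| = |w| * |u| := abs_mul w u
  have e2 : |w| ^ 2 = w ^ 2 := sq_abs w
  have e3 : |u| ^ 2 = u ^ 2 := sq_abs u
  set W := |w| with hW
  set U := |u| with hU
  rw [e1, ← e2, ← e3]
  have hW0 : 0 ≤ W := abs_nonneg w
  have hU0 : 0 ≤ U := abs_nonneg u
  -- α (W/1000 ... )
  have k1 : C * β * (W * U) ≤ W ^ 2 / 2000 + 500 * C ^ 2 * β ^ 2 * U ^ 2 := by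
    linarith only [sq_nonneg (W - 1000 * (C * β * U))]
  have k2 : 500 * C ^ 2 * β ^ 2 * U ^ 2 ≤ β * U ^ 2 / 2000 := by
    have : 500 * C ^ 2 * β ≤ 1 / 2000 := by
      have h1 := h.hδ
      have h2 := h.hβ
      have h3 : 0 ≤ C ^ 2 := sq_nonneg C
      nlinarith only [h1, h2]
    have h4 : 0 ≤ β * U ^ 2 := mul_nonneg h.hβ0 (sq_nonneg U)
    linarith only [mul_nonneg (sub_nonneg.2 this) (sub_nonneg.2 h4)]
  have k3 := mul_le_mul_of_nonneg_left (k1.trans (add_le_add_right k2 _)) h.hα0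
  have k4 : α * (β * U ^ 2) ≤ β * U ^ 2 := by
    have h4 : 0 ≤ β * U ^ 2 := mul_nonneg h.hβ0 (sq_nonneg U)
    linarith only [mul_nonneg (sub_nonneg.2 h4) (sub_nonneg.2 h.hα), mul_nonneg (mul_self_nonneg (1 : ℝ)) (sub_nonneg.2 h4)]
  have k5 : 0 ≤ α * W ^ 2 := mul_nonneg h.hα0 (sq_nonneg W)
  have k6 : 0 ≤ β * U ^ 2 := mul_nonneg h.hβ0 (sq_nonneg U)
  linarith only [k6, k5, k4, k3]

/-- bound of a product with a factor bounded by `C α β`. -/
theorem PW.cross1 (h : PW C δ α α2 β β2 s s1 s2 φ i k) (u w : ℝ) {ρ : ℝ}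
    (hρ : |ρ| ≤ C * α * β) : |ρ * (w * u)| ≤ (α * w ^ 2 + β * u ^ 2) / 1000 := by
  rw [abs_mul]
  exact (mul_le_mul_of_nonneg_right hρ (abs_nonneg _)).trans (h.cross u w)

/-- `X`. -/
theorem PW.X_le (h : PW C δ α α2 β β2 s s1 s2 φ i k) (u w : ℝ) :
    |s1 * φ * k * u * w| ≤ (α * w ^ 2 + β * u ^ 2) / 500 := by
  have h1 := h.cross1 u w h.hs1
  have h2 : s1 * φ * k * u * w = φ * k * (s1 * (w * u)) := by ring
  have h3 : φ * k ≤ 2 := by nlinarith only [h.hφ1, h.hk0, h.hk1]
  have h4 : 0 ≤ φ * k := mul_nonneg h.hφ0 (by linarith only [h.hk0])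
  rw [h2, abs_mul, abs_of_nonneg h4]
  linarith only [mul_nonneg (sub_nonneg.2 h3) (sub_nonneg.2 (abs_nonneg (s1 * (w * u)))), h1]

/-- `Z`. -/
theorem PW.Z_le (h : PW C δ α α2 β β2 s s1 s2 φ i k) (u w : ℝ) :
    |2 * s1 ^ 2 * φ ^ 2 * k ^ 2 * w ^ 2 + 8 * s1 * β * φ * k ^ 2 * w * u
      - 2 * s2 * φ * k * w * u| ≤ (α * w ^ 2 + β * u ^ 2) / 100 := by
  have h1 := abs_le.1 (h.cross1 u w h.hs1)
  have h2 := abs_le.1 (h.cross1 u w h.hs2)
  have hβ := h.hβ
  have hβ0 := h.hβ0
  have hδ := h.δ_small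
  have hk0 := h.hk0
  have hk1 := h.hk1
  have hφ0 := h.hφ0
  have hφ1 := h.hφ1
  have e0 : 0 ≤ α * w ^ 2 := mul_nonneg h.hα0 (sq_nonneg w)
  have e1 : 0 ≤ β * u ^ 2 := mul_nonneg h.hβ0 (sq_nonneg u)
  set E := α * w ^ 2 + β * u ^ 2 with hE
  -- first term
  have f1 : 0 ≤ 2 * s1 ^ 2 * φ ^ 2 * k ^ 2 * w ^ 2 ∧ 2 * s1 ^ 2 * φ ^ 2 * k ^ 2 * w ^ 2 ≤ E / 1000 := by
    refine ⟨by (clear * - hk0; positivity), ?_⟩
    have g1 : s1 ^ 2 ≤ (C * α * β) ^ 2 := by
      rw [← sq_abs]; exact pow_le_pow_left₀ (abs_nonneg _) h.hs1 2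
    have g2 : (C * α * β) ^ 2 ≤ α / 10 ^ 6 := by
      have q1 : C * β ≤ 1 / 10 ^ 6 := by
        have := h.Cδ_small
        have hC := h.hC
        nlinarith only [hβ, this, hC]
      have q2 : 0 ≤ C * β := mul_nonneg (by linarith only [h.hC]) hβ0
      have q3 : (C * β) ^ 2 ≤ 1 / 10 ^ 6 := by nlinarith only [q1, q2]
      have q4 : α ^ 2 ≤ α := by nlinarith only [h.hα0, h.hα]
      have q5 : (C * α * β) ^ 2 = α ^ 2 * (C * β) ^ 2 := by ring
      rw [q5]
      have q6 : 0 ≤ α ^ 2 := sq_nonneg α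
      have q7 : 0 ≤ (C * β) ^ 2 := sq_nonneg _
      nlinarith only [q4, q3]
    have g3 : φ ^ 2 * k ^ 2 ≤ 4 := by
      have : φ * k ≤ 2 := by nlinarith only [hk1, hφ1, hk0]
      have : 0 ≤ φ * k := by (clear * - hφ0 hk0; positivity)
      (clear u w hβ hβ0 hδ e0 e1 E h1 h2 hE g1 g2; nlinarith)
    have g4 : s1 ^ 2 * (φ ^ 2 * k ^ 2) ≤ α / 10 ^ 6 * 4 :=
      mul_le_mul (g1.trans g2) g3 (by (clear * - hk0; positivity)) (by have := h.hα0; (clear * - this; positivity))
    have g5 := mul_le_mul_of_nonneg_right g4 (sq_nonneg w)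
    linarith only [g5, e1, e0]
  -- second term
  have f2 : |8 * s1 * β * φ * k ^ 2 * w * u| ≤ E / 1000 := by
    have : 8 * s1 * β * φ * k ^ 2 * w * u = (8 * β * φ * k ^ 2) * (s1 * (w * u)) := by ring
    rw [this, abs_mul, abs_of_nonneg (by (clear * - hβ0 hφ0 hk0; positivity) : (0 : ℝ) ≤ 8 * β * φ * k ^ 2)]
    have g1 : 8 * β * φ * k ^ 2 ≤ 1 := by
      have q1 : φ * k ^ 2 ≤ 2 := by nlinarith only [hk1, hφ1, hk0]
      have q2 : 0 ≤ φ * k ^ 2 := by (clear * - hφ0 hk0; positivity)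
      nlinarith only [hβ, hδ, hβ0, q1]
    have g2 := h.cross1 u w h.hs1
    have g3 := abs_nonneg (s1 * (w * u))
    linarith only [mul_nonneg (sub_nonneg.2 g1) (sub_nonneg.2 g3), g2]
  -- third term
  have f3 : |2 * s2 * φ * k * w * u| ≤ E / 250 := by
    have : 2 * s2 * φ * k * w * u = (2 * φ * k) * (s2 * (w * u)) := by ring
    rw [this, abs_mul, abs_of_nonneg (by (clear * - hφ0 hk0; positivity) : (0 : ℝ) ≤ 2 * φ * k)]
    have g1 : 2 * φ * k ≤ 4 := by nlinarith only [hk1, hφ1, hk0]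
    have g2 := h.cross1 u w h.hs2
    have g3 := abs_nonneg (s2 * (w * u))
    linarith only [mul_nonneg (sub_nonneg.2 g1) (sub_nonneg.2 g3), g2]
  have f2' := abs_le.1 f2
  have f3' := abs_le.1 f3
  rw [abs_le]
  constructor <;> linarith only [f1, f2', f3']

/-- (K1). -/
theorem PW.k1 (h : PW C δ α α2 β β2 s s1 s2 φ i k) (u w : ℝ) :
    2 * w ^ 2 * (3 * α ^ 2 * i ^ 2 - α2 * i) + u ^ 2 * (6 * β ^ 2 * k ^ 2 - 2 * β2 * k) +
      (2 * s1 ^ 2 * φ ^ 2 * k ^ 2 * w ^ 2 + 8 * s1 * β * φ * k ^ 2 * w * u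
      - 2 * s2 * φ * k * w * u) ≤ -(α * w ^ 2 + β * u ^ 2) / 4 := by
  have hZ := (abs_le.1 (h.Z_le u w)).2
  have e0 : 0 ≤ α * w ^ 2 := mul_nonneg h.hα0 (sq_nonneg w)
  have e1 : 0 ≤ β * u ^ 2 := mul_nonneg h.hβ0 (sq_nonneg u)
  have hα0 := h.hα0
  have hα := h.hα
  have hi0 := h.hi0
  have hi1 := h.hi1
  have hk0 := h.hk0
  have hk1 := h.hk1
  have hβ0 := h.hβ0
  have hβ : β ≤ 1 / 10 := by linarith only [h.δ_small, h.hβ]
  have m1 : 3 * α ^ 2 * i ^ 2 - α2 * i ≤ -(α / 4) := by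
    have q1 : 2 * α * i ≤ α2 * i := mul_le_mul_of_nonneg_right h.hα2 (by linarith only [hi0])
    have q2 : 3 * α ^ 2 * i ^ 2 ≤ 3 / 2 * (α * i) := by
      have : α * i ≤ 1 / 2 := by nlinarith only [hα, hα0, hi1]
      have : 0 ≤ α * i := by positivity
      (clear u w hZ e0 e1 hk0 hk1 hβ0 hβ q1; nlinarith)
    have q3 : α / 2 ≤ α * i := by nlinarith only [hα0, hi0]
    linarith only [q1, q2, q3]
  have m2 : 6 * β ^ 2 * k ^ 2 - 2 * β2 * k ≤ -β := by
    have q1 : 2 * β * k ≤ β2 * k := mul_le_mul_of_nonneg_right h.hβ2 (by linarith only [hk0])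
    have q2 : 6 * β ^ 2 * k ^ 2 ≤ β * k := by
      have : β * k ≤ 1 / 10 := by nlinarith only [hk1, hβ, hk0]
      have : 0 ≤ β * k := by positivity
      (clear u w hZ e0 e1 hα0 hα hi0 hi1 m1 q1; nlinarith)
    have q3 : β / 2 ≤ β * k := by nlinarith only [hk0, hβ0]
    linarith only [hβ0, q1, q2, q3]
  have m3 := mul_le_mul_of_nonneg_left m1 (by (clear * -; positivity) : (0 : ℝ) ≤ 2 * w ^ 2)
  have m4 := mul_le_mul_of_nonneg_left m2 (sq_nonneg u)
  linarith


/-- Bound of `z = s k u`. -/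
theorem PW.z_sq (h : PW C δ α α2 β β2 s s1 s2 φ i k) (u : ℝ) :
    (s * k * u) ^ 2 ≤ 1 / 10 ^ 6 * (β * u ^ 2) := by
  have q1 : s ^ 2 ≤ δ * (C * β) := by
    have h1 := mul_le_mul h.hs h.hsβ h.hs0 h.hδ0.le
    rwa [← sq] at h1
  have q2 : (s * k * u) ^ 2 = s ^ 2 * (k ^ 2 * u ^ 2) := by ring
  have q3 : k ^ 2 * u ^ 2 ≤ u ^ 2 := by
    have : k ^ 2 ≤ 1 := by linarith only [mul_nonneg (sub_nonneg.2 h.hk1) (sub_nonneg.2 h.hk1), mul_nonneg (sub_nonneg.2 h.hk0) (sub_nonneg.2 h.hk1)]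
    nlinarith only [this]
  rw [q2]
  have q0 : 0 ≤ k ^ 2 * u ^ 2 := by (clear * -; positivity)
  have q4 : s ^ 2 * (k ^ 2 * u ^ 2) ≤ δ * (C * β) * (u ^ 2) := by
    have := mul_le_mul q1 q3 q0 (le_trans (sq_nonneg s) q1)
    exact this
  have q5 : δ * (C * β) * u ^ 2 = (C * δ) * (β * u ^ 2) := by ring
  rw [q5] at q4
  exact q4.trans (mul_le_mul_of_nonneg_right h.Cδ_small (mul_nonneg h.hβ0 (sq_nonneg u)))

/-- Bound of the error in `b'`. -/
theorem PW.e_le (h : PW C δ α α2 β β2 s s1 s2 φ i k) (u w z : ℝ)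
    (hc : β * u ^ 2 ≤ 3 * (α * w ^ 2)) (hz : |z| ≤ |w| / 500) :
    |2 * β * k * z - s1 * k * u + s * s1 * φ * k ^ 2 * w| * |w| ≤ w ^ 2 / 400 := by
  have hβ0 := h.hβ0
  have hk0 := h.hk0
  have hk1 := h.hk1
  have hβ : β ≤ 1 / 10 ^ 6 := by linarith only [h.hβ, h.δ_small]
  have hw2 : |w| * |w| = w ^ 2 := by rw [← sq, sq_abs]
  have z3 : |z| * |w| ≤ w ^ 2 / 500 := by
    have := mul_le_mul_of_nonneg_right hz (abs_nonneg w)
    linarith only [hw2, this]
  have e2 : 0 ≤ w ^ 2 := sq_nonneg w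
  rw [← abs_mul]
  have f1 : |2 * β * k * z * w| ≤ w ^ 2 / 10 ^ 5 := by
    rw [abs_mul, abs_mul, abs_of_nonneg (by (clear * - hβ0 hk0; positivity) : (0 : ℝ) ≤ 2 * β * k), mul_assoc]
    have q1 : 2 * β * k ≤ 1 / 1000 := by nlinarith only [hβ, hβ0, hk1]
    have q2 := mul_le_mul q1 z3 (by (clear * -; positivity)) (by norm_num)
    linarith only [q2, e2]
  have f2 : |k * (s1 * (w * u))| ≤ w ^ 2 / 480 := by
    rw [abs_mul, abs_of_nonneg (by linarith only [hk0] : (0 : ℝ) ≤ k)]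
    have g2 := h.cross1 u w h.hs1
    have g3 := abs_nonneg (s1 * (w * u))
    have g5 : α * w ^ 2 ≤ w ^ 2 / 2 := by nlinarith only [h.hα]
    have g4 : (α * w ^ 2 + β * u ^ 2) / 1000 ≤ w ^ 2 / 500 := by linarith only [hc, g5]
    have g6 := mul_le_mul_of_nonneg_right hk1 g3
    linarith only [hc, e2, g2, g5, g6]
  have f3 : |s * s1 * φ * k ^ 2 * w ^ 2| ≤ w ^ 2 / 10 ^ 5 := by
    have hφ0 := h.hφ0
    have hs0 := h.hs0
    have g1 : |s * s1 * φ * k ^ 2| ≤ 1 / 10 ^ 5 := by
      have : s * s1 * φ * k ^ 2 = (s * (φ * k ^ 2)) * s1 := by ring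
      rw [this, abs_mul, abs_of_nonneg (by (clear * - hs0 hφ0 hk0; positivity) : (0 : ℝ) ≤ s * (φ * k ^ 2))]
      have q00 : k ^ 2 ≤ 1 := by nlinarith only [hk1, hk0]
      have q1 : φ * k ^ 2 ≤ 2 := by nlinarith only [q00, h.hφ1]
      have q0 : 0 ≤ φ * k ^ 2 := by (clear * - hφ0 hk0; positivity)
      have q2 : s * (φ * k ^ 2) ≤ 1 / 10 ^ 6 * 2 :=
        mul_le_mul (h.hs.trans h.δ_small) q1 q0 (by norm_num)
      have q4 : |s1| ≤ 1 := by
        refine h.hs1.trans ?_
        have q5 : C * β ≤ 1 / 10 ^ 6 := by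
          have := h.Cδ_small
          have : C * β ≤ C * δ := mul_le_mul_of_nonneg_left (by linarith only [hβ0, h.hβ])
            (by linarith only [h.hC])
          (clear u w z hc hz hk0 hk1 hβ hw2 z3 e2 f1 f2 hφ0 hs0 q00 q1 q0 q2; linarith)
        have q6 : 0 ≤ C * β := mul_nonneg (by linarith only [h.hC]) hβ0
        have q7 : C * α * β = α * (C * β) := by ring
        rw [q7]
        nlinarith only [q5, h.hα, h.hα0]
      have := mul_le_mul q2 q4 (abs_nonneg _) (by norm_num)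
      linarith only [this]
    rw [abs_mul, abs_of_nonneg e2]
    have := mul_le_mul_of_nonneg_right g1 e2
    linarith only [this]
  have : (2 * β * k * z - s1 * k * u + s * s1 * φ * k ^ 2 * w) * w =
      2 * β * k * z * w - k * (s1 * (w * u)) + s * s1 * φ * k ^ 2 * w ^ 2 := by
    ring
  rw [this]
  have f1' := abs_le.1 f1
  have f2' := abs_le.1 f2
  have f3' := abs_le.1 f3
  rw [abs_le]
  constructor <;> linarith only [f1', f2', f3']

theorem err_le {α i w e z : ℝ} (hα0 : 0 ≤ α) (hα : α ≤ 1 / 2) (hi0 : 1 / 2 ≤ i) (hi1 : i ≤ 1)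
    (he1 : |e| * |w| ≤ w ^ 2 / 400) (he2 : |e| * |z| ≤ w ^ 2 / 400)
    (z3 : |z| * |w| ≤ w ^ 2 / 500) :
    |(-4 * i * w * e + 8 * α * i ^ 2 * w * z + 4 * z * e)| ≤ w ^ 2 / 25 := by
  have f1 : |4 * i * (w * e)| ≤ w ^ 2 / 100 := by
    rw [abs_mul, abs_mul w e, abs_of_nonneg (by linarith only [hi0] : (0 : ℝ) ≤ 4 * i), mul_comm |w|]
    have h0 : 0 ≤ |e| * |w| := by positivity
    nlinarith only [he1, hi1, hi0]
  have f2 : |8 * α * i ^ 2 * (z * w)| ≤ w ^ 2 / 100 := by
    rw [abs_mul, abs_mul z w, abs_of_nonneg (by positivity : (0 : ℝ) ≤ 8 * α * i ^ 2)]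
    have h0 : 0 ≤ |z| * |w| := by positivity
    have h1 : 8 * α * i ^ 2 ≤ 4 := by
      have : i ^ 2 ≤ 1 := by nlinarith only [hi1, hi0]
      nlinarith only [this, hα]
    linarith only [mul_nonneg (sub_nonneg.2 h0) (sub_nonneg.2 h1), h0, z3]
  have f3 : |4 * (e * z)| ≤ w ^ 2 / 100 := by
    rw [abs_mul, abs_mul e z, abs_of_nonneg (by norm_num : (0 : ℝ) ≤ 4)]
    linarith only [he2]
  have f1' := abs_le.1 f1
  have f2' := abs_le.1 f2
  have f3' := abs_le.1 f3
  have e4 : -4 * i * w * e + 8 * α * i ^ 2 * w * z + 4 * z * e =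
    -(4 * i * (w * e)) + 8 * α * i ^ 2 * (z * w) + 4 * (e * z) := by ring
  rw [e4, abs_le]
  have : 0 ≤ w ^ 2 := sq_nonneg w
  constructor <;> linarith only [f1', f2', f3']

theorem prod_le {A B X W : ℝ} (hA0 : 0 ≤ A) (hB0 : 0 ≤ B) (hW : 0 ≤ W) (hAW : A ≤ W / 2)
    (hX : |X| ≤ W / 100) (hY : B + X ≤ A) :
    2 * (B + X) * (2 * A + B + X) ≤ 3 * W * (B + |X|) := by
  have hXX := le_abs_self X
  have hXX' := neg_abs_le X
  have hX0 := abs_nonneg X
  rcases le_or_gt 0 (B + X) with hc | hc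
  · have g1 : 2 * (B + X) * (2 * A + B + X) ≤ 2 * (B + X) * (3 * A) :=
      mul_le_mul_of_nonneg_left (by linarith only [hY]) (by linarith only [hc])
    have g2 : 2 * (B + X) * (3 * A) ≤ 2 * (B + X) * (3 * (W / 2)) :=
      mul_le_mul_of_nonneg_left (by linarith only [hAW]) (by linarith only [hc])
    have g3 : 2 * (B + X) * (3 * (W / 2)) = 3 * W * (B + X) := by ring
    have g4 : 3 * W * (B + X) ≤ 3 * W * (B + |X|) :=
      mul_le_mul_of_nonneg_left (by linarith only [hXX]) (by linarith only [hW])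
    linarith only [g1, g2, g4]
  · have g0 : 0 ≤ 3 * W * (B + |X|) := by (clear * - hW hB0; positivity)
    rcases le_or_gt 0 (2 * A + B + X) with hc2 | hc2
    · have : 2 * (B + X) * (2 * A + B + X) ≤ 0 :=
        mul_nonpos_of_nonpos_of_nonneg (by linarith only [hc]) hc2
      linarith only [g0, this]
    · have g1 : 2 * (B + X) * (2 * A + B + X) ≤ 2 * |X| * |X| := by linarith [mul_nonneg (sub_nonneg.2 hXX') (sub_nonneg.2 hXX'), mul_nonneg (sub_nonneg.2 hB0) (sub_nonneg.2 hXX'), mul_nonneg (sub_nonneg.2 hB0) (sub_nonneg.2 hB0), mul_nonneg (le_of_lt (sub_pos.2 hc)) (sub_nonneg.2 hXX'), mul_nonneg (le_of_lt (sub_pos.2 hc)) (sub_nonneg.2 hB0), mul_nonneg (sub_nonneg.2 hA0) (le_of_lt (sub_pos.2 hc))]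
      have g2 : 2 * |X| * |X| ≤ 2 * |X| * (W / 100) :=
        mul_le_mul_of_nonneg_left hX (by (clear * -; positivity))
      nlinarith only [g0, g1, g2, hW, hB0]

theorem t1_le {α i s k w D δ : ℝ} (hα0 : 0 ≤ α) (hα : α ≤ 1 / 2) (hs0 : 0 ≤ s)
    (hs : s ≤ δ) (hδ : δ ≤ 1 / 10 ^ 6) (hk0 : 1 / 2 ≤ k) (hk1 : k ≤ 1) (hD0 : 0 ≤ D)
    (c3 : D ≤ 2 * (α * w ^ 2)) :
    2 * (i ^ 2 + s ^ 2 * k ^ 2) * D ^ 2 ≤ 2 * i ^ 2 * D ^ 2 + α * w ^ 4 / 1000 := by
  have q1 : s ^ 2 * k ^ 2 ≤ 1 / 10 ^ 6 := by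
    have a1 : s * k ≤ 1 / 10 ^ 6 := by nlinarith only [hs, hδ, hs0, hk1]
    have a2 : 0 ≤ s * k := by positivity
    have a3 : s ^ 2 * k ^ 2 = (s * k) * (s * k) := by ring
    rw [a3]
    nlinarith only [a1, a2]
  have q2 : D ^ 2 ≤ 2 * (α * w ^ 4) := by
    have a1 : D ^ 2 ≤ (2 * (α * w ^ 2)) ^ 2 := pow_le_pow_left₀ hD0 c3 2
    have a2 : (2 * (α * w ^ 2)) ^ 2 = 4 * α * (α * w ^ 4) := by ring
    have a3 : 0 ≤ α * w ^ 4 := by (clear * - hα0; positivity)
    have a4 : 4 * α * (α * w ^ 4) ≤ 2 * (α * w ^ 4) :=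
      mul_le_mul_of_nonneg_right (by linarith only [hα]) a3
    linarith only [a1, a4]
  have q3 := mul_le_mul q1 q2 (sq_nonneg D) (by norm_num)
  have a3 : 0 ≤ α * w ^ 4 := by (clear * - hα0; positivity)
  have q4 : 2 * (i ^ 2 + s ^ 2 * k ^ 2) * D ^ 2 =
    2 * i ^ 2 * D ^ 2 + 2 * (s ^ 2 * k ^ 2 * D ^ 2) := by ring
  rw [q4]
  linarith only [a3, q3]

theorem t3_le {i w z Vtt : ℝ} (hi0 : 1 / 2 ≤ i) (z3 : |z| * |w| ≤ w ^ 2 / 500)
    (hV0 : Vtt ≤ 0) :
    Vtt * (i * w - z) ^ 2 ≤ Vtt * (99 / 100 * (i ^ 2 * w ^ 2)) := by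
  apply mul_le_mul_of_nonpos_left _ hV0
  have q1 : (i * w - z) ^ 2 = i ^ 2 * w ^ 2 - 2 * i * (z * w) + z ^ 2 := by ring
  have q2 : z * w ≤ w ^ 2 / 500 := by
    have := le_abs_self (z * w)
    rw [abs_mul] at this
    linarith only [z3, this]
  have q3 : 2 * i * (z * w) ≤ 2 * i * (w ^ 2 / 500) :=
    mul_le_mul_of_nonneg_left q2 (by linarith only [hi0])
  have q4 : 2 * i * (w ^ 2 / 500) ≤ 1 / 100 * (i ^ 2 * w ^ 2) := by
    have a1 : 0 ≤ i * w ^ 2 := mul_nonneg (by linarith only [hi0]) (sq_nonneg w)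
    (by_contra nlg; linarith only [nlg, mul_nonneg (sub_nonneg.2 hi0) (sub_nonneg.2 a1), mul_nonneg (le_of_lt (sub_pos.2 (not_le.1 nlg))) (sub_nonneg.2 hi0), mul_nonneg (sq_nonneg (1 * i : ℝ)) (sub_nonneg.2 a1)])
  (clear * - q3 q4; nlinarith [sq_nonneg z])

theorem t4_le {α α2 β β2 i k u w A B D X Z Vtt : ℝ} (hβ0 : 0 ≤ β) (hβ : β ≤ 1 / 10 ^ 6)
    (hα2 : 2 * α ≤ α2) (hβ2 : 2 * β ≤ β2)
    (hi0 : 1 / 2 ≤ i) (hk0 : 1 / 2 ≤ k) (hk1 : k ≤ 1) (hA : A = α * i * w ^ 2)
    (hB : B = β * k * u ^ 2) (hB0 : 0 ≤ B) (hD' : D = A - B - X)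
    (hY : 2 * (B + X) * (2 * A + B + X) ≤ 3 * w ^ 2 * (B + |X|))
    (hV : Vtt = 2 * w ^ 2 * (3 * α ^ 2 * i ^ 2 - α2 * i)
      + u ^ 2 * (6 * β ^ 2 * k ^ 2 - 2 * β2 * k) + Z)
    (hfin : 3 * (B + |X|) + 99 / 100 * (-4 * A - 4 * B + 6 / 10 ^ 6 * B + Z) ≤
        -(α * w ^ 2)) :
    2 * D ^ 2 - 8 * α * i * w ^ 2 * D + 99 / 100 * (w ^ 2 * Vtt) ≤ -(α * w ^ 4) := by
  have e2 : 0 ≤ w ^ 2 := sq_nonneg w
  have q1 : 2 * D ^ 2 - 8 * α * i * w ^ 2 * D + 6 * A ^ 2 = 2 * (B + X) * (2 * A + B + X) := by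
    rw [hD', hA]; ring
  have q2 : w ^ 2 * Vtt = 6 * A ^ 2 - 2 * (α2 * i * w ^ 4)
      + w ^ 2 * (6 * (β * k) * B - 2 * (β2 * k * u ^ 2)) + w ^ 2 * Z := by
    rw [hV, hA, hB]; ring
  have q5 : 2 * A * w ^ 2 ≤ α2 * i * w ^ 4 := by
    have a1 : (2 * α) * (i * w ^ 4) ≤ α2 * (i * w ^ 4) :=
      mul_le_mul_of_nonneg_right hα2 (by (clear * - hi0; positivity))
    have a2 : (2 * α) * (i * w ^ 4) = 2 * A * w ^ 2 := by rw [hA]; ring
    linarith only [a1, a2]
  have q6 : 2 * B ≤ β2 * k * u ^ 2 := by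
    have a1 : (2 * β) * (k * u ^ 2) ≤ β2 * (k * u ^ 2) :=
      mul_le_mul_of_nonneg_right hβ2 (by (clear * - hk0; positivity))
    have a2 : (2 * β) * (k * u ^ 2) = 2 * B := by rw [hB]; ring
    linarith only [hB, a1]
  have q10 : 6 * (β * k) * B ≤ 6 / 10 ^ 6 * B := by
    apply mul_le_mul_of_nonneg_right _ hB0
    nlinarith only [hβ, hβ0, hk1]
  have q11 : w ^ 2 * Vtt ≤ 6 * A ^ 2 + w ^ 2 * (-4 * A - 4 * B + 6 / 10 ^ 6 * B + Z) := by
    rw [q2]
    have : w ^ 2 * (6 * (β * k) * B - 2 * (β2 * k * u ^ 2)) ≤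
        w ^ 2 * (6 / 10 ^ 6 * B - 4 * B) :=
      mul_le_mul_of_nonneg_left (by linarith only [q6, q10]) e2
    linarith only [q5, this]
  have q12 : 2 * D ^ 2 - 8 * α * i * w ^ 2 * D + 99 / 100 * (w ^ 2 * Vtt) ≤
      3 * w ^ 2 * (B + |X|) + 99 / 100 * (w ^ 2 * (-4 * A - 4 * B + 6 / 10 ^ 6 * B + Z)) := by
    linarith only [sq_nonneg A, q11, q1, hY]
  have q14 := mul_le_mul_of_nonneg_left hfin e2
  have q15 : w ^ 2 * -(α * w ^ 2) = -(α * w ^ 4) := by ring
  linarith only [q12, q14]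

/-- (K2), divided by two. -/
theorem PW.k2 (h : PW C δ α α2 β β2 s s1 s2 φ i k) (u w : ℝ) {D b bt Vtt : ℝ}
    (hD : D = α * i * w ^ 2 - β * k * u ^ 2 - s1 * φ * k * u * w) (hD0 : 0 ≤ D)
    (hb : b = i * w - s * k * u)
    (hbt : bt = 2 * α * i ^ 2 * w + (2 * β * k * (s * k * u) - s1 * k * u + s * s1 * φ * k ^ 2 * w))
    (hV : Vtt = 2 * w ^ 2 * (3 * α ^ 2 * i ^ 2 - α2 * i)
      + u ^ 2 * (6 * β ^ 2 * k ^ 2 - 2 * β2 * k) +
      (2 * s1 ^ 2 * φ ^ 2 * k ^ 2 * w ^ 2 + 8 * s1 * β * φ * k ^ 2 * w * u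
      - 2 * s2 * φ * k * w * u)) :
    2 * (i ^ 2 + s ^ 2 * k ^ 2) * D ^ 2 - 4 * b * bt * D + Vtt * b ^ 2 ≤ 0 := by
  have hX := h.X_le u w
  have hZ := h.Z_le u w
  have hK1 := h.k1 u w
  rw [← hV] at hK1
  have hzs := h.z_sq u
  have hee := h.e_le u w (s * k * u)
  obtain ⟨X, hXd⟩ : ∃ X, X = s1 * φ * k * u * w := ⟨_, rfl⟩
  obtain ⟨Z, hZd⟩ : ∃ Z, Z = 2 * s1 ^ 2 * φ ^ 2 * k ^ 2 * w ^ 2 + 8 * s1 * β * φ * k ^ 2 * w * u
      - 2 * s2 * φ * k * w * u := ⟨_, rfl⟩
  rw [← hXd] at hX hD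
  rw [← hZd] at hZ hV
  have hα0 := h.hα0
  have hα := h.hα
  have hi0 := h.hi0
  have hi1 := h.hi1
  have hk0 := h.hk0
  have hk1 := h.hk1
  have hβ0 := h.hβ0
  have hβ : β ≤ 1 / 10 ^ 6 := by
    have a1 := h.hβ
    have a2 := h.δ_small
    linarith only [a1, a2]
  have e0 : 0 ≤ α * w ^ 2 := mul_nonneg hα0 (sq_nonneg w)
  have e1 : 0 ≤ β * u ^ 2 := mul_nonneg hβ0 (sq_nonneg u)
  have e2 : 0 ≤ w ^ 2 := sq_nonneg w
  have e3 : α * w ^ 2 ≤ w ^ 2 / 2 := by
    have := mul_le_mul_of_nonneg_right hα e2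
    linarith only [this]
  have hX' := abs_le.1 hX
  obtain ⟨hX1, hX2⟩ := hX'
  obtain ⟨A, hA⟩ : ∃ A, A = α * i * w ^ 2 := ⟨_, rfl⟩
  obtain ⟨B, hB⟩ : ∃ B, B = β * k * u ^ 2 := ⟨_, rfl⟩
  have hA' : A = i * (α * w ^ 2) := by rw [hA]; ring
  have hB' : B = k * (β * u ^ 2) := by rw [hB]; ring
  have hA1 : A ≤ α * w ^ 2 := by
    rw [hA']; exact mul_le_of_le_one_left e0 hi1
  have hA2 : α * w ^ 2 / 2 ≤ A := by
    rw [hA']
    have := mul_le_mul_of_nonneg_right hi0 e0
    linarith only [this]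
  have hB1 : B ≤ β * u ^ 2 := by
    rw [hB']; exact mul_le_of_le_one_left e1 hk1
  have hB2 : β * u ^ 2 / 2 ≤ B := by
    rw [hB']
    have := mul_le_mul_of_nonneg_right hk0 e1
    linarith only [this]
  have hD' : D = A - B - X := by rw [hD, hA, hB]
  have hAB : B + X ≤ A := by linarith only [hD', hD0]
  have c1 : β * u ^ 2 ≤ 3 * (α * w ^ 2) := by linarith only [hAB, hX1, hB2, hA1, e0]
  have c3 : D ≤ 2 * (α * w ^ 2) := by linarith only [hD', hX1, hA1, hB2, e0, e1]
  obtain ⟨z, hz⟩ : ∃ z, z = s * k * u := ⟨_, rfl⟩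
  rw [← hz] at hb hbt hzs hee
  have z1 : z ^ 2 ≤ (|w| / 500) ^ 2 := by
    rw [div_pow, sq_abs]
    linarith only [e2, e3, c1, hzs]
  have z2 : |z| ≤ |w| / 500 := abs_le_of_sq_le_sq z1 (by (clear * -; positivity))
  have hw2 : |w| * |w| = w ^ 2 := by rw [← sq, sq_abs]
  have z3 : |z| * |w| ≤ w ^ 2 / 500 := by
    have := mul_le_mul_of_nonneg_right z2 (abs_nonneg w)
    linarith only [this, hw2]
  have he1 := hee c1 z2
  obtain ⟨e, he⟩ : ∃ e, e = 2 * β * k * z - s1 * k * u + s * s1 * φ * k ^ 2 * w := ⟨_, rfl⟩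
  rw [← he] at hbt he1
  have he2 : |e| * |z| ≤ w ^ 2 / 400 := by
    have := mul_le_mul_of_nonneg_left z2 (abs_nonneg e)
    have h0 : 0 ≤ |e| * |w| := by (clear * -; positivity)
    linarith only [this, h0, he1]
  have herr := err_le hα0 hα hi0 hi1 he1 he2 z3
  have t1 := t1_le (i := i) hα0 hα h.hs0 h.hs h.δ_small hk0 hk1 hD0 c3
  have t2 : -4 * b * bt * D ≤ -8 * α * i ^ 3 * w ^ 2 * D + 2 * (α * w ^ 4) / 25 := by
    have q1 : -4 * b * bt * D = -8 * α * i ^ 3 * w ^ 2 * D +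
        (-4 * i * w * e + 8 * α * i ^ 2 * w * z + 4 * z * e) * D := by
      rw [hb, hbt]; ring
    rw [q1]
    have q2 : (-4 * i * w * e + 8 * α * i ^ 2 * w * z + 4 * z * e) * D ≤ w ^ 2 / 25 * D :=
      mul_le_mul_of_nonneg_right (le_of_abs_le herr) hD0
    have q3 : w ^ 2 / 25 * D ≤ w ^ 2 / 25 * (2 * (α * w ^ 2)) :=
      mul_le_mul_of_nonneg_left c3 (by (clear * -; positivity))
    have q4 : w ^ 2 / 25 * (2 * (α * w ^ 2)) = 2 * (α * w ^ 4) / 25 := by ring
    linarith only [q2, q3, q4]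
  have hV0 : Vtt ≤ 0 := by linarith only [hK1, e0, e1]
  have t3 := t3_le hi0 z3 hV0
  rw [← hb] at t3
  have hB0 : 0 ≤ B := by linarith only [hB2, e1]
  have hA0 : 0 ≤ A := by linarith only [hA2, e0]
  have hXabs : |X| ≤ w ^ 2 / 100 := by linarith only [hX, c1, e3, e2]
  have hY := prod_le hA0 hB0 e2 (by linarith only [hA1, e3]) hXabs hAB
  have hfin : 3 * (B + |X|) + 99 / 100 * (-4 * A - 4 * B + 6 / 10 ^ 6 * B + Z) ≤
      -(α * w ^ 2) := by
    have hZ' := (abs_le.1 hZ).2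
    linarith only [hZ', hX, hA2, hB2, e0, e1]
  have t4 := t4_le hβ0 hβ h.hα2 h.hβ2 hi0 hk0 hk1 hA hB hB0 hD' hY hV hfin
  have q3 : 0 ≤ α * w ^ 4 := by (clear * - hα0; positivity)
  have t5 : i ^ 2 * (2 * D ^ 2 - 8 * α * i * w ^ 2 * D + 99 / 100 * (w ^ 2 * Vtt)) ≤
      -(α * w ^ 4) / 4 := by
    have q1 := mul_le_mul_of_nonneg_left t4 (sq_nonneg i)
    have q2 : 1 / 4 ≤ i ^ 2 := by nlinarith only [hi0]
    have q5 := mul_le_mul_of_nonneg_right q2 q3
    linarith only [q1, q5]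
  have t6 : 2 * i ^ 2 * D ^ 2 + -8 * α * i ^ 3 * w ^ 2 * D + Vtt * (99 / 100 * (i ^ 2 * w ^ 2)) =
      i ^ 2 * (2 * D ^ 2 - 8 * α * i * w ^ 2 * D + 99 / 100 * (w ^ 2 * Vtt)) := by ring
  linarith only [q3, t5, t3, t2, t1]

theorem prod_le' {A B X U δ : ℝ} (hA0 : 0 ≤ A) (hB0 : 0 ≤ B) (hU : 0 ≤ U) (hδ : 0 ≤ δ)
    (hBU : B ≤ δ * U / 2) (hX : |X| ≤ δ * U) (hY : A - X ≤ B) :
    2 * (A - X) * (A - X + 2 * B) ≤ 3 * (δ * U) * (A + |X|) := by
  have hXX := le_abs_self X
  have hXX' := neg_abs_le X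
  have hX0 := abs_nonneg X
  have hδU : 0 ≤ δ * U := mul_nonneg hδ hU
  rcases le_or_gt 0 (A - X) with hc | hc
  · have g1 : 2 * (A - X) * (A - X + 2 * B) ≤ 2 * (A - X) * (3 * (δ * U / 2)) :=
      mul_le_mul_of_nonneg_left (by linarith only [hBU, hY]) (by linarith only [hc])
    have g3 : 2 * (A - X) * (3 * (δ * U / 2)) = 3 * (δ * U) * (A - X) := by ring
    have g4 : 3 * (δ * U) * (A - X) ≤ 3 * (δ * U) * (A + |X|) :=
      mul_le_mul_of_nonneg_left (by linarith only [hXX']) (by linarith only [hB0, hBU])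
    linarith only [g1, g4]
  · have g0 : 0 ≤ 3 * (δ * U) * (A + |X|) := by (clear * - hδ hU hA0; positivity)
    rcases le_or_gt 0 (A - X + 2 * B) with hc2 | hc2
    · have : 2 * (A - X) * (A - X + 2 * B) ≤ 0 :=
        mul_nonpos_of_nonpos_of_nonneg (by linarith only [hc]) hc2
      linarith only [g0, this]
    · have a1 : 2 * (A - X) * (A - X + 2 * B) ≤ 2 * |X| * |X| := by nlinarith only [hA0, hB0, hc2, hXX]
      have a2 : 2 * |X| * |X| ≤ 2 * |X| * (δ * U) :=
        mul_le_mul_of_nonneg_left hX (by (clear * -; positivity))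
      linarith only [mul_nonneg (sub_nonneg.2 hδU) (sub_nonneg.2 hA0), a2, a1, g0]

/-- (K3), divided by two. -/
theorem PW.k3 (h : PW C δ α α2 β β2 s s1 s2 φ i k) (u w : ℝ) {D b bt Vtt : ℝ}
    (hD : D = β * k * u ^ 2 + s1 * φ * k * u * w - α * i * w ^ 2) (hD0 : 0 ≤ D)
    (hb : b = k * u)
    (hbt : bt = -(s1 * φ * k ^ 2 * w) - 2 * β * k ^ 2 * u)
    (hV : Vtt = 2 * w ^ 2 * (3 * α ^ 2 * i ^ 2 - α2 * i)
      + u ^ 2 * (6 * β ^ 2 * k ^ 2 - 2 * β2 * k) +
      (2 * s1 ^ 2 * φ ^ 2 * k ^ 2 * w ^ 2 + 8 * s1 * β * φ * k ^ 2 * w * u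
      - 2 * s2 * φ * k * w * u)) :
    2 * k ^ 2 * D ^ 2 + 4 * b * bt * D + Vtt * b ^ 2 ≤ 0 := by
  have hX := h.X_le u w
  have hZ := h.Z_le u w
  obtain ⟨X, hXd⟩ : ∃ X, X = s1 * φ * k * u * w := ⟨_, rfl⟩
  obtain ⟨Z, hZd⟩ : ∃ Z, Z = 2 * s1 ^ 2 * φ ^ 2 * k ^ 2 * w ^ 2 + 8 * s1 * β * φ * k ^ 2 * w * u
      - 2 * s2 * φ * k * w * u := ⟨_, rfl⟩
  rw [← hXd] at hX hD
  rw [← hZd] at hZ hV
  have hα0 := h.hα0
  have hα := h.hα
  have hi0 := h.hi0
  have hi1 := h.hi1
  have hk0 := h.hk0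
  have hk1 := h.hk1
  have hβ0 := h.hβ0
  have hδ0 := h.hδ0
  have hδ := h.δ_small
  have e0 : 0 ≤ α * w ^ 2 := mul_nonneg hα0 (sq_nonneg w)
  have e1 : 0 ≤ β * u ^ 2 := mul_nonneg hβ0 (sq_nonneg u)
  have e2 : 0 ≤ u ^ 2 := sq_nonneg u
  have e3 : β * u ^ 2 ≤ δ * u ^ 2 / 2 := by
    have := mul_le_mul_of_nonneg_right h.hβ e2
    linarith only [this]
  obtain ⟨hX1, hX2⟩ := abs_le.1 hX
  obtain ⟨A, hA⟩ : ∃ A, A = α * i * w ^ 2 := ⟨_, rfl⟩
  obtain ⟨B, hB⟩ : ∃ B, B = β * k * u ^ 2 := ⟨_, rfl⟩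
  have hA' : A = i * (α * w ^ 2) := by rw [hA]; ring
  have hB' : B = k * (β * u ^ 2) := by rw [hB]; ring
  have hA1 : A ≤ α * w ^ 2 := by
    rw [hA']; exact mul_le_of_le_one_left e0 hi1
  have hA2 : α * w ^ 2 / 2 ≤ A := by
    rw [hA']
    have := mul_le_mul_of_nonneg_right hi0 e0
    linarith only [this]
  have hB1 : B ≤ β * u ^ 2 := by
    rw [hB']; exact mul_le_of_le_one_left e1 hk1
  have hB2 : β * u ^ 2 / 2 ≤ B := by
    rw [hB']
    have := mul_le_mul_of_nonneg_right hk0 e1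
    linarith only [this]
  have hD' : D = B + X - A := by rw [hD, hA, hB]
  have hAB : A - X ≤ B := by linarith only [hD', hD0]
  have c1 : α * w ^ 2 ≤ 3 * (β * u ^ 2) := by linarith only [hAB, hX2, hA2, hB1, e1]
  have c3 : D ≤ δ * u ^ 2 := by linarith only [e3, e1, e0, hA2, hB1, hX2, hD']
  have hB0 : 0 ≤ B := by linarith only [hB2, e1]
  have hA0 : 0 ≤ A := by linarith only [hA2, e0]
  have hXabs : |X| ≤ δ * u ^ 2 := by linarith only [hX, c1, e3, e1]
  have hX0 := abs_nonneg X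
  have hδu : 0 ≤ δ * u ^ 2 := mul_nonneg hδ0.le e2
  have hY := prod_le' hA0 hB0 e2 hδ0.le (by linarith only [hB1, e3]) hXabs hAB
  have q1 : 2 * D ^ 2 - 8 * B * D + 6 * B ^ 2 = 2 * (A - X) * (A - X + 2 * B) := by
    rw [hD']; ring
  have q2 : u ^ 2 * Vtt = 6 * B ^ 2 - 2 * (β2 * k * u ^ 4)
      + u ^ 2 * (6 * (α * i) * A - 2 * (α2 * i * w ^ 2)) + u ^ 2 * Z := by
    rw [hV, hA, hB]; ring
  have q5 : 2 * B * u ^ 2 ≤ β2 * k * u ^ 4 := by
    have a1 : (2 * β) * (k * u ^ 4) ≤ β2 * (k * u ^ 4) :=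
      mul_le_mul_of_nonneg_right h.hβ2 (by (clear * - hk0; positivity))
    have a2 : (2 * β) * (k * u ^ 4) = 2 * B * u ^ 2 := by rw [hB]; ring
    linarith only [a1, a2]
  have q6 : 2 * A ≤ α2 * i * w ^ 2 := by
    have a1 : (2 * α) * (i * w ^ 2) ≤ α2 * (i * w ^ 2) :=
      mul_le_mul_of_nonneg_right h.hα2 (by (clear * - hi0; positivity))
    have a2 : (2 * α) * (i * w ^ 2) = 2 * A := by rw [hA]; ring
    linarith only [a1, a2]
  have q10 : 6 * (α * i) * A ≤ 3 * A := by
    apply mul_le_mul_of_nonneg_right _ hA0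
    have : α * i ≤ 1 / 2 := by
      have := mul_le_mul hα hi1 (by linarith only [hi0]) (by norm_num : (0 : ℝ) ≤ 1 / 2)
      linarith only [this]
    linarith only [this]
  have q11 : u ^ 2 * Vtt ≤ 6 * B ^ 2 + u ^ 2 * (-A - 4 * B + Z) := by
    rw [q2]
    have : u ^ 2 * (6 * (α * i) * A - 2 * (α2 * i * w ^ 2)) ≤ u ^ 2 * (3 * A - 4 * A) :=
      mul_le_mul_of_nonneg_left (by linarith only [q10, q6]) e2
    linarith only [this, q5]
  have q12 : -4 * X * D ≤ 4 * |X| * (δ * u ^ 2) := by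
    have a1 : -4 * X * D ≤ 4 * |X| * D := by
      apply mul_le_mul_of_nonneg_right _ hD0
      linarith only [neg_abs_le X]
    have a2 : 4 * |X| * D ≤ 4 * |X| * (δ * u ^ 2) :=
      mul_le_mul_of_nonneg_left c3 (by (clear * -; positivity))
    linarith only [a1, a2]
  have q13 : 3 * δ * (A + |X|) + 4 * |X| * δ + (-A - 4 * B + Z) ≤ 0 := by
    have hZ' := (abs_le.1 hZ).2
    have a1 : δ * A ≤ 1 / 10 ^ 6 * A := mul_le_mul_of_nonneg_right hδ hA0
    have a2 : δ * |X| ≤ 1 / 10 ^ 6 * |X| := mul_le_mul_of_nonneg_right hδ hX0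
    linarith only [hZ', hX, hA2, hB2, e0, e1, a1, a2]
  have q14 := mul_le_mul_of_nonneg_left q13 e2
  have q15 : 2 * D ^ 2 - 4 * X * D - 8 * B * D + u ^ 2 * Vtt ≤ 0 := by
    have b1 : u ^ 2 * (3 * δ * (A + |X|) + 4 * |X| * δ + (-A - 4 * B + Z)) =
      3 * (δ * u ^ 2) * (A + |X|) + 4 * |X| * (δ * u ^ 2) + u ^ 2 * (-A - 4 * B + Z) := by ring
    linarith only [hY, q1, q11, q12, q14, b1]
  have q16 : 2 * k ^ 2 * D ^ 2 + 4 * b * bt * D + Vtt * b ^ 2 =
      k ^ 2 * (2 * D ^ 2 - 4 * X * D - 8 * B * D + u ^ 2 * Vtt) := by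
    rw [hb, hbt, hXd, hB]; ring
  rw [q16]
  exact mul_nonpos_of_nonneg_of_nonpos (sq_nonneg k) q15

end Vale.Agent.P255
end
end

section

section

/-!
# P255: the profile of the collar satisfies the inequalities
-/

open Set Filter Topology

noncomputable section

namespace Vale.Agent.P255

/-! ### the basic functions -/

/-- `1/χ` -/
def pk (δ t : ℝ) : ℝ := (chi δ t)⁻¹
/-- `1/φ` -/
def pj (t : ℝ) : ℝ := (phi t)⁻¹
/-- `χ'` -/
def pb (δ t : ℝ) : ℝ := δ * Real.smoothTransition (t / 2)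
/-- `χ''` -/
def pb2 (δ t : ℝ) : ℝ := δ * (stD1 (t / 2) / 2)
/-- `-φ'` -/
def pa (t : ℝ) : ℝ := Real.smoothTransition ((1 - t) / 2)
/-- `φ''` -/
def pa2 (t : ℝ) : ℝ := stD1 ((1 - t) / 2) / 2
/-- `δσ` -/
def ps (δ t : ℝ) : ℝ := δ * sig t
/-- `δσ'` -/
def ps1 (δ t : ℝ) : ℝ := δ * (3 * stD1 (3 * t - 1))
/-- `δσ''` -/
def ps2 (δ t : ℝ) : ℝ := δ * (9 * stD2 (3 * t - 1))

theorem hasDerivAt_chi_pf (δ t : ℝ) : HasDerivAt (chi δ) (pb δ t) t :=
  ((hasDerivAt_P t).const_mul δ).const_add 1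

theorem hasDerivAt_phi_pf (t : ℝ) : HasDerivAt phi (-(pa t)) t := by
  have h1 : HasDerivAt (fun y : ℝ => 1 - y) (-1) t := by
    simpa only [id_eq] using (hasDerivAt_id t).const_sub 1
  have h2 := ((hasDerivAt_P (1 - t)).comp t h1).const_add 1
  refine h2.congr_deriv ?_
  simp [pa]

theorem hasDerivAt_pb (δ t : ℝ) : HasDerivAt (pb δ) (pb2 δ t) t := by
  have h1 : HasDerivAt (fun y : ℝ => y / 2) (1 / 2) t := (hasDerivAt_id t).div_const 2
  have h2 := ((hasDerivAt_S (t / 2)).comp t h1).const_mul δ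
  refine h2.congr_deriv ?_
  simp only [pb2]
  ring

theorem hasDerivAt_pa (t : ℝ) : HasDerivAt pa (-(pa2 t)) t := by
  have h1 : HasDerivAt (fun y : ℝ => (1 - y) / 2) (-1 / 2) t := by
    have h := ((hasDerivAt_id t).const_sub 1).div_const 2
    simpa only [id_eq] using h
  have h2 := (hasDerivAt_S ((1 - t) / 2)).comp t h1
  refine h2.congr_deriv ?_
  simp only [pa2]
  ring

theorem hasDerivAt_ps (δ t : ℝ) : HasDerivAt (ps δ) (ps1 δ t) t := by
  have h1 : HasDerivAt (fun y : ℝ => 3 * y - 1) 3 t := by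
    have h := ((hasDerivAt_id t).const_mul 3).sub_const 1
    simpa using h
  have h2 := ((hasDerivAt_S (3 * t - 1)).comp t h1).const_mul δ
  refine h2.congr_deriv ?_
  simp only [ps1]
  ring

theorem hasDerivAt_ps1 (δ t : ℝ) : HasDerivAt (ps1 δ) (ps2 δ t) t := by
  have h1 : HasDerivAt (fun y : ℝ => 3 * y - 1) 3 t := by
    have h := ((hasDerivAt_id t).const_mul 3).sub_const 1
    simpa using h
  have h2 := (((hasDerivAt_stD1 (3 * t - 1)).comp t h1).const_mul 3).const_mul δ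
  refine h2.congr_deriv ?_
  simp only [ps2]
  ring

theorem hasDerivAt_pk {δ : ℝ} (hδ : 0 < δ) (t : ℝ) :
    HasDerivAt (pk δ) (-(pb δ t * pk δ t ^ 2)) t := by
  refine ((hasDerivAt_chi_pf δ t).inv (chi_pos hδ t).ne').congr_deriv ?_
  simp only [pk]
  rw [inv_pow, neg_div, div_eq_mul_inv]

theorem hasDerivAt_pj (t : ℝ) : HasDerivAt pj (pa t * pj t ^ 2) t := by
  refine ((hasDerivAt_phi_pf t).inv (phi_pos t).ne').congr_deriv ?_
  simp only [pj]
  rw [inv_pow, neg_neg, div_eq_mul_inv]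

/-! ### entries -/

/-- entry `E` -/
def qE (δ t : ℝ) : ℝ := pk δ t ^ 2
/-- first derivative -/
def qE1 (δ t : ℝ) : ℝ := -(2 * pb δ t * pk δ t ^ 3)
/-- second derivative -/
def qE2 (δ t : ℝ) : ℝ := 6 * pb δ t ^ 2 * pk δ t ^ 4 - 2 * pb2 δ t * pk δ t ^ 3
/-- `1/φ²` -/
def qG (t : ℝ) : ℝ := pj t ^ 2
/-- first derivative -/
def qG1 (t : ℝ) : ℝ := 2 * pa t * pj t ^ 3
/-- second derivative -/
def qG2 (t : ℝ) : ℝ := 6 * pa t ^ 2 * pj t ^ 4 - 2 * pa2 t * pj t ^ 3

theorem hasDerivAt_qE {δ : ℝ} (hδ : 0 < δ) (t : ℝ) : HasDerivAt (qE δ) (qE1 δ t) t := by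
  refine ((hasDerivAt_pk hδ t).pow 2).congr_deriv ?_
  simp only [qE1]
  norm_num
  ring

theorem hasDerivAt_qE1 {δ : ℝ} (hδ : 0 < δ) (t : ℝ) : HasDerivAt (qE1 δ) (qE2 δ t) t := by
  refine ((((hasDerivAt_pb δ t).const_mul 2).mul ((hasDerivAt_pk hδ t).pow 3)).neg).congr_deriv ?_
  simp only [qE2]
  norm_num
  ring

theorem hasDerivAt_qG (t : ℝ) : HasDerivAt qG (qG1 t) t := by
  refine ((hasDerivAt_pj t).pow 2).congr_deriv ?_
  simp only [qG1]
  norm_num
  ring

theorem hasDerivAt_qG1 (t : ℝ) : HasDerivAt qG1 (qG2 t) t := by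
  refine (((hasDerivAt_pa t).const_mul 2).mul ((hasDerivAt_pj t).pow 3)).congr_deriv ?_
  simp only [qG2]
  norm_num
  ring

/-- entry `F` -/
def qF (δ t : ℝ) : ℝ := -(ps δ t * qE δ t)
/-- first derivative -/
def qF1 (δ t : ℝ) : ℝ := -(ps1 δ t * qE δ t + ps δ t * qE1 δ t)
/-- second derivative -/
def qF2 (δ t : ℝ) : ℝ := -(ps2 δ t * qE δ t + 2 * ps1 δ t * qE1 δ t + ps δ t * qE2 δ t)

/-- entry `H` -/
def qH (δ t : ℝ) : ℝ := ps δ t ^ 2 * qE δ t + qG t
/-- first derivative -/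
def qH1 (δ t : ℝ) : ℝ := 2 * ps δ t * ps1 δ t * qE δ t + ps δ t ^ 2 * qE1 δ t + qG1 t
/-- second derivative -/
def qH2 (δ t : ℝ) : ℝ := 2 * ps1 δ t ^ 2 * qE δ t + 2 * ps δ t * ps2 δ t * qE δ t
  + 4 * ps δ t * ps1 δ t * qE1 δ t + ps δ t ^ 2 * qE2 δ t + qG2 t

theorem hasDerivAt_qF {δ : ℝ} (hδ : 0 < δ) (t : ℝ) : HasDerivAt (qF δ) (qF1 δ t) t :=
  ((hasDerivAt_ps δ t).mul (hasDerivAt_qE hδ t)).neg

theorem hasDerivAt_qF1 {δ : ℝ} (hδ : 0 < δ) (t : ℝ) : HasDerivAt (qF1 δ) (qF2 δ t) t := by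
  refine ((((hasDerivAt_ps1 δ t).mul (hasDerivAt_qE hδ t)).add
    ((hasDerivAt_ps δ t).mul (hasDerivAt_qE1 hδ t))).neg).congr_deriv ?_
  simp only [qF2]
  ring

theorem hasDerivAt_qH {δ : ℝ} (hδ : 0 < δ) (t : ℝ) : HasDerivAt (qH δ) (qH1 δ t) t := by
  refine (((((hasDerivAt_ps δ t).pow 2).mul (hasDerivAt_qE hδ t))).add
    (hasDerivAt_qG t)).congr_deriv ?_
  simp only [qH1]
  norm_num

theorem hasDerivAt_qH1 {δ : ℝ} (hδ : 0 < δ) (t : ℝ) : HasDerivAt (qH1 δ) (qH2 δ t) t := by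
  refine ((((((hasDerivAt_ps δ t).const_mul 2).mul (hasDerivAt_ps1 δ t)).mul
    (hasDerivAt_qE hδ t)).add (((hasDerivAt_ps δ t).pow 2).mul (hasDerivAt_qE1 hδ t))).add
    (hasDerivAt_qG1 t)).congr_deriv ?_
  simp only [qH2]
  norm_num
  ring

/-! ### continuity -/

theorem continuous_pk {δ : ℝ} (hδ : 0 < δ) : Continuous (pk δ) :=
  (continuous_chi δ).inv₀ fun t => (chi_pos hδ t).ne'

theorem continuous_pj : Continuous pj := continuous_phi.inv₀ fun t => (phi_pos t).ne'

theorem continuous_pb (δ : ℝ) : Continuous (pb δ) :=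
  continuous_const.mul continuous_stHalf

theorem continuous_pa : Continuous pa :=
  Real.smoothTransition.continuous.comp (by fun_prop)

theorem continuous_pb2 (δ : ℝ) : Continuous (pb2 δ) :=
  continuous_const.mul ((continuous_stD1.comp (continuous_id.div_const 2)).div_const 2)

theorem continuous_pa2 : Continuous pa2 := by
  have h : Continuous fun t : ℝ => (1 - t) / 2 := by fun_prop
  exact (continuous_stD1.comp h).div_const 2

theorem continuous_ps (δ : ℝ) : Continuous (ps δ) := continuous_const.mul continuous_sig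

theorem continuous_ps1 (δ : ℝ) : Continuous (ps1 δ) := by
  have h : Continuous fun t : ℝ => 3 * t - 1 := by fun_prop
  exact continuous_const.mul (continuous_const.mul (continuous_stD1.comp h))

theorem continuous_ps2 (δ : ℝ) : Continuous (ps2 δ) := by
  have h : Continuous fun t : ℝ => 3 * t - 1 := by fun_prop
  exact continuous_const.mul (continuous_const.mul (continuous_stD2.comp h))

theorem continuous_qE {δ : ℝ} (hδ : 0 < δ) : Continuous (qE δ) := (continuous_pk hδ).pow 2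

theorem continuous_qE1 {δ : ℝ} (hδ : 0 < δ) : Continuous (qE1 δ) := by
  have h1 := continuous_pk hδ
  have h2 := continuous_pb δ
  unfold qE1
  fun_prop

theorem continuous_qE2 {δ : ℝ} (hδ : 0 < δ) : Continuous (qE2 δ) := by
  have h1 := continuous_pk hδ
  have h2 := continuous_pb δ
  have h3 := continuous_pb2 δ
  unfold qE2
  fun_prop

theorem continuous_qG2 : Continuous qG2 := by
  have h1 := continuous_pj
  have h2 := continuous_pa
  have h3 := continuous_pa2
  unfold qG2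
  fun_prop

theorem continuous_qF2 {δ : ℝ} (hδ : 0 < δ) : Continuous (qF2 δ) := by
  have h1 := continuous_qE hδ
  have h2 := continuous_qE1 hδ
  have h3 := continuous_qE2 hδ
  have h4 := continuous_ps δ
  have h5 := continuous_ps1 δ
  have h6 := continuous_ps2 δ
  unfold qF2
  fun_prop

theorem continuous_qH2 {δ : ℝ} (hδ : 0 < δ) : Continuous (qH2 δ) := by
  have h1 := continuous_qE hδ
  have h2 := continuous_qE1 hδ
  have h3 := continuous_qE2 hδ
  have h4 := continuous_ps δ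
  have h5 := continuous_ps1 δ
  have h6 := continuous_ps2 δ
  have h7 := continuous_qG2
  unfold qH2
  fun_prop

/-! ### pointwise facts -/

theorem pk_pos {δ : ℝ} (hδ : 0 < δ) (t : ℝ) : 0 < pk δ t := inv_pos.2 (chi_pos hδ t)

theorem pj_pos (t : ℝ) : 0 < pj t := inv_pos.2 (phi_pos t)

theorem pa_of_ge {t : ℝ} (ht : 1 ≤ t) : pa t = 0 :=
  Real.smoothTransition.zero_of_nonpos (by linarith)

theorem pa2_of_ge {t : ℝ} (ht : 1 ≤ t) : pa2 t = 0 := by
  unfold pa2
  rw [stD1_of_nonpos (by linarith only [ht])]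
  simp

theorem pa_pos {t : ℝ} (ht : t < 1) : 0 < pa t :=
  Real.smoothTransition.pos_of_pos (by linarith)

theorem pb_of_le {δ t : ℝ} (ht : t ≤ 0) : pb δ t = 0 := by
  unfold pb
  rw [Real.smoothTransition.zero_of_nonpos (by linarith)]
  simp

theorem pb2_of_le {δ t : ℝ} (ht : t ≤ 0) : pb2 δ t = 0 := by
  unfold pb2
  rw [stD1_of_nonpos (by linarith only [ht])]
  simp

theorem pb_pos {δ t : ℝ} (hδ : 0 < δ) (ht : 0 < t) : 0 < pb δ t :=
  mul_pos hδ (Real.smoothTransition.pos_of_pos (by linarith))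

theorem pk_of_le {δ t : ℝ} (ht : t ≤ 0) : pk δ t = 1 := by
  unfold pk
  rw [chi_of_le ht, inv_one]

theorem pj_of_ge {t : ℝ} (ht : 1 ≤ t) : pj t = 1 := by
  unfold pj
  rw [phi_of_ge ht, inv_one]

theorem ps_of_le {δ t : ℝ} (ht : t ≤ 1 / 3) : ps δ t = 0 := by
  unfold ps
  rw [sig_of_le ht, mul_zero]

theorem ps_of_ge {δ t : ℝ} (ht : 2 / 3 ≤ t) : ps δ t = δ := by
  unfold ps
  rw [sig_of_ge ht, mul_one]

theorem ps1_of_le {δ t : ℝ} (ht : t ≤ 1 / 3) : ps1 δ t = 0 := by
  unfold ps1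
  rw [stD1_of_nonpos (by linarith)]
  simp

theorem ps1_of_ge {δ t : ℝ} (ht : 2 / 3 ≤ t) : ps1 δ t = 0 := by
  unfold ps1
  rw [stD1_of_one_le (by linarith)]
  simp

theorem ps2_of_le {δ t : ℝ} (ht : t ≤ 1 / 3) : ps2 δ t = 0 := by
  unfold ps2
  rw [stD2_of_zero (stD1_of_nonpos (by linarith))]
  simp

theorem ps2_of_ge {δ t : ℝ} (ht : 2 / 3 ≤ t) : ps2 δ t = 0 := by
  unfold ps2
  rw [stD2_of_zero (stD1_of_one_le (by linarith))]
  simp

/-- The standing assumptions hold along the collar, with a uniform constant. -/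
theorem exists_PW : ∃ C : ℝ, 1 ≤ C ∧ ∀ δ, 0 < δ → 10 ^ 6 * C ^ 2 * δ ≤ 1 → ∀ t, 0 ≤ t → t ≤ 1 →
    PW C δ (pa t) (pa2 t) (pb δ t) (pb2 δ t) (ps δ t) (ps1 δ t) (ps2 δ t) (phi t) (pj t)
      (pk δ t) := by
  obtain ⟨M, hM0, hM1, hM2⟩ := exists_bounds
  set c := Real.smoothTransition (1 / 6) with hc
  have hc0 : 0 < c := Real.smoothTransition.pos_of_pos (by norm_num)
  have hc1 : c ≤ 1 := Real.smoothTransition.le_one _
  have hC0 : 1 ≤ 1 / c ^ 2 := by
    rw [le_div_iff₀ (by positivity)]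
    nlinarith only [hc1, hc0]
  obtain ⟨C, hCd⟩ : ∃ C, C = (1 + 9 * M) / c ^ 2 := ⟨_, rfl⟩
  have hC1 : 1 ≤ C := by
    rw [hCd, le_div_iff₀ (by positivity)]
    nlinarith only [hM0, hc1, hc0]
  have hCc : 1 ≤ C * c := by
    have h1 : C * c = (1 + 9 * M) / c := by
      rw [hCd]; (clear * - hc0 hM0; field_simp)
    rw [h1, le_div_iff₀ hc0]
    nlinarith only [hM0, hc1]
  have hCM : 9 * M ≤ C * c ^ 2 := by
    have h1 : C * c ^ 2 = 1 + 9 * M := by
      rw [hCd]; field_simp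
    rw [h1]
    linarith only []
  refine ⟨C, hC1, fun δ hδ0 hδC t ht0 ht1 => ?_⟩
  have hC2 : (1 : ℝ) ≤ C ^ 2 := by nlinarith only [hC1]
  have hδ1 : δ ≤ 1 := by nlinarith only [hδC, hC2]
  have hSt : Real.smoothTransition (t / 2) ≤ 1 / 2 := S_le_half (by linarith only [ht1])
  have hSt0 := Real.smoothTransition.nonneg (t / 2)
  have hPt : P t ≤ 1 := by
    rw [← P_two]; exact monotone_P (by linarith only [ht1])
  have hPt' : P (1 - t) ≤ 1 := by
    have h1 := monotone_P (show 1 - t ≤ 2 by linarith only [ht0])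
    rwa [P_two] at h1
  have hφ2 : phi t ≤ 2 := by unfold phi; linarith only [hPt']
  have hχ2 : chi δ t ≤ 2 := by
    unfold chi
    nlinarith only [hδ0, hδC, hC2, hPt]
  have mid : ∀ r : ℝ, |r| ≤ 9 * M → 1 / 3 ≤ t → t ≤ 2 / 3 → |δ * r| ≤ C * pa t * pb δ t := by
    intro r hr h1 h2
    have e1 : c ≤ pa t := Real.smoothTransition.monotone (by linarith only [h2])
    have e2 : c ≤ Real.smoothTransition (t / 2) := Real.smoothTransition.monotone (by linarith only [h1])
    rw [abs_mul, abs_of_pos hδ0]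
    have e3 : c ^ 2 ≤ pa t * Real.smoothTransition (t / 2) := by
      rw [sq]
      exact mul_le_mul e1 e2 hc0.le (hc0.le.trans e1)
    have e4 : |r| ≤ C * (pa t * Real.smoothTransition (t / 2)) :=
      hr.trans (hCM.trans (mul_le_mul_of_nonneg_left e3 (by linarith only [hC1])))
    have e5 := mul_le_mul_of_nonneg_left e4 hδ0.le
    unfold pb
    linarith only [e5]
  have nn : 0 ≤ C * pa t * pb δ t := by
    unfold pa pb
    have := Real.smoothTransition.nonneg ((1 - t) / 2)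
    (clear * - hC1 this hδ0 hSt0; positivity)
  refine ⟨hC1, hδ0, hδC, Real.smoothTransition.nonneg _, S_le_half (by linarith only [ht0]), ?_,
    mul_nonneg hδ0.le hSt0, ?_, ?_, mul_nonneg hδ0.le (Real.smoothTransition.nonneg _), ?_, ?_, ?_,
    ?_, ?_, ?_, ?_, ?_, (phi_pos t).le, hφ2⟩
  · have := four_S_le (x := (1 - t) / 2) (by linarith only [ht0])
    unfold pa pa2
    linarith only [this]
  · unfold pb
    nlinarith only [hδ0, hSt]
  · have := four_S_le (x := t / 2) (by linarith only [ht1])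
    unfold pb pb2
    nlinarith only [hδ0, this]
  · unfold ps
    have : sig t ≤ 1 := Real.smoothTransition.le_one _
    nlinarith only [hδ0, this]
  · rcases le_or_gt t (1 / 3) with h | h
    · rw [ps_of_le h]
      unfold pb
      (clear * - hC1 hδ0 hSt0; positivity)
    · have e2 : c ≤ Real.smoothTransition (t / 2) := Real.smoothTransition.monotone (by linarith only [h])
      have e1 : sig t ≤ 1 := Real.smoothTransition.le_one _
      have e3 : 1 ≤ C * Real.smoothTransition (t / 2) :=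
        hCc.trans (mul_le_mul_of_nonneg_left e2 (by linarith only [hC1]))
      have e4 := mul_le_mul_of_nonneg_left (e1.trans e3) hδ0.le
      unfold ps pb
      linarith only [e4]
  · rcases le_or_gt t (1 / 3) with h | h
    · rw [ps1_of_le h, abs_zero]; exact nn
    · rcases le_or_gt t (2 / 3) with h' | h'
      · refine mid _ ?_ h.le h'
        rw [abs_mul, abs_of_pos (by norm_num : (0 : ℝ) < 3)]
        have := hM1 (3 * t - 1)
        linarith only [hM0, this]
      · rw [ps1_of_ge h'.le, abs_zero]; exact nn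
  · rcases le_or_gt t (1 / 3) with h | h
    · rw [ps2_of_le h, abs_zero]; exact nn
    · rcases le_or_gt t (2 / 3) with h' | h'
      · refine mid _ ?_ h.le h'
        rw [abs_mul, abs_of_pos (by norm_num : (0 : ℝ) < 9)]
        have := hM2 (3 * t - 1)
        linarith only [this]
      · rw [ps2_of_ge h'.le, abs_zero]; exact nn
  · unfold pj
    rw [one_div]
    exact inv_anti₀ (phi_pos t) hφ2
  · unfold pj
    exact inv_le_one_of_one_le₀ (one_le_phi t)
  · unfold pk
    rw [one_div]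
    exact inv_anti₀ (chi_pos hδ0 t) hχ2
  · unfold pk
    exact inv_le_one_of_one_le₀ (one_le_chi hδ0 t)

/-- nondegeneracy, left covector -/
theorem PW.zL {C δ α α2 β β2 s s1 s2 φ i k : ℝ} (h : PW C δ α α2 β β2 s s1 s2 φ i k)
    (hβ : 0 < β) {u w : ℝ} (hD : 0 ≤ α * i * w ^ 2 - β * k * u ^ 2 - s1 * φ * k * u * w)
    (hb : i * w - s * k * u = 0) : u = 0 ∧ w = 0 := by
  have hX := (abs_le.1 (h.X_le u w)).1
  have hz := h.z_sq u
  have hi0 := h.hi0
  have hi1 := h.hi1
  have hk0 := h.hk0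
  have hα0 := h.hα0
  have hα := h.hα
  have e1 : (s * k * u) ^ 2 = i ^ 2 * w ^ 2 := by
    have : s * k * u = i * w := by linarith only [hb]
    rw [this]; ring
  have e2 : w ^ 2 ≤ 4 * (s * k * u) ^ 2 := by
    rw [e1]
    have : 1 ≤ 4 * i ^ 2 := by nlinarith only [hi0]
    linarith only [mul_nonneg (sq_nonneg (w : ℝ)) (sub_nonneg.2 this)]
  have e3 : 0 ≤ β * u ^ 2 := mul_nonneg hβ.le (sq_nonneg u)
  have e4 : α * w ^ 2 ≤ w ^ 2 := by nlinarith only [hα]
  have e5 : α * i * w ^ 2 ≤ w ^ 2 := by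
    have : α * i ≤ 1 := by nlinarith only [hi1, hα, hi0]
    nlinarith only [this]
  have e6 : β * u ^ 2 * (1 / 2) ≤ β * k * u ^ 2 := by nlinarith only [hk0, hz]
  have e7 : β * u ^ 2 ≤ 0 := by linarith only [hD, hX, hz, e2, e4, e5, e6]
  have hu : u = 0 := by
    have e8 : u ^ 2 ≤ 0 := by
      by_contra h1
      have := mul_pos hβ (not_le.1 h1)
      linarith only [hD, hX, hz, e2, e4, e5, e6, this]
    exact pow_eq_zero_iff (two_ne_zero) |>.1 (le_antisymm e8 (sq_nonneg u))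
  refine ⟨hu, ?_⟩
  rw [hu] at hb
  have h2 : i * w = 0 := by linarith only [hb]
  rcases mul_eq_zero.1 h2 with h3 | h3
  · linarith only [hi0, h3]
  · exact h3

/-- nondegeneracy, right covector -/
theorem PW.zR {C δ α α2 β β2 s s1 s2 φ i k : ℝ} (h : PW C δ α α2 β β2 s s1 s2 φ i k)
    (hα : 0 < α) {u w : ℝ} (hD : α * i * w ^ 2 - β * k * u ^ 2 - s1 * φ * k * u * w ≤ 0)
    (hb : k * u = 0) : u = 0 ∧ w = 0 := by
  have hk0 := h.hk0
  have hi0 := h.hi0
  have hu : u = 0 := by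
    rcases mul_eq_zero.1 hb with h3 | h3
    · linarith only [hk0, h3]
    · exact h3
  refine ⟨hu, ?_⟩
  rw [hu] at hD
  have e1 : α * i * w ^ 2 ≤ 0 := by linarith only [hD]
  have e2 : w ^ 2 ≤ 0 := by
    by_contra h1
    have := mul_pos (mul_pos hα (show 0 < i by linarith only [hi0])) (not_le.1 h1)
    linarith only [hD, this]
  exact pow_eq_zero_iff (two_ne_zero) |>.1 (le_antisymm e2 (sq_nonneg w))

/-! ### transfer of the inequalities -/

section transfer

variable {α α2 β β2 s s1 s2 φ i k : ℝ}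

theorem tr_D (hφ : φ * i = 1) (p q : ℝ) :
    -(2 * β * k ^ 3) * p ^ 2 + 2 * -(s1 * k ^ 2 + s * -(2 * β * k ^ 3)) * p * q
      + (2 * s * s1 * k ^ 2 + s ^ 2 * -(2 * β * k ^ 3) + 2 * α * i ^ 3) * q ^ 2
    = 2 * (α * i * (i * q) ^ 2 - β * k * (k * (p - s * q)) ^ 2
      - s1 * φ * k * (k * (p - s * q)) * (i * q)) := by
  linear_combination (2 * s1 * k ^ 2 * q * (p - s * q)) * hφ

theorem tr_D2 (hφ : φ * i = 1) (p q : ℝ) :
    (6 * β ^ 2 * k ^ 4 - 2 * β2 * k ^ 3) * p ^ 2
      + 2 * -(s2 * k ^ 2 + 2 * s1 * -(2 * β * k ^ 3) + s * (6 * β ^ 2 * k ^ 4 - 2 * β2 * k ^ 3))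
        * p * q
      + (2 * s1 ^ 2 * k ^ 2 + 2 * s * s2 * k ^ 2 + 4 * s * s1 * -(2 * β * k ^ 3)
        + s ^ 2 * (6 * β ^ 2 * k ^ 4 - 2 * β2 * k ^ 3) + (6 * α ^ 2 * i ^ 4 - 2 * α2 * i ^ 3))
        * q ^ 2
    = 2 * (i * q) ^ 2 * (3 * α ^ 2 * i ^ 2 - α2 * i)
      + (k * (p - s * q)) ^ 2 * (6 * β ^ 2 * k ^ 2 - 2 * β2 * k)
      + (2 * s1 ^ 2 * φ ^ 2 * k ^ 2 * (i * q) ^ 2
        + 8 * s1 * β * φ * k ^ 2 * (i * q) * (k * (p - s * q))
        - 2 * s2 * φ * k * (i * q) * (k * (p - s * q))) := by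
  linear_combination (2 * s2 * k ^ 2 * q * (p - s * q) - 8 * s1 * β * k ^ 3 * q * (p - s * q)
    - 2 * s1 ^ 2 * k ^ 2 * q ^ 2 * (φ * i + 1)) * hφ

theorem tr_bL (p q : ℝ) :
    -(s * k ^ 2) * p + (s ^ 2 * k ^ 2 + i ^ 2) * q = i * (i * q) - s * k * (k * (p - s * q)) := by
  ring

theorem tr_btL (hφ : φ * i = 1) (p q : ℝ) :
    -(s1 * k ^ 2 + s * -(2 * β * k ^ 3)) * p
      + (2 * s * s1 * k ^ 2 + s ^ 2 * -(2 * β * k ^ 3) + 2 * α * i ^ 3) * q
    = 2 * α * i ^ 2 * (i * q) + (2 * β * k * (s * k * (k * (p - s * q)))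
      - s1 * k * (k * (p - s * q)) + s * s1 * φ * k ^ 2 * (i * q)) := by
  linear_combination (-(s * s1 * k ^ 2 * q)) * hφ

theorem tr_bR (p q : ℝ) : k ^ 2 * p + -(s * k ^ 2) * q = k * (k * (p - s * q)) := by
  ring

theorem tr_btR (hφ : φ * i = 1) (p q : ℝ) :
    -(2 * β * k ^ 3) * p + -(s1 * k ^ 2 + s * -(2 * β * k ^ 3)) * q
    = -(s1 * φ * k ^ 2 * (i * q)) - 2 * β * k ^ 2 * (k * (p - s * q)) := by
  linear_combination (s1 * k ^ 2 * q) * hφ

end transfer

theorem prof_back {δ t : ℝ} (hδ : 0 < δ) {p q : ℝ} (h : pk δ t * (p - ps δ t * q) = 0 ∧ pj t * q = 0) :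
    p = 0 ∧ q = 0 := by
  have h1 := pk_pos hδ t
  have h2 := pj_pos t
  have hq : q = 0 := by
    rcases mul_eq_zero.1 h.2 with h3 | h3
    · exact absurd h3 h2.ne'
    · exact h3
  refine ⟨?_, hq⟩
  rcases mul_eq_zero.1 h.1 with h3 | h3
  · exact absurd h3 h1.ne'
  · rw [hq] at h3
    linarith only [h3]

theorem phi_mul_pj (t : ℝ) : phi t * pj t = 1 := mul_inv_cancel₀ (phi_pos t).ne'

/-- **The profile.** -/
theorem exists_profile : ∃ δ₀ > 0, ∀ δ, 0 < δ → δ < δ₀ → ∃ Q : Profile, Q.δ = δ ∧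
    (∀ s, Q.E s = 1 / chi δ s ^ 2) ∧ (∀ s, Q.F s = -(δ * sig s) / chi δ s ^ 2) ∧
    (∀ s, Q.H s = (δ * sig s) ^ 2 / chi δ s ^ 2 + 1 / phi s ^ 2) := by
  obtain ⟨C, hC1, hPW⟩ := exists_PW
  refine ⟨1 / (10 ^ 6 * C ^ 2), by positivity, fun δ hδ hδ' => ?_⟩
  have hsm : 10 ^ 6 * C ^ 2 * δ ≤ 1 := by
    have h1 : (0 : ℝ) < 10 ^ 6 * C ^ 2 := by positivity
    have h2 := mul_le_mul_of_nonneg_left hδ'.le h1.le
    rwa [mul_one_div_cancel h1.ne'] at h2
  have hW := hPW δ hδ hsm
  have eE : ∀ s, qE δ s = 1 / chi δ s ^ 2 := by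
    intro s
    simp only [qE, pk]
    rw [inv_pow, one_div]
  refine ⟨{ E := qE δ, F := qF δ, H := qH δ, E1 := qE1 δ, F1 := qF1 δ, H1 := qH1 δ,
            E2 := qE2 δ, F2 := qF2 δ, H2 := qH2 δ, δ := δ
            dE := hasDerivAt_qE hδ
            dF := hasDerivAt_qF hδ
            dH := hasDerivAt_qH hδ
            dE1 := hasDerivAt_qE1 hδ
            dF1 := hasDerivAt_qF1 hδ
            dH1 := hasDerivAt_qH1 hδ
            cE2 := continuous_qE2 hδ
            cF2 := continuous_qF2 hδ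
            cH2 := continuous_qH2 hδ
            posE := fun s => pow_pos (pk_pos hδ s) 2
            posH := ?_
            det := ?_
            left := ?_
            leftH1 := ?_
            leftConv := ?_
            right := ?_
            rightE1 := ?_
            rightConv := ?_
            K1 := ?_
            zL := ?_
            zR := ?_
            K2 := ?_
            K3 := ?_ }, rfl, eE, ?_, ?_⟩
  · -- posH
    intro s
    have h1 := pk_pos hδ s
    have h2 := pj_pos s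
    simp only [qH, qE, qG]
    (clear * - h1 h2; positivity)
  · -- det
    intro s
    have h1 := pk_pos hδ s
    have h2 := pj_pos s
    simp only [qH, qE, qF, qG]
    have h3 : pk δ s ^ 2 * (ps δ s ^ 2 * pk δ s ^ 2 + pj s ^ 2) - (-(ps δ s * pk δ s ^ 2)) ^ 2
        = pk δ s ^ 2 * pj s ^ 2 := by ring
    rw [h3]
    (clear * - h1 h2; positivity)
  · -- left
    intro s hs
    simp only [qE, qF, qE1, qF1, qE2, qF2, pk_of_le hs, pb_of_le hs, pb2_of_le hs,
      ps_of_le (show s ≤ 1 / 3 by linarith only [hs]), ps1_of_le (show s ≤ 1 / 3 by linarith only [hs]),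
      ps2_of_le (show s ≤ 1 / 3 by linarith only [hs])]
    norm_num
  · -- leftH1
    intro s hs
    simp only [qH1, qE, qE1, qG1, pk_of_le hs, pb_of_le hs,
      ps_of_le (show s ≤ 1 / 3 by linarith only [hs]), ps1_of_le (show s ≤ 1 / 3 by linarith only [hs])]
    have h1 := pa_pos (show s < 1 by linarith only [hs])
    have h2 := pj_pos s
    have h3 : 0 < 2 * pa s * pj s ^ 3 := by (clear * - h1 h2; positivity)
    linarith only [h3]
  · -- leftConv
    intro s hs
    simp only [qH, qH1, qH2, qE, qE1, qE2, qG, qG1, qG2, pk_of_le hs, pb_of_le hs, pb2_of_le hs,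
      ps_of_le (show s ≤ 1 / 3 by linarith only [hs]), ps1_of_le (show s ≤ 1 / 3 by linarith only [hs]),
      ps2_of_le (show s ≤ 1 / 3 by linarith only [hs])]
    have h2 := pj_pos s
    have h4 : 0 ≤ pa2 s := by
      unfold pa2
      have := stD1_nonneg ((1 - s) / 2)
      (clear * - this; positivity)
    have h3 : 0 ≤ 2 * pa2 s * pj s ^ 5 := by (clear * - h4 h2; positivity)
    refine h3.trans (le_of_eq ?_)
    ring
  · -- right
    intro s hs
    simp only [qH, qH1, qH2, qF, qF1, qF2, qG, qG1, qG2, pj_of_ge hs, pa_of_ge hs, pa2_of_ge hs,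
      ps_of_ge (show 2 / 3 ≤ s by linarith only [hs]), ps1_of_ge (show 2 / 3 ≤ s by linarith only [hs]),
      ps2_of_ge (show 2 / 3 ≤ s by linarith only [hs])]
    refine ⟨?_, ?_, ?_, ?_, ?_, ?_⟩ <;> ring
  · -- rightE1
    intro s hs
    have h1 := pk_pos hδ s
    have h2 := pb_pos hδ (show 0 < s by linarith only [hs])
    have h3 : 0 < 2 * pb δ s * pk δ s ^ 3 := by positivity
    simp only [qE1]
    linarith only [h3]
  · -- rightConv
    intro s hs
    have h1 := pk_pos hδ s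
    have h4 : 0 ≤ pb2 δ s := by
      unfold pb2
      have := stD1_nonneg (s / 2)
      (clear * - hδ this; positivity)
    have h3 : 0 ≤ 2 * pb2 δ s * pk δ s ^ 5 := by (clear * - h4 h1; positivity)
    simp only [qE, qE1, qE2]
    refine h3.trans (le_of_eq ?_)
    ring
  · -- K1
    intro s hs0 hs1 p q
    have h := hW s hs0 hs1
    have h1 := h.k1 (pk δ s * (p - ps δ s * q)) (pj s * q)
    have h2 := tr_D2 (α := pa s) (α2 := pa2 s) (β := pb δ s) (β2 := pb2 δ s) (s := ps δ s)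
      (s1 := ps1 δ s) (s2 := ps2 δ s) (k := pk δ s) (phi_mul_pj s) p q
    have h3 : 0 ≤ pa s * (pj s * q) ^ 2 := mul_nonneg h.hα0 (sq_nonneg _)
    have h4 : 0 ≤ pb δ s * (pk δ s * (p - ps δ s * q)) ^ 2 := mul_nonneg h.hβ0 (sq_nonneg _)
    simp only [qE2, qF2, qH2, qE, qE1, qG2]
    linarith only [h1, h2, h3, h4]
  · -- zL
    intro s hs0 hs1 p q hD hpq hb
    have h := hW s hs0.le hs1
    have h2 := tr_D (α := pa s) (β := pb δ s) (s := ps δ s)
      (s1 := ps1 δ s) (k := pk δ s) (phi_mul_pj s) p q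
    have h3 := tr_bL (s := ps δ s) (k := pk δ s) (i := pj s) p q
    have h4 := prof_back hδ (h.zL (pb_pos hδ hs0) (u := pk δ s * (p - ps δ s * q)) (w := pj s * q)
      (by simp only [qE1, qF1, qH1, qE, qG1] at hD; linarith only [hD, h2])
      (by simp only [qF, qH, qE, qG] at hb; linarith only [hb, h3]))
    rcases hpq with hp | hq
    · exact hp h4.1
    · exact hq h4.2
  · -- zR
    intro s hs0 hs1 p q hD hpq hb
    have h := hW s hs0 hs1.le
    have h2 := tr_D (α := pa s) (β := pb δ s) (s := ps δ s)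
      (s1 := ps1 δ s) (k := pk δ s) (phi_mul_pj s) p q
    have h3 := tr_bR (s := ps δ s) (k := pk δ s) p q
    have h4 := prof_back hδ (h.zR (pa_pos hs1) (u := pk δ s * (p - ps δ s * q)) (w := pj s * q)
      (by simp only [qE1, qF1, qH1, qE, qG1] at hD; linarith only [hD, h2])
      (by simp only [qF, qE] at hb; linarith only [hb]))
    rcases hpq with hp | hq
    · exact hp h4.1
    · exact hq h4.2
  · -- K2
    intro s hs0 hs1 p q hD
    have h := hW s hs0 hs1
    have h2 := tr_D (α := pa s) (β := pb δ s) (s := ps δ s)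
      (s1 := ps1 δ s) (k := pk δ s) (phi_mul_pj s) p q
    have h2' := tr_D2 (α := pa s) (α2 := pa2 s) (β := pb δ s) (β2 := pb2 δ s) (s := ps δ s)
      (s1 := ps1 δ s) (s2 := ps2 δ s) (k := pk δ s) (phi_mul_pj s) p q
    have h3 := tr_bL (s := ps δ s) (k := pk δ s) (i := pj s) p q
    have h4 := tr_btL (α := pa s) (β := pb δ s) (s := ps δ s)
      (s1 := ps1 δ s) (k := pk δ s) (phi_mul_pj s) p q
    simp only [qE, qF, qH, qG, qE1, qF1, qH1, qG1, qE2, qF2, qH2, qG2] at hD ⊢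
    rw [h2] at hD
    rw [h2, h2', h3, h4]
    have h5 := h.k2 (pk δ s * (p - ps δ s * q)) (pj s * q) rfl (by linarith only [hD]) rfl rfl rfl
    linarith only [h5]
  · -- K3
    intro s hs0 hs1 p q hD
    have h := hW s hs0 hs1
    have h2 := tr_D (α := pa s) (β := pb δ s) (s := ps δ s)
      (s1 := ps1 δ s) (k := pk δ s) (phi_mul_pj s) p q
    have h2' := tr_D2 (α := pa s) (α2 := pa2 s) (β := pb δ s) (β2 := pb2 δ s) (s := ps δ s)
      (s1 := ps1 δ s) (s2 := ps2 δ s) (k := pk δ s) (phi_mul_pj s) p q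
    have h3 := tr_bR (s := ps δ s) (k := pk δ s) p q
    have h4 := tr_btR (β := pb δ s) (s := ps δ s)
      (s1 := ps1 δ s) (k := pk δ s) (phi_mul_pj s) p q
    simp only [qE, qF, qE1, qF1, qH1, qG1, qE2, qF2, qH2, qG2] at hD ⊢
    rw [h2] at hD
    rw [h2, h2', h3, h4]
    have h5 := h.k3 (pk δ s * (p - ps δ s * q)) (pj s * q) rfl (by linarith only [hD]) rfl rfl rfl
    linarith only [h5]
  · intro s
    change qF δ s = _
    simp only [qF, ps]
    rw [eE, neg_div, mul_one_div]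
  · intro s
    change qH δ s = _
    simp only [qH, ps, qG, pj]
    rw [eE, mul_one_div, inv_pow, one_div]

end Vale.Agent.P255
end
end
end

section

section

/-!
# P255: geodesics and Jacobi fields of the collar metric in Hamiltonian form
-/

open scoped Manifold ContDiff Topology
open Set Filter

set_option maxSynthPendingDepth 3

noncomputable section

namespace Vale.Agent.P255

/-! ### entries of a profile -/

section prof

variable {δ : ℝ} (hδ : 0 < δ) {Q : Profile} (hQ : IsProf δ Q)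
include hQ

theorem prof_E : Q.E = qE δ := by
  funext s; rw [hQ.hE, qE, pk]; simp

theorem prof_F : Q.F = qF δ := by
  funext s; rw [hQ.hF, qF, qE, pk, ps]; simp only [div_eq_mul_inv, neg_mul, inv_pow]

theorem prof_H : Q.H = qH δ := by
  funext s; rw [hQ.hH, qH, qE, qG, pk, ps, pj]; simp only [div_eq_mul_inv, one_mul, inv_pow]

end prof

section prof2

variable {δ : ℝ} (hδ : 0 < δ) {Q : Profile} (hQ : IsProf δ Q)
include hδ hQ

theorem prof_E1 : Q.E1 = qE1 δ := by
  funext s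
  have h := Q.dE s
  rw [prof_E hQ] at h
  exact h.unique (hasDerivAt_qE hδ s)

theorem prof_F1 : Q.F1 = qF1 δ := by
  funext s
  have h := Q.dF s
  rw [prof_F hQ] at h
  exact h.unique (hasDerivAt_qF hδ s)

theorem prof_H1 : Q.H1 = qH1 δ := by
  funext s
  have h := Q.dH s
  rw [prof_H hQ] at h
  exact h.unique (hasDerivAt_qH hδ s)

theorem prof_E2 : Q.E2 = qE2 δ := by
  funext s
  have h := Q.dE1 s
  rw [prof_E1 hδ hQ] at h
  exact h.unique (hasDerivAt_qE1 hδ s)

theorem prof_F2 : Q.F2 = qF2 δ := by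
  funext s
  have h := Q.dF1 s
  rw [prof_F1 hδ hQ] at h
  exact h.unique (hasDerivAt_qF1 hδ s)

theorem prof_H2 : Q.H2 = qH2 δ := by
  funext s
  have h := Q.dH1 s
  rw [prof_H1 hδ hQ] at h
  exact h.unique (hasDerivAt_qH1 hδ s)

end prof2

/-! ### the coefficients of the collar metric -/

/-- `GC` as a function of the distance coordinate -/
def gf (δ : ℝ) (v w : E3) (s : ℝ) : ℝ :=
  v 0 * w 0 + chi δ s ^ 2 * (v 1 * w 1) + phi s ^ 2 * ((v 2 + ps δ s * v 1) * (w 2 + ps δ s * w 1))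

/-- first derivative -/
def gf1 (δ : ℝ) (v w : E3) (s : ℝ) : ℝ :=
  2 * chi δ s * pb δ s * (v 1 * w 1)
    - 2 * phi s * pa s * ((v 2 + ps δ s * v 1) * (w 2 + ps δ s * w 1))
    + phi s ^ 2 * (ps1 δ s * v 1 * (w 2 + ps δ s * w 1) + (v 2 + ps δ s * v 1) * (ps1 δ s * w 1))

/-- second derivative -/
def gf2 (δ : ℝ) (v w : E3) (s : ℝ) : ℝ :=
  2 * (pb δ s ^ 2 + chi δ s * pb2 δ s) * (v 1 * w 1)
    + 2 * (pa s ^ 2 + phi s * pa2 s) * ((v 2 + ps δ s * v 1) * (w 2 + ps δ s * w 1))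
    - 4 * phi s * pa s
      * (ps1 δ s * v 1 * (w 2 + ps δ s * w 1) + (v 2 + ps δ s * v 1) * (ps1 δ s * w 1))
    + phi s ^ 2 * (ps2 δ s * v 1 * (w 2 + ps δ s * w 1) + 2 * (ps1 δ s * v 1) * (ps1 δ s * w 1)
      + (v 2 + ps δ s * v 1) * (ps2 δ s * w 1))

theorem GC_eq_gf (δ : ℝ) (u v w : E3) : GC δ u v w = gf δ v w (u 0) := by
  rw [GC_apply]; rfl

theorem hasDerivAt_gf (δ : ℝ) (v w : E3) (s : ℝ) : HasDerivAt (gf δ v w) (gf1 δ v w s) s := by
  have h1 := ((hasDerivAt_chi_pf δ s).pow 2).mul_const (v 1 * w 1)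
  have h2 := (hasDerivAt_phi_pf s).pow 2
  have h3 := ((hasDerivAt_ps δ s).mul_const (v 1)).const_add (v 2)
  have h4 := ((hasDerivAt_ps δ s).mul_const (w 1)).const_add (w 2)
  have h5 := (h1.const_add (v 0 * w 0)).add (h2.mul (h3.mul h4))
  refine h5.congr_deriv ?_
  simp only [gf1, Pi.pow_apply, Nat.cast_ofNat, Nat.reduceSub, pow_one, Pi.mul_apply]
  ring

theorem hasDerivAt_gf1 (δ : ℝ) (v w : E3) (s : ℝ) : HasDerivAt (gf1 δ v w) (gf2 δ v w s) s := by
  have hc := hasDerivAt_chi_pf δ s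
  have hp := hasDerivAt_phi_pf s
  have h3 := ((hasDerivAt_ps δ s).mul_const (v 1)).const_add (v 2)
  have h4 := ((hasDerivAt_ps δ s).mul_const (w 1)).const_add (w 2)
  have h5 := (hasDerivAt_ps1 δ s).mul_const (v 1)
  have h6 := (hasDerivAt_ps1 δ s).mul_const (w 1)
  have a1 := (((hc.const_mul 2).mul (hasDerivAt_pb δ s)).mul_const (v 1 * w 1))
  have a2 := (((hp.const_mul 2).mul (hasDerivAt_pa s)).mul (h3.mul h4))
  have a3 := (hp.pow 2).mul ((h5.mul h4).add (h3.mul h6))
  have h7 := (a1.sub a2).add a3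
  refine h7.congr_deriv ?_
  simp only [gf2, Pi.pow_apply, Nat.cast_ofNat, Nat.reduceSub, pow_one, Pi.mul_apply, Pi.add_apply]
  ring

theorem isMetricOn_GC {δ : ℝ} (hδ : 0 < δ) : IsMetricOn (GC δ) univ where
  isOpen := isOpen_univ
  smooth := contDiff_GC.contDiffOn
  symm := fun u _ v w => Gk_symm (δ := δ) .C u v w
  pos := fun u _ v hv => GC_pos hδ u v hv

theorem hasFDerivAt_zero_coord (f : ℝ → ℝ) {f' : ℝ} {u : E3} (h : HasDerivAt f f' (u 0)) :
    HasFDerivAt (fun p : E3 => f (p 0)) (f' • (EuclideanSpace.proj (𝕜 := ℝ) (0 : Fin 3))) u := by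
  have h1 : HasFDerivAt (fun p : E3 => p 0) (EuclideanSpace.proj (𝕜 := ℝ) (0 : Fin 3)) u :=
    (EuclideanSpace.proj (𝕜 := ℝ) (0 : Fin 3)).hasFDerivAt
  exact h.comp_hasFDerivAt u h1

theorem fderiv_GC {δ : ℝ} (hδ : 0 < δ) (u z v w : E3) :
    fderiv ℝ (GC δ) u z v w = gf1 δ v w (u 0) * z 0 := by
  rw [← (isMetricOn_GC hδ).fderiv_apply_apply (mem_univ u)]
  have h : (fun x => GC δ x v w) = fun p : E3 => gf δ v w (p 0) := by
    funext x; exact GC_eq_gf δ x v w
  rw [h, (hasFDerivAt_zero_coord _ (hasDerivAt_gf δ v w (u 0))).fderiv]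
  simp

theorem fderiv_fderiv_GC {δ : ℝ} (hδ : 0 < δ) (u z v w y : E3) :
    fderiv ℝ (fun p => fderiv ℝ (GC δ) p z v w) u y = gf2 δ v w (u 0) * y 0 * z 0 := by
  have h : (fun p => fderiv ℝ (GC δ) p z v w) = fun p : E3 => gf1 δ v w (p 0) * z 0 := by
    funext x; exact fderiv_GC hδ x z v w
  rw [h, ((hasFDerivAt_zero_coord _ (hasDerivAt_gf1 δ v w (u 0))).mul_const (z 0)).fderiv]
  simp
  ring

end Vale.Agent.P255
end
end
end

section

section

/-!
# P255: geodesics and Jacobi fields of the collar metric in Hamiltonian form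
-/

open scoped Manifold ContDiff Topology
open Set Filter

set_option maxSynthPendingDepth 3

noncomputable section

namespace Vale.Agent.P255

theorem eventually_const_of_deriv {f : ℝ → ℝ} {t : ℝ} (h : ∀ᶠ v in 𝓝 t, HasDerivAt f 0 v) :
    ∀ᶠ v in 𝓝 t, f v = f t := by
  obtain ⟨ε, hε, hb⟩ := Metric.eventually_nhds_iff_ball.1 h
  filter_upwards [Metric.ball_mem_nhds t hε] with v hv
  have hconv : Convex ℝ (Metric.ball t ε) := convex_ball t ε
  refine hconv.is_const_of_fderivWithin_eq_zero (𝕜 := ℝ) (f := f) ?_ ?_ hv (Metric.mem_ball_self hε)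
  · intro x hx
    exact (hb x hx).differentiableAt.differentiableWithinAt
  · intro x hx
    rw [fderivWithin_of_isOpen Metric.isOpen_ball hx]
    have := (hb x hx).hasFDerivAt.fderiv
    rw [this]
    ext
    simp only [ContinuousLinearMap.toSpanSingleton_zero, zero_apply]

section

variable {δ : ℝ} {c J : ℝ → E3} {v : ℝ}

/-- components of the momenta -/
theorem momP_one (v : ℝ) : momP (GC δ) c 1 v = chi δ (c v 0) ^ 2 * (deriv c v) 1
    + phi (c v 0) ^ 2 * (((deriv c v) 2 + ps δ (c v 0) * (deriv c v) 1) * ps δ (c v 0)) := by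
  unfold momP
  rw [GC_eq_gf]
  simp only [gf, Fin.isValue, ne_eq, zero_ne_one, not_false_eq_true, PiLp.single_eq_of_ne, mul_zero, PiLp.single_eq_same, mul_one, zero_add, Fin.reduceEq]

theorem momP_two (v : ℝ) : momP (GC δ) c 2 v =
    phi (c v 0) ^ 2 * ((deriv c v) 2 + ps δ (c v 0) * (deriv c v) 1) := by
  unfold momP
  rw [GC_eq_gf]
  simp only [gf, Fin.isValue, ne_eq, Fin.reduceEq, not_false_eq_true, PiLp.single_eq_of_ne, mul_zero, add_zero, PiLp.single_eq_same, mul_one, zero_add]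

theorem momU_one (hδ : 0 < δ) (v : ℝ) : momU (GC δ) c J 1 v = chi δ (c v 0) ^ 2 * (deriv J v) 1
    + phi (c v 0) ^ 2 * (((deriv J v) 2 + ps δ (c v 0) * (deriv J v) 1) * ps δ (c v 0))
    + (2 * chi δ (c v 0) * pb δ (c v 0) * (deriv c v) 1
      - 2 * phi (c v 0) * pa (c v 0)
          * (((deriv c v) 2 + ps δ (c v 0) * (deriv c v) 1) * ps δ (c v 0))
      + phi (c v 0) ^ 2 * (ps1 δ (c v 0) * (deriv c v) 1 * ps δ (c v 0)
          + ((deriv c v) 2 + ps δ (c v 0) * (deriv c v) 1) * ps1 δ (c v 0))) * J v 0 := by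
  unfold momU
  rw [GC_eq_gf, fderiv_GC hδ]
  simp only [gf, Fin.isValue, ne_eq, zero_ne_one, not_false_eq_true, PiLp.single_eq_of_ne, mul_zero, PiLp.single_eq_same, mul_one, zero_add, Fin.reduceEq, gf1]

theorem momU_two (hδ : 0 < δ) (v : ℝ) : momU (GC δ) c J 2 v =
    phi (c v 0) ^ 2 * ((deriv J v) 2 + ps δ (c v 0) * (deriv J v) 1)
    + (- 2 * phi (c v 0) * pa (c v 0)
          * ((deriv c v) 2 + ps δ (c v 0) * (deriv c v) 1)
      + phi (c v 0) ^ 2 * (ps1 δ (c v 0) * (deriv c v) 1)) * J v 0 := by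
  unfold momU
  rw [GC_eq_gf, fderiv_GC hδ]
  simp only [gf, Fin.isValue, ne_eq, Fin.reduceEq, not_false_eq_true, PiLp.single_eq_of_ne, mul_zero, add_zero, PiLp.single_eq_same, mul_one, zero_add, gf1, zero_sub, neg_mul]

theorem deriv_coord {f : ℝ → E3} (h : DifferentiableAt ℝ f v) (i : Fin 3) :
    HasDerivAt (fun x => f x i) ((deriv f v) i) v :=
  (EuclideanSpace.proj (𝕜 := ℝ) i).hasFDerivAt.comp_hasDerivAt v h.hasDerivAt

theorem collarZero (hδ : 0 < δ) : CollarZero δ := by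
  intro c J v _ h0 h1 h2 h3
  rw [momU_one hδ] at h2
  rw [momU_two hδ] at h3
  have hJ0 : J v 0 = 0 := by rw [h0]; rfl
  rw [hJ0, mul_zero, add_zero] at h2 h3
  have hp := phi_pos (c v 0)
  have hc := chi_pos hδ (c v 0)
  have e1 : (deriv J v) 2 + ps δ (c v 0) * (deriv J v) 1 = 0 := by
    rcases mul_eq_zero.1 h3 with h | h
    · exact absurd h (by (clear * - hp; positivity))
    · exact h
  rw [e1, zero_mul, mul_zero, add_zero] at h2
  have e2 : (deriv J v) 1 = 0 := by
    rcases mul_eq_zero.1 h2 with h | h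
    · exact absurd h (by (clear * - hc; positivity))
    · exact h
  rw [e2, mul_zero, add_zero] at e1
  ext i
  fin_cases i
  · exact h1
  · exact e2
  · exact e1

/-- the Hamiltonian form -/
theorem collarSol (hδ : 0 < δ) {Q : Profile} (hQ : IsProf δ Q) : CollarSol δ Q := by
  intro c J t hgj
  have hM := isMetricOn_GC hδ
  -- conservation laws
  have hlin : ∀ᶠ v in 𝓝 t, HasDerivAt (deriv J) (- (fderiv ℝ (fun p => chris (GC δ) p (deriv c v)
      (deriv c v)) (c v) (J v) + (2 : ℝ) • chris (GC δ) (c v) (deriv c v) (deriv J v))) v := by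
    filter_upwards [hgj] with v h
    exact hM.linearized_of_jacobi (mem_univ _) h.dc h.dc' h.geo h.dJ h.dJ' h.jac
  have hP : ∀ z : E3, z 0 = 0 → ∀ᶠ v in 𝓝 t, GC δ (c v) (deriv c v) z
      = GC δ (c t) (deriv c t) z := by
    intro z hz
    apply eventually_const_of_deriv (f := fun v => GC δ (c v) (deriv c v) z)
    filter_upwards [hgj] with v h
    have := hM.hasDerivAt_momentum (mem_univ _) h.dc h.dc' h.geo z
    rw [fderiv_GC hδ, hz] at this
    simpa only [one_div, Fin.isValue, mul_zero] using this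
  have hU : ∀ z : E3, z 0 = 0 → ∀ᶠ v in 𝓝 t,
      GC δ (c v) (deriv J v) z + fderiv ℝ (GC δ) (c v) (J v) (deriv c v) z
      = GC δ (c t) (deriv J t) z + fderiv ℝ (GC δ) (c t) (J t) (deriv c t) z := by
    intro z hz
    apply eventually_const_of_deriv
      (f := fun v => GC δ (c v) (deriv J v) z + fderiv ℝ (GC δ) (c v) (J v) (deriv c v) z)
    filter_upwards [hgj, hlin] with v h h'
    have := hM.hasDerivAt_linMomentum (mem_univ _) h.dc h.dc' h.geo h.dJ h' z
    rw [fderiv_GC hδ, fderiv_fderiv_GC hδ, hz] at this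
    simpa only [one_div, Fin.isValue, mul_zero, add_zero] using this
  have z1 : (EuclideanSpace.single (1 : Fin 3) (1 : ℝ) : E3) 0 = 0 := by simp only [Fin.isValue, ne_eq, zero_ne_one, not_false_eq_true, PiLp.single_eq_of_ne]
  have z2 : (EuclideanSpace.single (2 : Fin 3) (1 : ℝ) : E3) 0 = 0 := by simp
  filter_upwards [hgj, hlin, hP _ z1, hP _ z2, hU _ z1, hU _ z2] with v h hl p1 p2 u1 u2
  have p1' : momP (GC δ) c 1 v = momP (GC δ) c 1 t := p1
  have p2' : momP (GC δ) c 2 v = momP (GC δ) c 2 t := p2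
  have u1' : momU (GC δ) c J 1 v = momU (GC δ) c J 1 t := u1
  have u2' : momU (GC δ) c J 2 v = momU (GC δ) c J 2 t := u2
  refine ⟨p1', p2', u1', u2', ?_⟩
  rw [← p1', ← p2', ← u1', ← u2']
  have hχ : chi δ (c v 0) ≠ 0 := (chi_pos hδ (c v 0)).ne'
  have hφ : phi (c v 0) ≠ 0 := (phi_pos (c v 0)).ne'
  have eE := prof_E hQ
  have eF := prof_F hQ
  have eH := prof_H hQ
  have eE1 := prof_E1 hδ hQ
  have eF1 := prof_F1 hδ hQ
  have eH1 := prof_H1 hδ hQ
  have eE2 := prof_E2 hδ hQ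
  have eF2 := prof_F2 hδ hQ
  have eH2 := prof_H2 hδ hQ
  have f0 : ∀ (x y : E3), GC δ x y (EuclideanSpace.single (0 : Fin 3) (1 : ℝ)) = y 0 := by
    intro x y
    rw [GC_eq_gf]; simp [gf]
  have f1 : ∀ (x y w : E3), fderiv ℝ (GC δ) x w y (EuclideanSpace.single (0 : Fin 3) (1 : ℝ)) = 0 := by
    intro x y w
    rw [fderiv_GC hδ]; simp [gf1]
  have z0 : (EuclideanSpace.single (0 : Fin 3) (1 : ℝ) : E3) 0 = 1 := by simp
  constructor
  · exact deriv_coord h.dc 0
  · have h1 := hM.hasDerivAt_momentum (mem_univ _) h.dc h.dc' h.geo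
      (EuclideanSpace.single (0 : Fin 3) (1 : ℝ))
    simp only [f0] at h1
    rw [fderiv_GC hδ, z0, mul_one] at h1
    refine h1.congr_deriv ?_
    rw [Profile.D, eE1, eF1, eH1, momP_one, momP_two]
    simp only [gf1, qE1, qF1, qH1, qE, qG1, pk, pj]
    exact colalg_sigma hχ hφ
  · exact deriv_coord h.dJ 0
  · have h1 := hM.hasDerivAt_linMomentum (mem_univ _) h.dc h.dc' h.geo h.dJ hl
      (EuclideanSpace.single (0 : Fin 3) (1 : ℝ))
    simp only [f0, f1, add_zero] at h1
    rw [fderiv_fderiv_GC hδ, fderiv_GC hδ, z0, mul_one, mul_one] at h1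
    refine h1.congr_deriv ?_
    rw [Profile.D2, eE1, eF1, eH1, eE2, eF2, eH2, momP_one, momP_two, momU_one hδ, momU_two hδ]
    simp only [gf1, gf2, qE1, qF1, qH1, qE2, qF2, qH2, qE, qG1, qG2, pk, pj]
    exact colalg_rho hχ hφ
  · refine (deriv_coord h.dJ 1).congr_deriv ?_
    rw [eE, eF, eE1, eF1, momP_one, momP_two, momU_one hδ, momU_two hδ]
    simp only [qE, qF, qE1, qF1, pk]
    exact colalg_h1 hχ
  · refine (deriv_coord h.dJ 2).congr_deriv ?_
    rw [eF, eH, eF1, eH1, momP_one, momP_two, momU_one hδ, momU_two hδ]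
    simp only [qE, qF, qE1, qF1, qH, qH1, qG, qG1, pk, pj]
    exact colalg_h2 hχ hφ

theorem left_facts (hδ : 0 < δ) {Q : Profile} (hQ : IsProf δ Q) {s : ℝ} (hs : s ≤ 0) :
    chi δ s = 1 ∧ ps δ s = 0 ∧ ps1 δ s = 0 ∧ pb δ s = 0 := by
  have h1 := chi_of_le (δ := δ) hs
  have h2 : ps δ s = 0 := by rw [ps, sig_of_le (by linarith only [hs]), mul_zero]
  obtain ⟨-, -, l3, l4, -, -⟩ := Q.left s hs
  rw [prof_E1 hδ hQ, qE1, pk, h1] at l3
  rw [prof_F1 hδ hQ, qF1, qE, pk, h1, h2] at l4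
  refine ⟨h1, h2, ?_, ?_⟩
  · simpa using l4
  · simpa using l3

theorem right_facts (hδ : 0 < δ) {Q : Profile} (hQ : IsProf δ Q) {s : ℝ} (hs : 1 ≤ s) :
    phi s = 1 ∧ ps δ s = δ ∧ ps1 δ s = 0 ∧ pa s = 0 := by
  have h1 := phi_of_ge hs
  have h2 : ps δ s = δ := by rw [ps, sig_of_ge (by linarith only [hs]), mul_one]
  have hk : pk δ s ≠ 0 := inv_ne_zero (chi_pos hδ s).ne'
  obtain ⟨-, -, l3, l4, -, -⟩ := Q.right s hs
  rw [prof_F1 hδ hQ, prof_E1 hδ hQ, hQ.hδ, qF1, qE, h2] at l3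
  have h3 : ps1 δ s = 0 := by
    have h4 : ps1 δ s * pk δ s ^ 2 = 0 := by linarith only [l3]
    rcases mul_eq_zero.1 h4 with h | h
    · exact h
    · exact absurd h (pow_ne_zero 2 hk)
  rw [prof_H1 hδ hQ, prof_E1 hδ hQ, hQ.hδ, qH1, qE, h2, h3, qG1, pj, h1] at l4
  refine ⟨h1, h2, h3, ?_⟩
  have : 2 * pa s * (1 : ℝ)⁻¹ ^ 3 = 0 := by linarith only [l4]
  simpa using this

theorem collarNorm (hδ : 0 < δ) {Q : Profile} (hQ : IsProf δ Q) : CollarNorm δ Q := by
  intro c J v h hs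
  have hM := isMetricOn_GC hδ
  have hN : HasDerivAt (fun x => GC δ (c x) (J x) (J x))
      (gf1 δ (J v) (J v) (c v 0) * (deriv c v) 0 + gf δ (deriv J v) (J v) (c v 0)
        + gf δ (J v) (deriv J v) (c v 0)) v := by
    have h1 := ((hM.hasDerivAt_coef (mem_univ _) h.dc).clm_apply h.dJ.hasDerivAt).clm_apply
      h.dJ.hasDerivAt
    refine h1.congr_deriv ?_
    simp only [add_apply]
    rw [fderiv_GC hδ, GC_eq_gf, GC_eq_gf]
  rw [hN.deriv]
  have hχ : chi δ (c v 0) ≠ 0 := (chi_pos hδ (c v 0)).ne'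
  have hφ : phi (c v 0) ≠ 0 := (phi_pos (c v 0)).ne'
  unfold PhiC PhiFun
  rcases hs with hs | hs
  · rw [if_pos hs]
    obtain ⟨e1, e2, e3, e4⟩ := left_facts hδ hQ hs.le
    unfold PL
    rw [prof_H hQ, prof_H1 hδ hQ, momP_two, momU_one hδ, momU_two hδ]
    simp only [gf, gf1, qH, qH1, qE, qE1, qG, qG1, pk, pj, e1, e2, e3, e4]
    field_simp
    ring
  · rw [if_neg (by linarith), if_pos hs]
    obtain ⟨e1, e2, e3, e4⟩ := right_facts hδ hQ hs.le
    unfold PR
    rw [prof_E hQ, prof_E1 hδ hQ, momP_one, momP_two, momU_one hδ, momU_two hδ, hQ.hδ]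
    simp only [gf, gf1, qE, qE1, pk, e1, e2, e3, e4]
    field_simp
    ring

end

end Vale.Agent.P255
end
end
end

section

section

/-!
# P255: the explicit metric has no conjugate points
-/

noncomputable section

namespace Vale.Agent.P255

theorem noConj_g0 : ∃ δ₀ > 0, ∀ δ (hδ : 0 < δ), δ < δ₀ → NoConj (g0 δ hδ) := by
  obtain ⟨δ₀, h0, h⟩ := exists_profile
  refine ⟨δ₀, h0, fun δ hδ hlt => ?_⟩
  obtain ⟨Q, h1, h2, h3, h4⟩ := h δ hδ hlt
  have hQ : IsProf δ Q := ⟨h1, h2, h3, h4⟩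
  exact noConj_of_profile (collarSol hδ hQ) (collarNorm hδ hQ) (collarZero hδ)

end Vale.Agent.P255
end
end
end

section

section

/-!
# P255: products of Riemannian manifolds; products have no conjugate points
-/

open scoped Manifold ContDiff Topology
open Set Filter

set_option maxSynthPendingDepth 3
set_option linter.unusedSectionVars false

noncomputable section

namespace Vale.Agent.P255

variable {E F : Type} [NormedAddCommGroup E] [NormedSpace ℝ E] [NormedAddCommGroup F]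
  [NormedSpace ℝ F]
variable {M N : Type} [TopologicalSpace M] [ChartedSpace E M] [TopologicalSpace N]
  [ChartedSpace F N]

/-- product charts, modelled on the product vector space -/
instance prodCharted : ChartedSpace (E × F) (M × N) :=
  inferInstanceAs (ChartedSpace (ModelProd E F) (M × N))

theorem trans_prod (a b : M × N) (u : E × F) :
    trans (E × F) a b u = (trans E a.1 b.1 u.1, trans F a.2 b.2 u.2) := rfl

theorem fderiv_trans_prod [IsManifold 𝓘(ℝ, E) ∞ M] [IsManifold 𝓘(ℝ, F) ∞ N] (a b : M × N)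
    {u : E × F} (hu : u ∈ (chartAt (E × F) a).target)
    (hb : (chartAt (E × F) a).symm u ∈ (chartAt (E × F) b).source) (v : E × F) :
    fderiv ℝ (trans (E × F) a b) u v
      = (fderiv ℝ (trans E a.1 b.1) u.1 v.1, fderiv ℝ (trans F a.2 b.2) u.2 v.2) := by
  have h1 : DifferentiableAt ℝ (trans E a.1 b.1) u.1 :=
    (contDiffAt_trans a.1 b.1 hu.1 hb.1).differentiableAt (by simp)
  have h2 : DifferentiableAt ℝ (trans F a.2 b.2) u.2 :=
    (contDiffAt_trans a.2 b.2 hu.2 hb.2).differentiableAt (by simp)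
  have e1 : HasFDerivAt (fun u : E × F => trans E a.1 b.1 u.1)
      ((fderiv ℝ (trans E a.1 b.1) u.1).comp (ContinuousLinearMap.fst ℝ E F)) u :=
    h1.hasFDerivAt.comp u hasFDerivAt_fst
  have e2 : HasFDerivAt (fun u : E × F => trans F a.2 b.2 u.2)
      ((fderiv ℝ (trans F a.2 b.2) u.2).comp (ContinuousLinearMap.snd ℝ E F)) u :=
    h2.hasFDerivAt.comp u hasFDerivAt_snd
  have e3 : HasFDerivAt (trans (E × F) a b) _ u := e1.prodMk e2
  rw [e3.fderiv]
  rfl

/-- product of two Riemannian metrics -/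
def Metric.prod [IsManifold 𝓘(ℝ, E) ∞ M] [IsManifold 𝓘(ℝ, F) ∞ N] (g : Metric E M)
    (h : Metric F N) : Metric (E × F) (M × N) where
  coef a := prodG (g.coef a.1) (h.coef a.2)
  smooth := fun a => ((g.isMetricOn' a.1).prod (h.isMetricOn' a.2)).smooth
  symm := fun a => ((g.isMetricOn' a.1).prod (h.isMetricOn' a.2)).symm
  pos := fun a => ((g.isMetricOn' a.1).prod (h.isMetricOn' a.2)).pos
  compat := by
    intro a b u hu hb v w
    rw [fderiv_trans_prod a b hu hb, fderiv_trans_prod a b hu hb, trans_prod, prodG_apply,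
      prodG_apply]
    rw [g.compat a.1 b.1 u.1 hu.1 hb.1, h.compat a.2 b.2 u.2 hu.2 hb.2]

section

variable [IsManifold 𝓘(ℝ, E) ∞ M] [IsManifold 𝓘(ℝ, F) ∞ N]
  [FiniteDimensional ℝ E] [FiniteDimensional ℝ F]
  {g : Metric E M} {h : Metric F N} {γ : ℝ → M × N} {J : M × N → ℝ → E × F}

theorem deriv_prod_eq {f : ℝ → E × F} {t : ℝ} (hf : DifferentiableAt ℝ f t) :
    HasDerivAt (fun t => (f t).1) (deriv f t).1 t ∧ HasDerivAt (fun t => (f t).2) (deriv f t).2 t := by
  have h := hf.hasDerivAt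
  exact ⟨h.fst, h.snd⟩

/-- components of a geodesic of a product metric -/
theorem isGeodesic_fst (hγ : IsGeodesic (g.prod h) γ) : IsGeodesic g (fun t => (γ t).1) where
  cont := (continuous_fst.comp hγ.continuous).continuousOn
  eqn := by
    intro a t _ ha
    have hc := hγ.continuous
    set b := (γ t).2 with hb
    have hsrc : ∀ᶠ v in 𝓝 t, γ v ∈ (chartAt (E × F) (a, b)).source := by
      apply eventually_mem_source hc.continuousAt
      exact ⟨ha, mem_chart_source F b⟩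
    have hev : ∀ᶠ v in 𝓝 t, DifferentiableAt ℝ (cc (E := E × F) γ (a, b)) v ∧
        DifferentiableAt ℝ (deriv (cc (E := E × F) γ (a, b))) v ∧
        deriv (deriv (cc (E := E × F) γ (a, b))) v =
          - chris ((g.prod h).coef (a, b)) (cc γ (a, b) v) (deriv (cc γ (a, b)) v)
            (deriv (cc γ (a, b)) v) := by
      filter_upwards [hsrc] with v hv
      exact hγ.eqn (a, b) v (mem_univ _) hv
    obtain ⟨h1, h2, h3⟩ := hev.self_of_nhds
    have e1 : ∀ᶠ v in 𝓝 t, deriv (cc (E := E) (fun t => (γ t).1) a) v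
        = (deriv (cc (E := E × F) γ (a, b)) v).1 := by
      filter_upwards [hev] with v hv
      exact (deriv_prod_eq hv.1).1.deriv
    have e2 : HasDerivAt (deriv (cc (E := E) (fun t => (γ t).1) a))
        (deriv (deriv (cc (E := E × F) γ (a, b))) t).1 t :=
      (deriv_prod_eq h2).1.congr_of_eventuallyEq e1
    refine ⟨(deriv_prod_eq h1).1.differentiableAt, e2.differentiableAt, ?_⟩
    rw [e2.deriv, h3, e1.self_of_nhds]
    have hmem : cc (E := E × F) γ (a, b) t ∈ (chartAt E a).target ×ˢ (chartAt F b).target :=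
      cc_mem hsrc.self_of_nhds
    have := chris_prodG (g.isMetricOn' a) (h.isMetricOn' b) hmem (deriv (cc γ (a, b)) t)
      (deriv (cc γ (a, b)) t)
    have e3 : (g.prod h).coef (a, b) = prodG (g.coef a) (h.coef b) := rfl
    rw [e3, this]
    rfl

theorem isGeodesic_snd (hγ : IsGeodesic (g.prod h) γ) : IsGeodesic h (fun t => (γ t).2) where
  cont := (continuous_snd.comp hγ.continuous).continuousOn
  eqn := by
    intro b t _ hb
    have hc := hγ.continuous
    set a := (γ t).1 with ha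
    have hsrc : ∀ᶠ v in 𝓝 t, γ v ∈ (chartAt (E × F) (a, b)).source := by
      apply eventually_mem_source hc.continuousAt
      exact ⟨mem_chart_source E a, hb⟩
    have hev : ∀ᶠ v in 𝓝 t, DifferentiableAt ℝ (cc (E := E × F) γ (a, b)) v ∧
        DifferentiableAt ℝ (deriv (cc (E := E × F) γ (a, b))) v ∧
        deriv (deriv (cc (E := E × F) γ (a, b))) v =
          - chris ((g.prod h).coef (a, b)) (cc γ (a, b) v) (deriv (cc γ (a, b)) v)
            (deriv (cc γ (a, b)) v) := by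
      filter_upwards [hsrc] with v hv
      exact hγ.eqn (a, b) v (mem_univ _) hv
    obtain ⟨h1, h2, h3⟩ := hev.self_of_nhds
    have e1 : ∀ᶠ v in 𝓝 t, deriv (cc (E := F) (fun t => (γ t).2) b) v
        = (deriv (cc (E := E × F) γ (a, b)) v).2 := by
      filter_upwards [hev] with v hv
      exact (deriv_prod_eq hv.1).2.deriv
    have e2 : HasDerivAt (deriv (cc (E := F) (fun t => (γ t).2) b))
        (deriv (deriv (cc (E := E × F) γ (a, b))) t).2 t :=
      (deriv_prod_eq h2).2.congr_of_eventuallyEq e1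
    refine ⟨(deriv_prod_eq h1).2.differentiableAt, e2.differentiableAt, ?_⟩
    rw [e2.deriv, h3, e1.self_of_nhds]
    have hmem : cc (E := E × F) γ (a, b) t ∈ (chartAt E a).target ×ˢ (chartAt F b).target :=
      cc_mem hsrc.self_of_nhds
    have := chris_prodG (g.isMetricOn' a) (h.isMetricOn' b) hmem (deriv (cc γ (a, b)) t)
      (deriv (cc γ (a, b)) t)
    have e3 : (g.prod h).coef (a, b) = prodG (g.coef a) (h.coef b) := rfl
    rw [e3, this]
    rfl

theorem covD_prod {c : ℝ → E × F} {Y : ℝ → E × F} {t : ℝ} {a : M} {b : N}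
    (hmem : c t ∈ (chartAt E a).target ×ˢ (chartAt F b).target) (hc : DifferentiableAt ℝ c t)
    (hY : DifferentiableAt ℝ Y t) :
    covD (prodG (g.coef a) (h.coef b)) c Y t
      = (covD (g.coef a) (fun t => (c t).1) (fun t => (Y t).1) t,
          covD (h.coef b) (fun t => (c t).2) (fun t => (Y t).2) t) := by
  unfold covD
  rw [chris_prodG (g.isMetricOn' a) (h.isMetricOn' b) hmem, (deriv_prod_eq hc).1.deriv,
    (deriv_prod_eq hc).2.deriv, (deriv_prod_eq hY).1.deriv, (deriv_prod_eq hY).2.deriv]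
  rfl

/-- compatibility in product charts -/
theorem fst_compat (hJ : Compat γ J) {a a' : M} {b b' : N} {t : ℝ}
    (ha : (γ t).1 ∈ (chartAt E a).source) (ha' : (γ t).1 ∈ (chartAt E a').source)
    (hb : (γ t).2 ∈ (chartAt F b).source) (hb' : (γ t).2 ∈ (chartAt F b').source) :
    J (a', b') t = (fderiv ℝ (trans E a a') (cc (fun t => (γ t).1) a t) (J (a, b) t).1,
      fderiv ℝ (trans F b b') (cc (fun t => (γ t).2) b t) (J (a, b) t).2) := by
  have h1 : γ t ∈ (chartAt (E × F) (a, b)).source := ⟨ha, hb⟩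
  have h2 : γ t ∈ (chartAt (E × F) (a', b')).source := ⟨ha', hb'⟩
  rw [hJ (a, b) (a', b') t h1 h2]
  exact fderiv_trans_prod (a, b) (a', b') (cc_mem h1) (by rw [symm_cc h1]; exact h2) _

theorem trans_self_fderiv {a : M} {m : M} (ha : m ∈ (chartAt E a).source) (v : E) :
    fderiv ℝ (trans E a a) (chartAt E a m) v = v := by
  have h : trans E a a =ᶠ[𝓝 (chartAt E a m)] id := by
    filter_upwards [(chartAt E a).open_target.mem_nhds ((chartAt E a).map_source ha)] with x hx
    exact (chartAt E a).right_inv hx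
  rw [h.fderiv_eq, fderiv_id]
  rfl

/-- first component of a vector field along a curve in a product -/
def fldFst (γ : ℝ → M × N) (J : M × N → ℝ → E × F) (a : M) (t : ℝ) : E := (J (a, (γ t).2) t).1

/-- second component -/
def fldSnd (γ : ℝ → M × N) (J : M × N → ℝ → E × F) (b : N) (t : ℝ) : F := (J ((γ t).1, b) t).2

theorem fldFst_eq (hJ : Compat γ J) {a : M} {b : N} {t : ℝ}
    (h : γ t ∈ (chartAt (E × F) (a, b)).source) : fldFst γ J a t = (J (a, b) t).1 := by
  unfold fldFst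
  rw [fst_compat hJ h.1 h.1 h.2 (mem_chart_source F (γ t).2)]
  exact trans_self_fderiv h.1 _

theorem fldSnd_eq (hJ : Compat γ J) {a : M} {b : N} {t : ℝ}
    (h : γ t ∈ (chartAt (E × F) (a, b)).source) : fldSnd γ J b t = (J (a, b) t).2 := by
  unfold fldSnd
  rw [fst_compat hJ h.1 (mem_chart_source E (γ t).1) h.2 h.2]
  exact trans_self_fderiv h.2 _

theorem isJacobi_fst (hγ : IsGeodesic (g.prod h) γ) (hJ : IsJacobi (g.prod h) γ J) :
    IsJacobi g (fun t => (γ t).1) (fldFst γ J) where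
  compat := by
    intro a b t ha hb
    have h1 := fst_compat hJ.compat' ha hb (mem_chart_source F (γ t).2)
      (mem_chart_source F (γ t).2)
    unfold fldFst
    rw [h1]
  eqn := by
    intro a t ha
    have hc := hγ.continuous
    set b := (γ t).2 with hb
    have hsrc : ∀ᶠ v in 𝓝 t, γ v ∈ (chartAt (E × F) (a, b)).source := by
      apply eventually_mem_source hc.continuousAt
      exact ⟨ha, mem_chart_source F b⟩
    have hG : (g.prod h).coef (a, b) = prodG (g.coef a) (h.coef b) := rfl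
    have hJf : ∀ᶠ v in 𝓝 t, fldFst γ J a v = (J (a, b) v).1 := by
      filter_upwards [hsrc] with v hv
      exact fldFst_eq hJ.compat' hv
    have hmem : ∀ᶠ v in 𝓝 t,
        cc (E := E × F) γ (a, b) v ∈ (chartAt E a).target ×ˢ (chartAt F b).target := by
      filter_upwards [hsrc] with v hv
      exact cc_mem hv
    have hcd : ∀ᶠ v in 𝓝 t, DifferentiableAt ℝ (cc (E := E × F) γ (a, b)) v := by
      filter_upwards [hsrc] with v hv
      exact (hγ.eqn (a, b) v (mem_univ _) hv).1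
    have hJd : ∀ᶠ v in 𝓝 t, DifferentiableAt ℝ (J (a, b)) v := by
      filter_upwards [hsrc] with v hv
      exact (hJ.eqn (a, b) v hv).1
    have hcov : ∀ᶠ v in 𝓝 t, covD (g.coef a) (cc (fun t => (γ t).1) a) (fldFst γ J a) v
        = (covD (prodG (g.coef a) (h.coef b)) (cc γ (a, b)) (J (a, b)) v).1 := by
      filter_upwards [eventually_eventually_nhds.2 hJf, hmem, hcd, hJd] with v e1 e2 e3 e4
      rw [covD_prod e2 e3 e4]
      unfold covD
      have e5 : fldFst γ J a =ᶠ[𝓝 v] fun v => (J (a, b) v).1 := e1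
      rw [e5.deriv_eq, e1.self_of_nhds]
      rfl
    obtain ⟨j1, j2, j3⟩ := hJ.eqn (a, b) t hsrc.self_of_nhds
    rw [hG] at j2 j3
    have k1 : HasDerivAt (covD (g.coef a) (cc (fun t => (γ t).1) a) (fldFst γ J a))
        (deriv (covD (prodG (g.coef a) (h.coef b)) (cc γ (a, b)) (J (a, b))) t).1 t :=
      (deriv_prod_eq j2).1.congr_of_eventuallyEq hcov
    refine ⟨((deriv_prod_eq j1).1.congr_of_eventuallyEq hJf).differentiableAt,
      k1.differentiableAt, ?_⟩
    have j4 := congrArg Prod.fst j3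
    rw [curv_prodG (g.isMetricOn' a) (h.isMetricOn' b) hmem.self_of_nhds] at j4
    unfold covD at j4 ⊢
    rw [chris_prodG (g.isMetricOn' a) (h.isMetricOn' b) hmem.self_of_nhds] at j4
    have k2 := k1.deriv
    unfold covD at k2
    rw [k2, hJf.self_of_nhds]
    have k3 := hcov.self_of_nhds
    unfold covD at k3
    rw [hJf.self_of_nhds] at k3
    rw [k3]
    have k4 : deriv (cc (E := E) (fun t => (γ t).1) a) t = (deriv (cc (E := E × F) γ (a, b)) t).1 :=
      (deriv_prod_eq hcd.self_of_nhds).1.deriv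
    rw [k4]
    exact j4

theorem isJacobi_snd (hγ : IsGeodesic (g.prod h) γ) (hJ : IsJacobi (g.prod h) γ J) :
    IsJacobi h (fun t => (γ t).2) (fldSnd γ J) where
  compat := by
    intro a b t ha hb
    have h1 := fst_compat hJ.compat' (mem_chart_source E (γ t).1)
      (mem_chart_source E (γ t).1) ha hb
    unfold fldSnd
    rw [h1]
  eqn := by
    intro b t hb
    have hc := hγ.continuous
    set a := (γ t).1 with ha
    have hsrc : ∀ᶠ v in 𝓝 t, γ v ∈ (chartAt (E × F) (a, b)).source := by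
      apply eventually_mem_source hc.continuousAt
      exact ⟨mem_chart_source E a, hb⟩
    have hG : (g.prod h).coef (a, b) = prodG (g.coef a) (h.coef b) := rfl
    have hJf : ∀ᶠ v in 𝓝 t, fldSnd γ J b v = (J (a, b) v).2 := by
      filter_upwards [hsrc] with v hv
      exact fldSnd_eq hJ.compat' hv
    have hmem : ∀ᶠ v in 𝓝 t,
        cc (E := E × F) γ (a, b) v ∈ (chartAt E a).target ×ˢ (chartAt F b).target := by
      filter_upwards [hsrc] with v hv
      exact cc_mem hv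
    have hcd : ∀ᶠ v in 𝓝 t, DifferentiableAt ℝ (cc (E := E × F) γ (a, b)) v := by
      filter_upwards [hsrc] with v hv
      exact (hγ.eqn (a, b) v (mem_univ _) hv).1
    have hJd : ∀ᶠ v in 𝓝 t, DifferentiableAt ℝ (J (a, b)) v := by
      filter_upwards [hsrc] with v hv
      exact (hJ.eqn (a, b) v hv).1
    have hcov : ∀ᶠ v in 𝓝 t, covD (h.coef b) (cc (fun t => (γ t).2) b) (fldSnd γ J b) v
        = (covD (prodG (g.coef a) (h.coef b)) (cc γ (a, b)) (J (a, b)) v).2 := by
      filter_upwards [eventually_eventually_nhds.2 hJf, hmem, hcd, hJd] with v e1 e2 e3 e4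
      rw [covD_prod e2 e3 e4]
      unfold covD
      have e5 : fldSnd γ J b =ᶠ[𝓝 v] fun v => (J (a, b) v).2 := e1
      rw [e5.deriv_eq, e1.self_of_nhds]
      rfl
    obtain ⟨j1, j2, j3⟩ := hJ.eqn (a, b) t hsrc.self_of_nhds
    rw [hG] at j2 j3
    have k1 : HasDerivAt (covD (h.coef b) (cc (fun t => (γ t).2) b) (fldSnd γ J b))
        (deriv (covD (prodG (g.coef a) (h.coef b)) (cc γ (a, b)) (J (a, b))) t).2 t :=
      (deriv_prod_eq j2).2.congr_of_eventuallyEq hcov
    refine ⟨((deriv_prod_eq j1).2.congr_of_eventuallyEq hJf).differentiableAt,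
      k1.differentiableAt, ?_⟩
    have j4 := congrArg Prod.snd j3
    rw [curv_prodG (g.isMetricOn' a) (h.isMetricOn' b) hmem.self_of_nhds] at j4
    unfold covD at j4 ⊢
    rw [chris_prodG (g.isMetricOn' a) (h.isMetricOn' b) hmem.self_of_nhds] at j4
    have k2 := k1.deriv
    unfold covD at k2
    rw [k2, hJf.self_of_nhds]
    have k3 := hcov.self_of_nhds
    unfold covD at k3
    rw [hJf.self_of_nhds] at k3
    rw [k3]
    have k4 : deriv (cc (E := F) (fun t => (γ t).2) b) t = (deriv (cc (E := E × F) γ (a, b)) t).2 :=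
      (deriv_prod_eq hcd.self_of_nhds).2.deriv
    rw [k4]
    exact j4

end

/-- A product of metrics without conjugate points has no conjugate points. -/
theorem NoConj.prod [IsManifold 𝓘(ℝ, E) ∞ M] [IsManifold 𝓘(ℝ, F) ∞ N]
    [FiniteDimensional ℝ E] [FiniteDimensional ℝ F] {g : Metric E M} {h : Metric F N}
    (hg : NoConj g) (hh : NoConj h) : NoConj (g.prod h) := by
  intro γ J hγ hJ t₁ t₂ hne h1 h2
  have a1 : fldFst γ J (γ t₁).1 t₁ = 0 := by
    unfold fldFst
    rw [Prod.mk.eta, h1]; rfl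
  have a2 : fldFst γ J (γ t₂).1 t₂ = 0 := by
    unfold fldFst
    rw [Prod.mk.eta, h2]; rfl
  have b1 : fldSnd γ J (γ t₁).2 t₁ = 0 := by
    unfold fldSnd
    rw [Prod.mk.eta, h1]; rfl
  have b2 : fldSnd γ J (γ t₂).2 t₂ = 0 := by
    unfold fldSnd
    rw [Prod.mk.eta, h2]; rfl
  have k1 := hg _ _ (isGeodesic_fst hγ) (isJacobi_fst hγ hJ) t₁ t₂ hne a1 a2
  have k2 := hh _ _ (isGeodesic_snd hγ) (isJacobi_snd hγ hJ) t₁ t₂ hne b1 b2
  rintro ⟨a, b⟩ t ht
  have e1 := fldFst_eq hJ.compat' ht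
  have e2 := fldSnd_eq hJ.compat' ht
  rw [k1 a t ht.1] at e1
  rw [k2 b t ht.2] at e2
  exact Prod.ext e1.symm e2.symm

end Vale.Agent.P255
end
end
end

section

section

open scoped Manifold ContDiff Topology
open Set Filter

noncomputable section

namespace Vale.Agent.P255

variable {E F : Type} [NormedAddCommGroup E] [NormedSpace ℝ E] [NormedAddCommGroup F]
  [NormedSpace ℝ F]
variable {M N : Type} [TopologicalSpace M] [ChartedSpace E M] [TopologicalSpace N]
  [ChartedSpace F N]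

instance isManifold_prodCharted [IsManifold 𝓘(ℝ, E) ∞ M] [IsManifold 𝓘(ℝ, F) ∞ N] :
    IsManifold 𝓘(ℝ, E × F) ∞ (M × N) := by
  have h : IsManifold (𝓘(ℝ, E).prod 𝓘(ℝ, F)) ∞ (M × N) := inferInstance
  rw [← modelWithCornersSelf_prod] at h
  exact h

end Vale.Agent.P255
end
end
end

section

section

/-!
# P255: the circle as a glued space, with its flat metric
-/

open scoped Manifold ContDiff Topology
open Set

set_option maxSynthPendingDepth 3

noncomputable section

namespace Vale.Agent.P255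

/-- translation of the line by an integer -/
def trZ (n : ℤ) : ℝ ≃ₜ ℝ := Homeomorph.addRight (n : ℝ)

/-- the circle `ℝ / ℤ` -/
def S1G : Glue ℝ where
  K := Unit
  finK := inferInstance
  Om := fun _ => univ
  isOpen := fun _ => isOpen_univ
  rel := fun p q => ∃ n : ℤ, q.2 = p.2 + n
  refl := fun p _ => ⟨0, by simp⟩
  symm := by
    rintro p q _ _ ⟨n, hn⟩
    exact ⟨-n, by rw [hn]; push_cast; ring⟩
  trans := by
    rintro p q r _ _ _ ⟨n, hn⟩ ⟨m, hm⟩
    exact ⟨n + m, by rw [hm, hn]; push_cast; ring⟩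
  loc := by
    rintro p q _ _ ⟨n, hn⟩
    refine ⟨(trZ n).toOpenPartialHomeomorph, ?_, ?_, mem_univ _, ?_, subset_univ _,
      subset_univ _, ?_⟩
    · exact (contDiff_id.add contDiff_const).contDiffOn
    · show ContDiffOn ℝ ∞ (fun x : ℝ => x + (-(n : ℝ))) univ
      exact (contDiff_id.add contDiff_const).contDiffOn
    · exact hn.symm
    · intro u _
      exact ⟨n, rfl⟩
  inj := by
    intro p _
    refine ⟨Ioo (p.2 - 1 / 2) (p.2 + 1 / 2), isOpen_Ioo, by constructor <;> linarith,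
      subset_univ _, ?_⟩
    rintro u ⟨hu1, hu2⟩ v ⟨hv1, hv2⟩ ⟨n, hn⟩
    simp only at hn
    have h1 : ((n : ℤ) : ℝ) < 1 := by linarith
    have h2 : (-1 : ℝ) < ((n : ℤ) : ℝ) := by linarith
    have h3 : n < 1 := by exact_mod_cast h1
    have h4 : -1 < n := by exact_mod_cast h2
    have h5 : n = 0 := by omega
    rw [hn, h5]; simp
  closed := by
    intro k l u v _ _ h
    have hc : IsClosed (Set.range ((↑) : ℤ → ℝ)) := Int.isClosedEmbedding_coe_real.isClosed_range
    have h1 : v - u ∈ (Set.range ((↑) : ℤ → ℝ))ᶜ := by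
      rintro ⟨n, hn⟩
      exact h ⟨n, by simp only; linarith⟩
    obtain ⟨ε, hε, hball⟩ := Metric.isOpen_iff.1 hc.isOpen_compl _ h1
    refine ⟨Metric.ball u (ε / 2), Metric.ball v (ε / 2), Metric.isOpen_ball, Metric.isOpen_ball,
      Metric.mem_ball_self (by positivity), Metric.mem_ball_self (by positivity), ?_⟩
    rintro u' ⟨hu', _⟩ v' ⟨hv', _⟩ ⟨n, hn⟩
    simp only at hn
    rw [Metric.mem_ball, Real.dist_eq] at hu' hv'
    have h2 : v' - u' ∈ Metric.ball (v - u) ε := by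
      rw [Metric.mem_ball, Real.dist_eq]
      have : v' - u' - (v - u) = (v' - v) - (u' - u) := by ring
      rw [this]
      exact (abs_sub _ _).trans_lt (by linarith)
    exact hball h2 ⟨n, by linarith⟩
  cpt := by
    refine ⟨fun _ => Icc 0 1, fun _ => isCompact_Icc, fun _ => subset_univ _, ?_⟩
    rintro p _
    refine ⟨(), Int.fract p.2, ⟨Int.fract_nonneg _, (Int.fract_lt_one _).le⟩, -⌊p.2⌋, ?_⟩
    simp only
    push_cast
    rw [← sub_eq_add_neg, Int.self_sub_floor]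

/-- flat metric on the circle -/
def flat1 (_ : Unit) (_ : ℝ) : ℝ →L[ℝ] ℝ →L[ℝ] ℝ := innerSL ℝ

theorem isMetric_flat1 : S1G.IsMetric flat1 where
  smooth := fun k => contDiffOn_const
  symm := fun k u _ v w => by
    show inner ℝ v w = inner ℝ w v
    exact real_inner_comm _ _
  pos := fun k u _ v hv => by
    show 0 < inner ℝ v v
    exact real_inner_self_pos.2 hv
  inv := by
    rintro p q _ _ ⟨n, hn⟩
    refine ⟨(trZ n).toOpenPartialHomeomorph, mem_univ _, hn.symm, subset_univ _, subset_univ _,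
      (contDiff_id.add contDiff_const).contDiffOn, fun u _ => ⟨n, rfl⟩, ?_⟩
    intro u _ v w
    have h1 : fderiv ℝ ((trZ n).toOpenPartialHomeomorph : ℝ → ℝ) u = ContinuousLinearMap.id ℝ ℝ := by
      have : ((trZ n).toOpenPartialHomeomorph : ℝ → ℝ) = fun x => x + (n : ℝ) := rfl
      rw [this, fderiv_add_const]
      exact fderiv_id
    rw [h1]; rfl

/-- the flat circle -/
def gS1 : Metric ℝ S1G.Space := S1G.metric flat1 isMetric_flat1

theorem npc_gS1 : Npc gS1 := by
  intro a u hu v w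
  have hc : ∀ p x y : ℝ, chris (gS1.coef a) p x y = 0 := by
    intro p x y
    have h0 : fderiv ℝ (gS1.coef a) p = 0 := by
      have : gS1.coef a = fun _ => innerSL ℝ := rfl
      rw [this]
      exact fderiv_const_apply _
    unfold chris
    rw [h0]
    have : ((1 / 2 : ℝ) • (((0 : ℝ →L[ℝ] ℝ →L[ℝ] ℝ →L[ℝ] ℝ) x) y
      + ((0 : ℝ →L[ℝ] ℝ →L[ℝ] ℝ →L[ℝ] ℝ) y) x
      - (((0 : ℝ →L[ℝ] ℝ →L[ℝ] ℝ →L[ℝ] ℝ).flip x).flip y)) : ℝ →L[ℝ] ℝ) = 0 := by
      ext; simp only [one_div, zero_apply, add_zero, ContinuousLinearMap.flip_zero, sub_self, smul_zero]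
    rw [this, map_zero]
  have : curv (gS1.coef a) u v w w = 0 := by
    unfold curv
    simp only [hc]
    simp
  rw [this]
  simp

theorem noConj_gS1 : NoConj gS1 := noConj_of_npc npc_gS1

instance : ConnectedSpace S1G.Space := by
  have hs : Function.Surjective (fun x : ℝ => S1G.proj () ⟨x, mem_univ x⟩) := by
    intro x
    obtain ⟨k, u, rfl⟩ := S1G.exists_rep x
    exact ⟨u, rfl⟩
  have hc : Continuous (fun x : ℝ => S1G.proj () ⟨x, mem_univ x⟩) :=
    (S1G.continuous_proj ()).comp (Continuous.subtype_mk continuous_id _)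
  exact hs.connectedSpace hc

end Vale.Agent.P255
end
end
end

section

section

/-! # P255: bridge between Mathlib Riemannian metrics and the structure `Metric` -/

open scoped Manifold ContDiff Topology
open Set Bundle Filter

noncomputable section

set_option maxSynthPendingDepth 3

namespace Vale.Agent.P255

variable {E : Type} [NormedAddCommGroup E] [NormedSpace ℝ E]
variable {M : Type} [TopologicalSpace M] [ChartedSpace E M] [IsManifold 𝓘(ℝ, E) ∞ M]

/-- the coefficients of a metric as continuous bilinear forms -/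
def coefL (g : RMetric E M) (a : M) (u : E) : E →L[ℝ] E →L[ℝ] ℝ :=
  let D : E →L[ℝ] E := mfderiv 𝓘(ℝ, E) 𝓘(ℝ, E) (chartAt E a).symm u
  let B : E →L[ℝ] E →L[ℝ] ℝ := g.inner ((chartAt E a).symm u)
  B.bilinearComp D D

omit [IsManifold 𝓘(ℝ, E) ∞ M] in
theorem mfderiv_chart_symm_eq [IsManifold 𝓘(ℝ, E) 1 M] (a : M) {u : E}
    (hu : u ∈ (chartAt E a).target) :
    (mfderiv 𝓘(ℝ, E) 𝓘(ℝ, E) (chartAt E a).symm u : E →L[ℝ] E) =
      fderiv ℝ (trans E a ((chartAt E a).symm u)) u := by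
  have h : MDifferentiableAt 𝓘(ℝ, E) 𝓘(ℝ, E) (chartAt E a).symm u :=
    mdifferentiableAt_atlas_symm (chart_mem_atlas E a) hu
  have h2 : fderivWithin ℝ (writtenInExtChartAt 𝓘(ℝ, E) 𝓘(ℝ, E) u (chartAt E a).symm)
      (range 𝓘(ℝ, E)) (extChartAt 𝓘(ℝ, E) u u) =
      fderiv ℝ (trans E a ((chartAt E a).symm u)) u := by
    simp only [modelWithCornersSelf_coe, range_id, fderivWithin_univ]
    rfl
  exact h.mfderiv.trans h2

theorem coefL_apply (g : RMetric E M) (a : M) {u : E} (hu : u ∈ (chartAt E a).target) (x : M)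
    (hx : x = (chartAt E a).symm u) (v w : E) :
    coefL g a u v w = g.inner x (fderiv ℝ (trans E a x) u v : E)
      (fderiv ℝ (trans E a x) u w : E) := by
  subst hx
  unfold coefL
  simp only [mfderiv_chart_symm_eq a hu]
  rfl

theorem symmL_eq_fderiv (a : M) {x : M} (hx : x ∈ (chartAt E a).source) :
    ((trivializationAt E (TangentSpace 𝓘(ℝ, E)) a).symmL ℝ x : E →L[ℝ] E) =
      fderiv ℝ (trans E a x) (chartAt E a x) := by
  have h := TangentBundle.symmL_trivializationAt (I := 𝓘(ℝ, E)) (x₀ := a) (x := x) hx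
  have h1 : MDifferentiableAt 𝓘(ℝ, E) 𝓘(ℝ, E) (chartAt E a).symm (chartAt E a x) :=
    mdifferentiableAt_atlas_symm (chart_mem_atlas E a) ((chartAt E a).map_source hx)
  have e : (chartAt E a).symm (chartAt E a x) = x := (chartAt E a).left_inv hx
  have h2 : (mfderivWithin 𝓘(ℝ, E) 𝓘(ℝ, E) (extChartAt 𝓘(ℝ, E) a).symm (range 𝓘(ℝ, E))
      (extChartAt 𝓘(ℝ, E) a x) : E →L[ℝ] E) =
      mfderiv 𝓘(ℝ, E) 𝓘(ℝ, E) (chartAt E a).symm (chartAt E a x) := by
    simp only [modelWithCornersSelf_coe, range_id, mfderivWithin_univ]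
    rfl
  have h3 := mfderiv_chart_symm_eq a ((chartAt E a).map_source hx)
  have h4 : (fderiv ℝ (trans E a ((chartAt E a).symm (chartAt E a x))) (chartAt E a x)) =
      fderiv ℝ (trans E a x) (chartAt E a x) := by rw [e]
  exact h.trans (h2.trans (h3.trans h4))

theorem hom_triv_apply (a : M) {x : M} (hx : x ∈ (chartAt E a).source)
    (s : TangentSpace 𝓘(ℝ, E) x →L[ℝ] TangentSpace 𝓘(ℝ, E) x →L[ℝ] ℝ) (v w : E) :
    (trivializationAt (E →L[ℝ] E →L[ℝ] ℝ)
      (fun x : M => TangentSpace 𝓘(ℝ, E) x →L[ℝ] TangentSpace 𝓘(ℝ, E) x →L[ℝ] ℝ) a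
      ⟨x, s⟩).2 v w =
      s (fderiv ℝ (trans E a x) (chartAt E a x) v : E)
        (fderiv ℝ (trans E a x) (chartAt E a x) w : E) := by
  have h := inCoordinates_apply_eq₂ (𝕜 := ℝ) (E₁ := fun x : M => TangentSpace 𝓘(ℝ, E) x)
    (E₂ := fun x : M => TangentSpace 𝓘(ℝ, E) x) (E₃ := Bundle.Trivial M ℝ) (F₁ := E) (F₂ := E)
    (F₃ := ℝ) (x₀ := a) (x := x) (ϕ := s) (v := v) (w := w) hx hx (mem_univ _)
  have hv : ∀ v : E, ((trivializationAt E (TangentSpace 𝓘(ℝ, E)) a).symm x v : E) =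
      fderiv ℝ (trans E a x) (chartAt E a x) v := by
    intro v
    have h1 := congrArg (fun L : E →L[ℝ] E => L v) (symmL_eq_fderiv a hx)
    have h2 := (trivializationAt E (TangentSpace 𝓘(ℝ, E)) a).symmL_apply (R := ℝ) (b := x) hx v
    exact h2.symm.trans h1
  rw [← hv, ← hv]
  refine h.trans ?_
  exact congrArg (fun L : ℝ →ₗ[ℝ] ℝ => L (s ((trivializationAt E (TangentSpace 𝓘(ℝ, E)) a).symm x v)
      ((trivializationAt E (TangentSpace 𝓘(ℝ, E)) a).symm x w)))
    (Bundle.Trivial.linearMapAt_trivialization (𝕜 := ℝ) (B := M) (F := ℝ) x)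

/-- the coefficients of a family of bilinear forms on the tangent spaces, in the chart at `a` -/
theorem hom_triv_eq (a : M) {x : M} (hx : x ∈ (chartAt E a).source)
    (s : TangentSpace 𝓘(ℝ, E) x →L[ℝ] TangentSpace 𝓘(ℝ, E) x →L[ℝ] ℝ)
    (G : E →L[ℝ] E →L[ℝ] ℝ)
    (h : ∀ v w : E, s (fderiv ℝ (trans E a x) (chartAt E a x) v : E)
        (fderiv ℝ (trans E a x) (chartAt E a x) w : E) = G v w) :
    (trivializationAt (E →L[ℝ] E →L[ℝ] ℝ)
      (fun x : M => TangentSpace 𝓘(ℝ, E) x →L[ℝ] TangentSpace 𝓘(ℝ, E) x →L[ℝ] ℝ) a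
      ⟨x, s⟩).2 = G := by
  ext v w
  exact (hom_triv_apply a hx s v w).trans (h v w)

theorem coefL_chart (g : RMetric E M) (a : M) {x : M} (hx : x ∈ (chartAt E a).source) :
    (trivializationAt (E →L[ℝ] E →L[ℝ] ℝ)
      (fun x : M => TangentSpace 𝓘(ℝ, E) x →L[ℝ] TangentSpace 𝓘(ℝ, E) x →L[ℝ] ℝ) a
      ⟨x, g.inner x⟩).2 = coefL g a (chartAt E a x) := by
  apply hom_triv_eq a hx
  intro v w
  exact (coefL_apply g a ((chartAt E a).map_source hx) x ((chartAt E a).left_inv hx).symm v w).symm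

/-- smoothness of the coefficients -/
theorem contDiffOn_coefL (g : RMetric E M) (a : M) :
    ContDiffOn ℝ ∞ (coefL g a) (chartAt E a).target := by
  have h1 := g.contMDiff.contMDiffOn (s := (chartAt E a).source)
  have h2 := (Trivialization.contMDiffOn_section_iff
    (trivializationAt (E →L[ℝ] E →L[ℝ] ℝ)
      (fun x : M => TangentSpace 𝓘(ℝ, E) x →L[ℝ] TangentSpace 𝓘(ℝ, E) x →L[ℝ] ℝ) a)
      (chartAt E a).open_source (by intro x hx; exact ⟨hx, hx, mem_univ _⟩)).1 h1
  have h3 : ContMDiffOn 𝓘(ℝ, E) 𝓘(ℝ, E →L[ℝ] E →L[ℝ] ℝ) ∞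
      (fun x => coefL g a (chartAt E a x)) (chartAt E a).source := by
    refine h2.congr ?_
    intro x hx
    exact (coefL_chart g a hx).symm
  have h4 : ContMDiffOn 𝓘(ℝ, E) 𝓘(ℝ, E) ∞ (chartAt E a).symm (chartAt E a).target :=
    contMDiffOn_chart_symm
  have h5 := h3.comp h4 (fun u hu => (chartAt E a).map_target hu)
  rw [← contMDiffOn_iff_contDiffOn]
  refine h5.congr ?_
  intro u hu
  simp only [Function.comp, (chartAt E a).right_inv hu]

/-- chain rule for coordinate changes -/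
theorem fderiv_trans_comp (a b c : M) {u : E} (hu : u ∈ (chartAt E a).target)
    (hb : (chartAt E a).symm u ∈ (chartAt E b).source)
    (hc : (chartAt E a).symm u ∈ (chartAt E c).source) (v : E) :
    fderiv ℝ (trans E b c) (trans E a b u) (fderiv ℝ (trans E a b) u v) =
      fderiv ℝ (trans E a c) u v := by
  have hu' : trans E a b u ∈ (chartAt E b).target := (chartAt E b).map_source hb
  have e' : (chartAt E b).symm (trans E a b u) = (chartAt E a).symm u := (chartAt E b).left_inv hb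
  have h1 := (contDiffAt_trans_chart (E := E) a b hu hb).differentiableAt (by simp)
  have h2 := (contDiffAt_trans_chart (E := E) b c hu' (by rwa [e'])).differentiableAt (by simp)
  have h3 : HasFDerivAt (trans E b c ∘ trans E a b)
      ((fderiv ℝ (trans E b c) (trans E a b u)).comp (fderiv ℝ (trans E a b) u)) u :=
    HasFDerivAt.comp _ h2.hasFDerivAt h1.hasFDerivAt
  have h4 : trans E a c =ᶠ[𝓝 u] trans E b c ∘ trans E a b := by
    filter_upwards [eventually_trans a b hu hb] with x hx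
    simp only [Function.comp, trans, (chartAt E b).left_inv hx.2]
  have h5 := (h3.congr_of_eventuallyEq h4).fderiv
  rw [h5]; rfl

omit [IsManifold 𝓘(ℝ, E) ∞ M] in
theorem fderiv_trans_self (a : M) {u : E} (hu : u ∈ (chartAt E a).target) (v : E) :
    fderiv ℝ (trans E a a) u v = v := by
  have h4 : trans E a a =ᶠ[𝓝 u] id := by
    filter_upwards [(chartAt E a).open_target.mem_nhds hu] with x hx
    simp only [trans, (chartAt E a).right_inv hx, id]
  have h5 := ((hasFDerivAt_id (𝕜 := ℝ) u).congr_of_eventuallyEq h4).fderiv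
  rw [h5]; rfl

theorem fderiv_trans_injective (a b : M) {u : E} (hu : u ∈ (chartAt E a).target)
    (hb : (chartAt E a).symm u ∈ (chartAt E b).source) {v : E}
    (h : fderiv ℝ (trans E a b) u v = 0) : v = 0 := by
  have h1 := fderiv_trans_comp a b a hu hb ((chartAt E a).map_target hu) v
  rw [h, fderiv_trans_self a hu, map_zero] at h1
  exact h1.symm

/-- (1) a Mathlib metric gives a `Metric` -/
def toMetric (g : RMetric E M) : Metric E M where
  coef := coefL g
  smooth := contDiffOn_coefL g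
  symm := by
    intro a u hu v w
    rw [coefL_apply g a hu _ rfl, coefL_apply g a hu _ rfl]
    exact g.symm _ _ _
  pos := by
    intro a u hu v hv
    rw [coefL_apply g a hu _ rfl]
    refine g.pos _ _ ?_
    intro h
    exact hv (fderiv_trans_injective a _ hu (mem_chart_source E _) h)
  compat := by
    intro a b u hu hb v w
    have hu' : trans E a b u ∈ (chartAt E b).target := (chartAt E b).map_source hb
    have e' : (chartAt E a).symm u = (chartAt E b).symm (trans E a b u) :=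
      ((chartAt E b).left_inv hb).symm
    rw [coefL_apply g b hu' _ e', coefL_apply g a hu _ rfl,
      fderiv_trans_comp a b _ hu hb (mem_chart_source E _),
      fderiv_trans_comp a b _ hu hb (mem_chart_source E _)]

theorem isVonNBounded_of_pos [FiniteDimensional ℝ E] {G : E → E →L[ℝ] E →L[ℝ] ℝ} {U : Set E}
    (h : IsMetricOn G U) {u : E} (hu : u ∈ U) :
    Bornology.IsVonNBounded ℝ {v : E | G u v v < 1} := by
  obtain ⟨c, hc, hm⟩ := h.lower_bound hu
  have hm' := hm.self_of_nhds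
  rw [NormedSpace.isVonNBounded_iff, isBounded_iff_forall_norm_le]
  refine ⟨Real.sqrt (1 / c), fun v hv => ?_⟩
  have h1 := hm' v
  have h2 : G u v v < 1 := hv
  apply Real.le_sqrt_of_sq_le
  rw [le_div_iff₀ hc]
  linarith only [h1, h2]

/-- The bilinear form on the tangent space at `x`. -/
def Metric.form (g : Metric E M) (x : M) :
    TangentSpace 𝓘(ℝ, E) x →L[ℝ] TangentSpace 𝓘(ℝ, E) x →L[ℝ] ℝ :=
  (g.coef x (chartAt E x x) : E →L[ℝ] E →L[ℝ] ℝ)

/-- The Mathlib metric with the given coefficients. -/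
def Metric.toR [FiniteDimensional ℝ E] (g : Metric E M) : RMetric E M where
  inner := g.form
  symm x v w := g.symm x _ (mem_chart_target E x) v w
  pos x v hv := g.pos x _ (mem_chart_target E x) v hv
  isVonNBounded x := isVonNBounded_of_pos (g.isMetricOn x) (mem_chart_target E x)
  contMDiff := by
    intro a
    refine (Bundle.contMDiffAt_section (s := g.form) a).2 ?_
    have h1 : ContMDiffAt 𝓘(ℝ, E) 𝓘(ℝ, E →L[ℝ] E →L[ℝ] ℝ) ∞ (fun x => g.coef a (chartAt E a x))
        a := by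
      have h2 : ContMDiffAt 𝓘(ℝ, E) 𝓘(ℝ, E →L[ℝ] E →L[ℝ] ℝ) ∞ (g.coef a) (chartAt E a a) :=
        ((g.smooth a).contDiffAt
          ((chartAt E a).open_target.mem_nhds (mem_chart_target E a))).contMDiffAt
      have h3 : ContMDiffAt 𝓘(ℝ, E) 𝓘(ℝ, E) ∞ (chartAt E a) a :=
        (contMDiffOn_chart (I := 𝓘(ℝ, E)) (n := ∞) (x := a)).contMDiffAt
          ((chartAt E a).open_source.mem_nhds (mem_chart_source E a))
      exact h2.comp a h3
    refine h1.congr_of_eventuallyEq ?_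
    filter_upwards [(chartAt E a).open_source.mem_nhds (mem_chart_source E a)] with x hx
    apply hom_triv_eq a hx
    intro v w
    have hu : chartAt E a x ∈ (chartAt E a).target := (chartAt E a).map_source hx
    have e : (chartAt E a).symm (chartAt E a x) = x := (chartAt E a).left_inv hx
    have h4 := g.compat a x (chartAt E a x) hu (by rw [e]; exact mem_chart_source E x) v w
    rw [trans_symm_source a x hx] at h4
    exact h4

theorem coefL_toR [FiniteDimensional ℝ E] (g : Metric E M) (a : M) {u : E}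
    (hu : u ∈ (chartAt E a).target) : coefL g.toR a u = g.coef a u := by
  ext v w
  rw [coefL_apply _ a hu _ rfl]
  exact g.compat a ((chartAt E a).symm u) u hu (mem_chart_source E _) v w

/-- (2) conversely every `Metric` comes from a Mathlib metric, with the same coefficients on the
chart targets -/
theorem exists_rmetric [FiniteDimensional ℝ E] (g : Metric E M) :
    ∃ g' : RMetric E M, ∀ a, ∀ u ∈ (chartAt E a).target, ∀ v w,
      coefIn g' a u v w = g.coef a u v w :=
  ⟨g.toR, fun a u hu v w => by rw [← coefL_toR g a hu]; rfl⟩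

/-- (1) a Mathlib metric gives a `Metric` -/
theorem exists_metric (g : RMetric E M) :
    ∃ g' : Metric E M, ∀ a u v w, g'.coef a u v w = coefIn g a u v w :=
  ⟨toMetric g, fun _ _ _ _ => rfl⟩

end Vale.Agent.P255
end
end
end

section

section

/-!
# P255: comparison of the short definitions of the final statement with the working definitions
-/

open scoped Manifold ContDiff Topology
open Set Filter

set_option maxSynthPendingDepth 3

noncomputable section

namespace Vale.Agent.P255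

section Coord

variable {E : Type} [NormedAddCommGroup E] [NormedSpace ℝ E] [FiniteDimensional ℝ E]
variable {G : E → E →L[ℝ] E →L[ℝ] ℝ} {U : Set E} {F : E → E → E → ℝ}

theorem gam_eq (h : IsMetricOn G U) (hF : ∀ u ∈ U, ∀ v w, F u v w = G u v w) {u : E} (hu : u ∈ U)
    (v w : E) : Gam F u v w = chris G u v w := by
  have hd : ∀ a b z, fderiv ℝ (fun p => F p a b) u z = fderiv ℝ G u z a b := by
    intro a b z
    rw [← h.fderiv_apply_apply hu]
    have : (fun p => F p a b) =ᶠ[𝓝 u] fun p => G p a b := by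
      filter_upwards [h.mem_nhds hu] with p hp using hF p hp a b
    rw [this.fderiv_eq]
  have hspec : ∃ x : E, ∀ z : E, F u x z =
    (fderiv ℝ (fun p => F p w z) u v + fderiv ℝ (fun p => F p v z) u w
      - fderiv ℝ (fun p => F p v w) u z) / 2 := by
    refine ⟨chris G u v w, fun z => ?_⟩
    rw [hF u hu, hd, hd, hd, h.chris_spec hu]
  have h1 := Classical.epsilon_spec hspec
  apply h.ext hu
  intro z
  have h2 := h1 z
  rw [hF u hu, hd, hd, hd, ← h.chris_spec hu] at h2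
  exact h2

theorem gam_eventuallyEq (h : IsMetricOn G U) (hF : ∀ u ∈ U, ∀ v w, F u v w = G u v w) {u : E}
    (hu : u ∈ U) (v w : E) : (fun p => Gam F p v w) =ᶠ[𝓝 u] fun p => chris G p v w := by
  filter_upwards [h.mem_nhds hu] with p hp using gam_eq h hF hp v w

theorem riem_eq (h : IsMetricOn G U) (hF : ∀ u ∈ U, ∀ v w, F u v w = G u v w) {u : E} (hu : u ∈ U)
    (x y z : E) : Riem F u x y z = curv G u x y z := by
  unfold Riem curv
  rw [(gam_eventuallyEq h hF hu y z).fderiv_eq, (gam_eventuallyEq h hF hu x z).fderiv_eq]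
  simp only [gam_eq h hF hu]

theorem covDer_eq (h : IsMetricOn G U) (hF : ∀ u ∈ U, ∀ v w, F u v w = G u v w) {c Y : ℝ → E}
    {t : ℝ} (ht : c t ∈ U) : CovDer F c Y t = covD G c Y t := by
  unfold CovDer covD
  rw [gam_eq h hF ht]

theorem covDer_eventuallyEq (h : IsMetricOn G U) (hF : ∀ u ∈ U, ∀ v w, F u v w = G u v w)
    {c Y : ℝ → E} {t : ℝ} (hc : ContinuousAt c t) (ht : c t ∈ U) :
    CovDer F c Y =ᶠ[𝓝 t] covD G c Y := by
  filter_upwards [hc.eventually_mem (h.mem_nhds ht)] with s hs using covDer_eq h hF hs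

theorem covD_congr {c Y Z : ℝ → E} {t : ℝ} (h : Y =ᶠ[𝓝 t] Z) : covD G c Y t = covD G c Z t := by
  unfold covD
  rw [h.deriv_eq, h.self_of_nhds]

end Coord

section Mfd

variable {E : Type} [NormedAddCommGroup E] [NormedSpace ℝ E] [FiniteDimensional ℝ E]
variable {M : Type} [TopologicalSpace M] [ChartedSpace E M] [IsManifold 𝓘(ℝ, E) ∞ M]

theorem mdifferentiableAt_chart (a p : M) (hp : p ∈ (chartAt E a).source) :
    MDifferentiableAt 𝓘(ℝ, E) 𝓘(ℝ, E) (chartAt E a) p := by
  have h1 : ContMDiffAt 𝓘(ℝ, E) 𝓘(ℝ, E) ∞ (chartAt E a) p :=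
    (contMDiffOn_chart (I := 𝓘(ℝ, E)) (n := ∞) (x := a)).contMDiffAt
      ((chartAt E a).open_source.mem_nhds hp)
  exact h1.mdifferentiableAt (by simp)

theorem mdifferentiableAt_chart_symm (a : M) (u : E) (hu : u ∈ (chartAt E a).target) :
    MDifferentiableAt 𝓘(ℝ, E) 𝓘(ℝ, E) (chartAt E a).symm u := by
  have h1 : ContMDiffAt 𝓘(ℝ, E) 𝓘(ℝ, E) ∞ (chartAt E a).symm u :=
    (contMDiffOn_chart_symm (I := 𝓘(ℝ, E)) (n := ∞) (x := a)).contMDiffAt
      ((chartAt E a).open_target.mem_nhds hu)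
  exact h1.mdifferentiableAt (by simp)

/-- components in two charts -/
theorem mfderiv_chart_trans (a b p : M) (ha : p ∈ (chartAt E a).source)
    (hb : p ∈ (chartAt E b).source) (v : TangentSpace 𝓘(ℝ, E) p) :
    (mfderiv 𝓘(ℝ, E) 𝓘(ℝ, E) (chartAt E b) p v : E) =
      fderiv ℝ (trans E a b) (chartAt E a p) (mfderiv 𝓘(ℝ, E) 𝓘(ℝ, E) (chartAt E a) p v : E) := by
  have h1 := mdifferentiableAt_chart (E := E) a p ha
  have h2 := mdifferentiableAt_chart (E := E) b p hb
  have h3 := mdifferentiableAt_chart_symm (E := E) a (chartAt E a p)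
    ((chartAt E a).map_source ha)
  have h4 : (chartAt E a).symm (chartAt E a p) = p := (chartAt E a).left_inv ha
  have h5 : MDifferentiableAt 𝓘(ℝ, E) 𝓘(ℝ, E) (chartAt E b) ((chartAt E a).symm (chartAt E a p)) := by
    rw [h4]; exact h2
  have h6 : MDifferentiableAt 𝓘(ℝ, E) 𝓘(ℝ, E) (trans E a b) (chartAt E a p) :=
    h5.comp (chartAt E a p) h3
  have h7 : (chartAt E b : M → E) =ᶠ[𝓝 p] (trans E a b) ∘ (chartAt E a) := by
    filter_upwards [(chartAt E a).open_source.mem_nhds ha] with q hq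
    simp only [Function.comp, trans]
    rw [(chartAt E a).left_inv hq]
  have h8 := mfderiv_comp p h6 h1
  rw [h7.mfderiv_eq, h8, mfderiv_eq_fderiv]
  rfl

/-- the components in a chart determine the vector -/
theorem mfderiv_chart_injective (a p : M) (ha : p ∈ (chartAt E a).source)
    (v : TangentSpace 𝓘(ℝ, E) p) (hv : (mfderiv 𝓘(ℝ, E) 𝓘(ℝ, E) (chartAt E a) p v : E) = 0) :
    v = 0 := by
  have h1 := mdifferentiableAt_chart (E := E) a p ha
  have h3 := mdifferentiableAt_chart_symm (E := E) a (chartAt E a p)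
    ((chartAt E a).map_source ha)
  have h7 : ((chartAt E a).symm ∘ (chartAt E a) : M → M) =ᶠ[𝓝 p] id := by
    filter_upwards [(chartAt E a).open_source.mem_nhds ha] with q hq
    exact (chartAt E a).left_inv hq
  have h8 := mfderiv_comp p h3 h1
  rw [h7.mfderiv_eq, mfderiv_id] at h8
  have h9 := congrArg (fun L => L v) h8
  have h10 : mfderiv 𝓘(ℝ, E) 𝓘(ℝ, E) (chartAt E a) p v = 0 := hv
  simp only [ContinuousLinearMap.comp_apply] at h9
  rw [h10, map_zero] at h9
  exact h9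

theorem noConjugatePoints_of {g : Metric E M} {g' : RMetric E M}
    (h : ∀ a, ∀ u ∈ (chartAt E a).target, ∀ v w, coefIn g' a u v w = g.coef a u v w)
    (hg : NoConj g) : NoConjugatePoints g' := by
  intro γ J hγ hJ t₁ t₂ ht h1 h2 t
  obtain ⟨hγ0, hγ1⟩ := hγ
  have hmem : ∀ a t, γ t ∈ (chartAt E a).source → cc (E := E) γ a t ∈ (chartAt E a).target :=
    fun a t ha => (chartAt E a).map_source ha
  have hcc : ∀ a, curveIn (E := E) γ a = cc γ a := fun a => rfl
  have hcont : ∀ a t, γ t ∈ (chartAt E a).source → ContinuousAt (cc (E := E) γ a) t :=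
    fun a t ha => ((chartAt E a).continuousAt ha).comp hγ0.continuousAt
  have hgeo : IsGeodesic g γ :=
    { cont := hγ0.continuousOn
      eqn := by
        intro a t _ ha
        obtain ⟨e1, e2, e3⟩ := hγ1 a t ha
        rw [hcc] at e1 e2 e3
        refine ⟨e1, e2, ?_⟩
        rw [covDer_eq (g.isMetricOn a) (h a) (hmem a t ha)] at e3
        unfold covD at e3
        exact eq_neg_of_add_eq_zero_left e3 }
  have hjac : IsJacobi g γ (fieldIn γ J) :=
    { compat := fun a b t ha hb => mfderiv_chart_trans a b (γ t) ha hb (J t)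
      eqn := by
        intro a t ha
        obtain ⟨e1, e2, e3⟩ := hJ a t ha
        rw [hcc] at e2 e3
        have hm := g.isMetricOn a
        have hev := covDer_eventuallyEq (Y := fieldIn γ J a) hm (h a) (hcont a t ha) (hmem a t ha)
        refine ⟨e1, (hev.differentiableAt_iff).1 e2, ?_⟩
        rw [covDer_eq hm (h a) (hmem a t ha), covD_congr hev, riem_eq hm (h a) (hmem a t ha)] at e3
        exact e3 }
  have hz : ∀ s, J s = 0 → fieldIn γ J (γ s) s = 0 := by
    intro s hs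
    unfold fieldIn
    rw [hs]
    exact map_zero _
  have key := hg γ (fieldIn γ J) hgeo hjac t₁ t₂ ht (hz t₁ h1) (hz t₂ h2) (γ t) t
    (mem_chart_source E (γ t))
  exact mfderiv_chart_injective (γ t) (γ t) (mem_chart_source E (γ t)) (J t) key

theorem npc_of {g : RMetric E M} {g' : Metric E M}
    (h : ∀ a u v w, g'.coef a u v w = coefIn g a u v w) (hg : NonposCurvature g) : Npc g' := by
  intro a u hu v w
  have h' : ∀ u ∈ (chartAt E a).target, ∀ v w, coefIn g a u v w = g'.coef a u v w :=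
    fun u _ v w => (h a u v w).symm
  have := hg a u hu v w
  rw [riem_eq (g'.isMetricOn a) h' hu] at this
  rw [h]
  exact this

end Mfd

end Vale.Agent.P255
end
end
end

section

section

/-!
# P255: the final theorem
-/

open scoped Manifold ContDiff Topology

noncomputable section

namespace Vale.Agent.P255

/-- a closed three-manifold with a metric without conjugate points and without metrics of
nonpositive curvature -/
theorem main_result :
    ∃ (E : Type) (_ : NormedAddCommGroup E) (_ : NormedSpace ℝ E)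
      (M : Type) (_ : TopologicalSpace M) (_ : ChartedSpace E M) (_ : IsManifold 𝓘(ℝ, E) ∞ M),
      Module.finrank ℝ E = 3 ∧
      CompactSpace M ∧ T2Space M ∧ SecondCountableTopology M ∧ ConnectedSpace M ∧
      (∃ g : RMetric E M, NoConjugatePoints g) ∧ ¬ ∃ g : RMetric E M, NonposCurvature g := by
  obtain ⟨δ₀, hδ₀, h⟩ := noConj_g0
  have hδ : 0 < δ₀ / 2 := by positivity
  have hNC := h (δ₀ / 2) hδ (by linarith only [hδ₀])
  refine ⟨E3, inferInstance, inferInstance, (Sd (δ₀ / 2) hδ).Space, inferInstance, inferInstance,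
    inferInstance, by simp only [finrank_euclideanSpace, Fintype.card_fin], inferInstance,
    inferInstance, ChartedSpace.secondCountable_of_sigmaCompact E3 _, inferInstance, ?_, ?_⟩
  · obtain ⟨g', hg'⟩ := exists_rmetric (g0 (δ₀ / 2) hδ)
    exact ⟨g', noConjugatePoints_of hg' hNC⟩
  · rintro ⟨g, hg⟩
    obtain ⟨g', hg'⟩ := exists_metric g
    exact not_npc (δ₀ / 2) hδ hNC g' (npc_of hg' hg)

end Vale.Agent.P255
end
end
end

section

section

/-!
# P255: the counterexample in all dimensions `n ≥ 3`, by taking products with circles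
-/

open scoped Manifold ContDiff Topology
open Set

set_option maxSynthPendingDepth 3

noncomputable section

namespace Vale.Agent.P255

/-- the property which is preserved by products with closed manifolds -/
def Carries (E M : Type) [NormedAddCommGroup E] [NormedSpace ℝ E] [TopologicalSpace M]
    [ChartedSpace E M] : Prop :=
  (∃ g : Metric E M, NoConj g) ∧
  ∃ (m : M) (z z' A₁ A₂ B₁ B₂ : FundamentalGroup M m),
    Commute z A₁ ∧ Commute z A₂ ∧ A₁ * A₂ * A₁⁻¹ * A₂⁻¹ = z' ∧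
    Commute z' B₁ ∧ Commute z' B₂ ∧ B₁ * B₂ * B₁⁻¹ * B₂⁻¹ = z * z'⁻¹ ∧ z' ≠ 1

theorem carries_Sd (δ : ℝ) (hδ : 0 < δ) (hNC : NoConj (g0 δ hδ)) : Carries E3 (Sd δ hδ).Space := by
  refine ⟨⟨_, hNC⟩, m0 δ hδ, ?_⟩
  obtain ⟨z, z', A₁, A₂, B₁, B₂, h1, h2, h3, h4, h5, h6, h7⟩ := pi1_relations δ hδ
  refine ⟨z, z', A₁, A₂, B₁, B₂, h1, h2, h3, h4, h5, h6, fun hz' => ?_⟩
  obtain ⟨γ, hγ, hγ'⟩ := h7 hz'
  obtain ⟨e₀, he₀⟩ := exists_isExp (g0 δ hδ)
  have h8 := circ_zero δ hδ
  have key := he₀.closed_geodesic_not_null_of_noConj hNC (isGeodesic_circ hδ)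
    ⟨1 / 2, circ_half_ne δ hδ⟩ (γ.cast h8 h8) (fun t => by
      rw [Path.cast_coe, hγ' t]; rfl)
  apply key
  have h9 : (Path.refl (m0 δ hδ)).cast h8 h8 = Path.refl (circ δ hδ 0) := by
    ext t
    simp [h8]
  rw [← h9]
  exact homotopic_cast_aux h8 hγ

theorem Carries.not_npc {E M : Type} [NormedAddCommGroup E] [NormedSpace ℝ E]
    [FiniteDimensional ℝ E] [TopologicalSpace M] [ChartedSpace E M] [IsManifold 𝓘(ℝ, E) ∞ M]
    [CompactSpace M] [T2Space M] (h : Carries E M) (g : Metric E M) : ¬ Npc g := by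
  intro hg
  obtain ⟨-, m, z, z', A₁, A₂, B₁, B₂, h1, h2, h3, h4, h5, h6, h7⟩ := h
  obtain ⟨e, he⟩ := exists_isExp g
  exact h7 (he.obstruction_of_npc hg m z z' A₁ A₂ B₁ B₂ h1 h2 h3 h4 h5 h6)

theorem Carries.prod {E M F N : Type} [NormedAddCommGroup E] [NormedSpace ℝ E]
    [FiniteDimensional ℝ E] [TopologicalSpace M] [ChartedSpace E M] [IsManifold 𝓘(ℝ, E) ∞ M]
    [NormedAddCommGroup F] [NormedSpace ℝ F]
    [FiniteDimensional ℝ F] [TopologicalSpace N] [ChartedSpace F N] [IsManifold 𝓘(ℝ, F) ∞ N]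
    [Nonempty N] (h : Carries E M) {k : Metric F N} (hk : NoConj k) : Carries (E × F) (M × N) := by
  obtain ⟨⟨g, hg⟩, m, z, z', A₁, A₂, B₁, B₂, h1, h2, h3, h4, h5, h6, h7⟩ := h
  refine ⟨⟨g.prod k, hg.prod hk⟩, ?_⟩
  obtain ⟨b⟩ := ‹Nonempty N›
  let ι : C(M, M × N) := ⟨fun x => (x, b), by fun_prop⟩
  let π : C(M × N, M) := ⟨Prod.fst, continuous_fst⟩
  let f : FundamentalGroup M m →* FundamentalGroup (M × N) (m, b) := FundamentalGroup.map ι m
  have hf : Function.Injective f := by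
    intro x y hxy
    have h9 := congrArg (fun q : Path.Homotopic.Quotient (m, b) (m, b) => q.map π) hxy
    have h10 : ∀ x : FundamentalGroup M m,
        (Path.Homotopic.Quotient.map (x₀ := (m, b)) (x₁ := (m, b)) (f x) π :
          Path.Homotopic.Quotient m m) = x := by
      intro x
      induction x using Quotient.inductionOn with
      | h p => rfl
    have h11 := (h10 x).symm.trans (h9.trans (h10 y))
    exact h11
  refine ⟨(m, b), f z, f z', f A₁, f A₂, f B₁, f B₂, h1.map f, h2.map f, ?_, h4.map f, h5.map f,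
    ?_, ?_⟩
  · rw [← h3]; simp only [map_mul, map_inv]
  · have := congrArg f h6
    simpa only [map_mul, map_inv] using this
  · intro h8
    exact h7 (hf (h8.trans (map_one f).symm))

theorem exists_carries (n : ℕ) :
    ∃ (E : Type) (_ : NormedAddCommGroup E) (_ : NormedSpace ℝ E)
      (M : Type) (_ : TopologicalSpace M) (_ : ChartedSpace E M) (_ : IsManifold 𝓘(ℝ, E) ∞ M),
      FiniteDimensional ℝ E ∧ Module.finrank ℝ E = n + 3 ∧
      CompactSpace M ∧ T2Space M ∧ ConnectedSpace M ∧ Carries E M := by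
  induction n with
  | zero =>
    obtain ⟨δ₀, hδ₀, h⟩ := noConj_g0
    have hδ : 0 < δ₀ / 2 := by positivity
    have hNC := h (δ₀ / 2) hδ (by linarith only [hδ₀])
    exact ⟨E3, inferInstance, inferInstance, (Sd (δ₀ / 2) hδ).Space, inferInstance, inferInstance,
      inferInstance, inferInstance, by simp only [finrank_euclideanSpace, Fintype.card_fin, zero_add], inferInstance, inferInstance, inferInstance,
      carries_Sd _ hδ hNC⟩
  | succ n ih =>
    obtain ⟨E, i1, i2, M, i3, i4, i5, i6, h1, h2, h3, h4, h5⟩ := ih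
    refine ⟨E × ℝ, inferInstance, inferInstance, M × S1G.Space, inferInstance, prodCharted,
      isManifold_prodCharted, inferInstance, ?_, inferInstance, inferInstance, inferInstance,
      h5.prod noConj_gS1⟩
    rw [Module.finrank_prod, h1, Module.finrank_self]

/-- the counterexample in all dimensions `n ≥ 3` -/
theorem main_all (n : ℕ) (hn : 3 ≤ n) :
    ∃ (E : Type) (_ : NormedAddCommGroup E) (_ : NormedSpace ℝ E)
      (M : Type) (_ : TopologicalSpace M) (_ : ChartedSpace E M) (_ : IsManifold 𝓘(ℝ, E) ∞ M),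
      Module.finrank ℝ E = n ∧
      CompactSpace M ∧ T2Space M ∧ SecondCountableTopology M ∧ ConnectedSpace M ∧
      (∃ g : RMetric E M, NoConjugatePoints g) ∧ ¬ ∃ g : RMetric E M, NonposCurvature g := by
  obtain ⟨E, i1, i2, M, i3, i4, i5, i6, h1, h2, h3, h4, h5⟩ := exists_carries (n - 3)
  refine ⟨E, i1, i2, M, i3, i4, i5, by omega, h2, h3, ?_, h4, ?_, ?_⟩
  · have : SecondCountableTopology E := secondCountable_of_proper
    exact ChartedSpace.secondCountable_of_sigmaCompact E M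
  · obtain ⟨⟨g, hg⟩, -⟩ := h5
    obtain ⟨g', hg'⟩ := exists_rmetric g
    exact ⟨g', noConjugatePoints_of hg' hg⟩
  · rintro ⟨g, hg⟩
    obtain ⟨g', hg'⟩ := exists_metric g
    exact h5.not_npc g' (npc_of hg' hg)

end Vale.Agent.P255
end
end
end
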